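import Vale.Agent.P106.C.Dual
import Mathlib.MeasureTheory.Function.Jacobian
import Mathlib.LinearAlgebra.Transvection.Basic

open MeasureTheory Complex Set
open scoped ENNReal NNReal ContDiff FourierTransform ComplexConjugate

namespace Vale.Agent.P106.C

open Vale.Agent.P117 (E2 Adm nrm norm_fourier_le norm_fourierInv_le continuous_fourier continuous_fourierInv
  lintegral_sq_fourier_le integral_fourier_mul integral_fourierInv_mul)
open Vale.Agent.P106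

variable {c C : ℝ} {h : ℝ → ℝ}

theorem convex_Gb : Convex ℝ Gb := by
  intro x ⟨hx1, hx2, hx3⟩ y ⟨hy1, hy2, hy3⟩ a b ha hb hab
  rw [abs_le] at hx3 hy3
  have e0 : (a • x + b • y) 0 = a * x 0 + b * y 0 := by simp
  have e1 : (a • x + b • y) 1 = a * x 1 + b * y 1 := by simp
  refine ⟨?_, ?_, ?_⟩
  · rw [e0]; nlinarith
  · rw [e0]; nlinarith
  · rw [e0, e1, abs_le]; constructor <;> nlinarith

/-- the differential of the phase -/
noncomputable def dq (h : ℝ → ℝ) (ξ : E2) : E2 →L[ℝ] ℝ :=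
  (h (ξ 1 / ξ 0) - ξ 1 / ξ 0 * deriv h (ξ 1 / ξ 0)) • (EuclideanSpace.proj 0 : E2 →L[ℝ] ℝ) +
    deriv h (ξ 1 / ξ 0) • (EuclideanSpace.proj 1 : E2 →L[ℝ] ℝ)

theorem hasFDerivAt_coord (i : Fin 2) (ξ : E2) :
    HasFDerivAt (fun ξ : E2 => ξ i) (EuclideanSpace.proj i : E2 →L[ℝ] ℝ) ξ :=
  (EuclideanSpace.proj i : E2 →L[ℝ] ℝ).hasFDerivAt

theorem hasFDerivAt_qh (hh : HC c C h) {ξ : E2} (hξ : ξ 0 ≠ 0) : HasFDerivAt (qh h) (dq h ξ) ξ := by
  have h0 := hasFDerivAt_coord 0 ξ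
  have h1 := hasFDerivAt_coord 1 ξ
  have hi := (hasDerivAt_inv hξ).comp_hasFDerivAt ξ h0
  have hd := h1.mul hi
  have hc := (hc_deriv hh (ξ 1 * (ξ 0)⁻¹)).comp_hasFDerivAt ξ hd
  have hm := h0.mul hc
  have e : qh h = (fun ξ : E2 => ξ 0) * (h ∘ ((fun ξ : E2 => ξ 1) * ((fun x : ℝ => x⁻¹) ∘ fun ξ : E2 => ξ 0))) := by
    ext ξ; simp [qh, div_eq_mul_inv]
  rw [e]
  refine hm.congr_fderiv ?_
  ext v
  simp [dq]
  field_simp
  ring

theorem meas_dq_pt (h : ℝ → ℝ) (ξ m : E2) : dq h ξ m =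
    m 0 * (h (ξ 1 / ξ 0) - ξ 1 / ξ 0 * deriv h (ξ 1 / ξ 0)) + m 1 * deriv h (ξ 1 / ξ 0) := by
  simp [dq]; ring

/-- the change of variables on a tilted plane -/
noncomputable def psi (h : ℝ → ℝ) (m ξ : E2) : E2 := ξ - qh h ξ • m

theorem psi_fderiv (hh : HC c C h) (m : E2) {ξ : E2} (hξ : ξ 0 ≠ 0) :
    HasFDerivAt (psi h m) (ContinuousLinearMap.id ℝ E2 - (dq h ξ).smulRight m) ξ := by
  unfold psi
  exact (hasFDerivAt_id ξ).sub ((hasFDerivAt_qh hh hξ).smul_const m)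

theorem det_psi (h : ℝ → ℝ) (m ξ : E2) :
    (ContinuousLinearMap.id ℝ E2 - (dq h ξ).smulRight m).det = 1 - dq h ξ m := by
  have := LinearMap.transvection.det (R := ℝ) (V := E2) (f := -(dq h ξ : E2 →ₗ[ℝ] ℝ)) (v := m)
  have e : ((ContinuousLinearMap.id ℝ E2 - (dq h ξ).smulRight m : E2 →L[ℝ] E2) : E2 →ₗ[ℝ] E2) =
      LinearMap.transvection (-(dq h ξ : E2 →ₗ[ℝ] ℝ)) m := by
    ext v
    simp [LinearMap.transvection]
    ring
  rw [ContinuousLinearMap.det, e, this]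
  simp
  ring

theorem slope_le_two {ξ : E2} (hξ : ξ ∈ Gb) : |ξ 1 / ξ 0| ≤ 2 := by
  obtain ⟨h1, h2, h3⟩ := hξ
  have : 0 < ξ 0 := by linarith
  rw [abs_div, abs_of_pos this, div_le_iff₀ this]
  exact h3

theorem psi_injOn (hh : HC c C h) {m : E2} {κ : ℝ} (hκ : 0 < κ)
    (hm : ∀ u, |u| ≤ 2 → κ ≤ 1 - (m 0 * (h u - u * deriv h u) + m 1 * deriv h u)) :
    InjOn (psi h m) Gb := by
  intro ξ hξ ξ' hξ' he
  set D := qh h ξ - qh h ξ' with hD
  have h1 : ξ - ξ' = D • m := by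
    have he' : ξ - qh h ξ • m = ξ' - qh h ξ' • m := he
    rw [hD, sub_smul]
    exact sub_eq_sub_iff_sub_eq_sub.1 he'
  have hpos : ∀ ζ ∈ Gb, ζ 0 ≠ 0 := by
    rintro ζ ⟨h1, -, -⟩ h0
    rw [h0] at h1
    norm_num at h1
  have hseg : ∀ s ∈ Icc (0:ℝ) 1, ξ' + s • (ξ - ξ') ∈ Gb := by
    intro s hs
    have := convex_Gb hξ' hξ (a := 1 - s) (b := s) (by linarith [hs.2]) hs.1 (by ring)
    convert this using 1
    module
  have hder : ∀ s ∈ Icc (0:ℝ) 1, HasDerivAt (fun s : ℝ => qh h (ξ' + s • (ξ - ξ')))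
      (dq h (ξ' + s • (ξ - ξ')) (ξ - ξ')) s := by
    intro s hs
    have h2 : HasDerivAt (fun s : ℝ => ξ' + s • (ξ - ξ')) (ξ - ξ') s := by
      have := ((hasDerivAt_id s).smul_const (ξ - ξ')).const_add ξ'
      simpa using this
    exact (hasFDerivAt_qh hh (hpos _ (hseg s hs))).comp_hasDerivAt s h2
  obtain ⟨s, hs, hse⟩ := exists_hasDerivAt_eq_slope (fun s : ℝ => qh h (ξ' + s • (ξ - ξ')))
    (fun s => dq h (ξ' + s • (ξ - ξ')) (ξ - ξ')) one_pos
    (fun s hs => (hder s hs).continuousAt.continuousWithinAt)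
    (fun s hs => hder s (Ioo_subset_Icc_self hs))
  simp only [one_smul, add_sub_cancel, zero_smul, add_zero, sub_zero, div_one] at hse
  rw [← hD] at hse
  have h3 : dq h (ξ' + s • (ξ - ξ')) (ξ - ξ') = D * dq h (ξ' + s • (ξ - ξ')) m := by
    conv_lhs => rw [h1]
    rw [map_smul, smul_eq_mul, ← h1]
  rw [h3, meas_dq_pt] at hse
  have h4 := hm _ (slope_le_two (hseg s (Ioo_subset_Icc_self hs)))
  have h5 : D = 0 := by
    set e := (m 0 * (h ((ξ' + s • (ξ - ξ')) 1 / (ξ' + s • (ξ - ξ')) 0) -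
      (ξ' + s • (ξ - ξ')) 1 / (ξ' + s • (ξ - ξ')) 0 * deriv h ((ξ' + s • (ξ - ξ')) 1 / (ξ' + s • (ξ - ξ')) 0)) +
      m 1 * deriv h ((ξ' + s • (ξ - ξ')) 1 / (ξ' + s • (ξ - ξ')) 0)) with he
    have : D * (1 - e) = 0 := by linarith
    rcases mul_eq_zero.1 this with h | h
    · exact h
    · linarith
  rw [h5, zero_smul, sub_eq_zero] at h1
  exact h1

theorem lintegral_comp_psi_le (hh : HC c C h) {m : E2} {κ : ℝ} (hκ : 0 < κ)
    (hm : ∀ u, |u| ≤ 2 → κ ≤ 1 - (m 0 * (h u - u * deriv h u) + m 1 * deriv h u)) (G : E2 → ℝ≥0∞) :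
    ENNReal.ofReal κ * ∫⁻ ξ in Gb, G (psi h m ξ) ≤ ∫⁻ ξ, G ξ := by
  have hpos : ∀ ζ ∈ Gb, ζ 0 ≠ 0 := by
    rintro ζ ⟨h1, -, -⟩ h0
    rw [h0] at h1
    norm_num at h1
  have h1 := lintegral_image_eq_lintegral_abs_det_fderiv_mul volume measurableSet_Gb
    (fun ξ hξ => (psi_fderiv hh m (hpos ξ hξ)).hasFDerivWithinAt) (psi_injOn hh hκ hm) G
  calc ENNReal.ofReal κ * ∫⁻ ξ in Gb, G (psi h m ξ)
      = ∫⁻ ξ in Gb, ENNReal.ofReal κ * G (psi h m ξ) := (lintegral_const_mul' _ _ ENNReal.ofReal_ne_top).symm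
    _ ≤ ∫⁻ ξ in Gb, ENNReal.ofReal |(ContinuousLinearMap.id ℝ E2 - (dq h ξ).smulRight m).det| *
          G (psi h m ξ) := by
        apply setLIntegral_mono_ae' measurableSet_Gb
        filter_upwards with ξ hξ
        gcongr
        rw [det_psi, meas_dq_pt]
        exact (hm _ (slope_le_two hξ)).trans (le_abs_self _)
    _ = ∫⁻ x in psi h m '' Gb, G x := h1.symm
    _ ≤ _ := setLIntegral_le_lintegral _ _

theorem integral_plane {f : E2 → ℂ} (hh : HC c C h) (hf : Adm volume f) (hs : FS f Gb) (m : E2) (b : ℝ)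
    {φ : E2 → ℂ} (hφ : Adm volume φ) :
    ∫ x, ev h (b - inner ℝ m x) f x * φ x =
      ∫ ξ, cexp (2 * Real.pi * I * (b * qh h ξ : ℝ)) * 𝓕 f ξ * 𝓕⁻ φ (psi h m ξ) := by
  have hq := measurable_qh hh
  have e1 : ∀ x, ev h (b - inner ℝ m x) f x * φ x =
      ∫ ξ, cexp (2 * Real.pi * I * ((inner ℝ ξ x + (b - inner ℝ m x) * qh h ξ : ℝ))) * (𝓕 f ξ * φ x) := by
    intro x
    rw [ev_eq, ← integral_mul_const]
    simp_rw [mul_assoc]
  simp_rw [e1]
  rw [integral_integral_swap]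
  · congr 1
    ext ξ
    rw [Real.fourierInv_eq', ← integral_const_mul]
    congr 1
    ext x
    rw [smul_eq_mul]
    have : (cexp (2 * Real.pi * I * ((inner ℝ ξ x + (b - inner ℝ m x) * qh h ξ : ℝ)))) =
        cexp (2 * Real.pi * I * (b * qh h ξ : ℝ)) * cexp (↑(2 * Real.pi * inner ℝ x (psi h m ξ)) * I) := by
      rw [← Complex.exp_add]
      congr 1
      unfold psi
      rw [inner_sub_right, inner_smul_right, real_inner_comm ξ x, real_inner_comm m x]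
      push_cast
      ring
    rw [this]
    ring
  · have h1 : Integrable (fun p : E2 × E2 => φ p.1 * 𝓕 f p.2) (volume.prod volume) :=
      hφ.int.mul_prod (integrable_fourier hf hs)
    refine h1.norm.mono' ?_ ?_
    · apply AEStronglyMeasurable.mul
      · apply Measurable.aestronglyMeasurable
        fun_prop
      · apply Measurable.aestronglyMeasurable
        have h2 := (continuous_fourier hf.int).measurable
        have h3 := hφ.meas
        exact (h2.comp measurable_snd).mul (h3.comp measurable_fst)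
    · filter_upwards with p
      simp only [Function.uncurry]
      rw [norm_mul, norm_ephase, one_mul, norm_mul, norm_mul, mul_comm]

theorem plane_dual {f : E2 → ℂ} (hh : HC c C h) (hf : Adm volume f) (hs : FS f Gb) {m : E2} (b : ℝ)
    {κ : ℝ} (hκ : 0 < κ) (hm : ∀ u, |u| ≤ 2 → κ ≤ 1 - (m 0 * (h u - u * deriv h u) + m 1 * deriv h u))
    {φ : E2 → ℂ} (hφ : Adm volume φ) :
    ‖∫ x, ev h (b - inner ℝ m x) f x * φ x‖ₑ ≤ (∫⁻ x, ‖f x‖ₑ ^ 2) ^ (1/2:ℝ) *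
      ((ENNReal.ofReal κ)⁻¹ * ∫⁻ x, ‖φ x‖ₑ ^ 2) ^ (1/2:ℝ) := by
  rw [integral_plane hh hf hs m b hφ]
  have hpos : ∀ ζ ∈ Gb, ζ 0 ≠ 0 := by
    rintro ζ ⟨h1, -, -⟩ h0
    rw [h0] at h1
    norm_num at h1
  have hψ : Measurable (psi h m) := by
    unfold psi
    have := measurable_qh hh
    fun_prop
  have hgn : ∫⁻ x, ‖𝓕⁻ φ x‖ₑ ^ 2 ≤ ∫⁻ x, ‖φ x‖ₑ ^ 2 := by
    have h1 := lintegral_sq_fourier_le (hφ.int.comp_neg) (hφ.meas.comp measurable_neg)
    rw [← Real.fourierInv_eq_fourier_comp_neg] at h1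
    refine h1.trans (le_of_eq ?_)
    exact lintegral_neg_eq_self (fun x => ‖φ x‖ₑ ^ 2)
  calc _ ≤ ∫⁻ ξ, ‖cexp (2 * Real.pi * I * (b * qh h ξ : ℝ)) * 𝓕 f ξ * 𝓕⁻ φ (psi h m ξ)‖ₑ :=
        enorm_integral_le_lintegral_enorm _
    _ = ∫⁻ ξ in Gb, ‖𝓕 f ξ‖ₑ * ‖𝓕⁻ φ (psi h m ξ)‖ₑ := by
        rw [← lintegral_indicator measurableSet_Gb]
        apply lintegral_congr
        intro ξ
        have e : ‖cexp (2 * Real.pi * I * (b * qh h ξ : ℝ))‖ₑ = 1 := by
          rw [← ofReal_norm, norm_ephase, ENNReal.ofReal_one]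
        rw [enorm_mul, enorm_mul, e, one_mul]
        by_cases hξ : ξ ∈ Gb
        · rw [indicator_of_mem hξ]
        · rw [indicator_of_notMem hξ, hs ξ hξ]; simp
    _ ≤ (∫⁻ ξ in Gb, ‖𝓕 f ξ‖ₑ ^ (2:ℝ)) ^ (1/2:ℝ) * (∫⁻ ξ in Gb, ‖𝓕⁻ φ (psi h m ξ)‖ₑ ^ (2:ℝ)) ^ (1/2:ℝ) := by
        apply ENNReal.lintegral_mul_le_Lp_mul_Lq _ Real.HolderConjugate.two_two
        · exact (continuous_fourier hf.int).measurable.enorm.aemeasurable
        · exact ((continuous_fourierInv hφ.int).measurable.comp hψ).enorm.aemeasurable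
    _ ≤ _ := by
        simp only [ENNReal.rpow_ofNat]
        refine mul_le_mul' (ENNReal.rpow_le_rpow ?_ (by norm_num)) (ENNReal.rpow_le_rpow ?_ (by norm_num))
        · exact (setLIntegral_le_lintegral _ _).trans (lintegral_sq_fourier_le hf.int hf.meas)
        · have h1 := lintegral_comp_psi_le hh hκ hm (fun ξ => ‖𝓕⁻ φ ξ‖ₑ ^ 2)
          have hκ0 : ENNReal.ofReal κ ≠ 0 := by simpa using hκ
          calc ∫⁻ ξ in Gb, ‖𝓕⁻ φ (psi h m ξ)‖ₑ ^ 2
              = (ENNReal.ofReal κ)⁻¹ * (ENNReal.ofReal κ * ∫⁻ ξ in Gb, ‖𝓕⁻ φ (psi h m ξ)‖ₑ ^ 2) := by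
                rw [← mul_assoc, ENNReal.inv_mul_cancel hκ0 ENNReal.ofReal_ne_top, one_mul]
            _ ≤ _ := by gcongr; exact h1.trans hgn

/-- L² bound on a tilted plane -/
theorem plane_L2 {f : E2 → ℂ} (hh : HC c C h) (hf : Adm volume f) (hs : FS f Gb) {m : E2} (b : ℝ)
    {κ : ℝ} (hκ : 0 < κ) (hm : ∀ u, |u| ≤ 2 → κ ≤ 1 - (m 0 * (h u - u * deriv h u) + m 1 * deriv h u)) :
    ∫⁻ x, ‖ev h (b - inner ℝ m x) f x‖ₑ ^ 2 ≤ (ENNReal.ofReal κ)⁻¹ * ∫⁻ x, ‖f x‖ₑ ^ 2 := by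
  have hc : Continuous (fun x : E2 => ev h (b - inner ℝ m x) f x) := by
    have h1 := continuous_ev hh hf hs
    have h2 : Continuous (fun x : E2 => ((b - inner ℝ m x, x) : ℝ × E2)) := by fun_prop
    have h3 := h1.comp h2
    simpa only [Function.comp_def] using h3
  have hB : ∀ x : E2, ‖ev h (b - inner ℝ m x) f x‖ ≤ ∫ ξ, ‖𝓕 f ξ‖ := fun x => norm_ev_le x _
  suffices key : ∫⁻ x, ‖ev h (b - inner ℝ m x) f x‖ₑ ^ 2 * ENNReal.ofReal ((fun _ : E2 => (1:ℝ)) x) ≤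
      (ENNReal.ofReal κ)⁻¹ * ∫⁻ x, ‖f x‖ₑ ^ 2 by
    simpa using key
  apply weighted_dual hc hB measurable_const (fun _ => zero_le_one) (fun _ => le_rfl)
  · intro n
    have h1 := plane_dual hh hf hs b hκ hm (tst_adm hc hB (w := fun _ => 1)
      measurable_const (fun _ => zero_le_one) (fun _ => le_rfl) n)
    refine h1.trans (le_of_eq ?_)
    rw [ENNReal.mul_rpow_of_nonneg _ _ (by norm_num : (0:ℝ) ≤ 1/2),
      ENNReal.mul_rpow_of_nonneg _ _ (by norm_num : (0:ℝ) ≤ 1/2), ← mul_assoc, mul_comm ((∫⁻ x, ‖f x‖ₑ ^ 2) ^ (1/2:ℝ))]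
    congr 2
    rw [← lintegral_indicator Metric.isClosed_closedBall.measurableSet]
    apply lintegral_congr
    intro x
    unfold tst
    by_cases hx : x ∈ Metric.closedBall (0 : E2) n
    · rw [indicator_of_mem hx, indicator_of_mem hx]
      simp
    · rw [indicator_of_notMem hx, indicator_of_notMem hx]
      simp

theorem lintegral_affine {a : ℝ} (ha : 0 < a) (β : ℝ) (g : ℝ → ℝ≥0∞) :
    ∫⁻ t, g (a * t + β) = ENNReal.ofReal a⁻¹ * ∫⁻ t, g t := by
  have h1 : ∫⁻ t, g (a * t + β) = ENNReal.ofReal a⁻¹ * ∫⁻ t, g (t + β) := by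
    have h2 := Real.smul_map_volume_mul_left ha.ne'
    have hme : MeasurableEmbedding (fun x : ℝ => a * x) := measurableEmbedding_mulLeft₀ ha.ne'
    calc ∫⁻ t, g (a * t + β) = ∫⁻ t, g (t + β) ∂(Measure.map (fun x => a * x) volume) := by
          rw [hme.lintegral_map]
      _ = ENNReal.ofReal a⁻¹ * ∫⁻ t, g (t + β) := by
          conv_rhs => rw [← h2]
          rw [lintegral_smul_measure, smul_eq_mul, ← mul_assoc, ← ENNReal.ofReal_mul (by positivity),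
            abs_of_pos ha, inv_mul_cancel₀ ha.ne', ENNReal.ofReal_one, one_mul]
  rw [h1, lintegral_add_right_eq_self (fun t => g t) β]

theorem normal_n2 {C1 : ℝ} {n : Fin 3 → ℝ} (hh : HC c C h) (hn : Normal C1 h n) : 1 ≤ n 2 ∧ n 2 ≤ C1 := by
  have h1 := hn.lower 0 (by norm_num)
  have h2 := hn.upper 0 (by norm_num)
  simp only [kapn, hh.zero, hh.dzero, zero_mul, sub_zero, mul_zero] at h1 h2
  exact ⟨h1, h2⟩

theorem flux {C1 : ℝ} {n : Fin 3 → ℝ} (hh : HC c C h) (hn : Normal C1 h n) (c' : ℝ) {H : ℝ} (hH : 0 < H)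
    (R : ℝ) {f : E2 → ℂ} (hf : Adm volume f) (hs : FS f Gb) :
    slabInt h n c' H R 2 f ≤ ENNReal.ofReal (2 * C1 * H) * ∫⁻ x, ‖f x‖ₑ ^ (2:ℝ) := by
  obtain ⟨hn1, hn2⟩ := normal_n2 hh hn
  have hC1 : 1 ≤ C1 := hn1.trans hn2
  have hn0 : (0:ℝ) < n 2 := by linarith
  have hcont := continuous_ev hh hf hs
  set m : E2 := !₂[n 0 / n 2, n 1 / n 2] with hmdef
  have hm : ∀ u, |u| ≤ 2 → C1⁻¹ ≤ 1 - (m 0 * (h u - u * deriv h u) + m 1 * deriv h u) := by
    intro u hu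
    have h1 := hn.lower u hu
    have e : 1 - (m 0 * (h u - u * deriv h u) + m 1 * deriv h u) = kapn h n u / n 2 := by
      simp only [hmdef, kapn, PiLp.toLp_apply, Matrix.cons_val_zero, Matrix.cons_val_one]
      field_simp
      ring
    rw [e, inv_eq_one_div, div_le_div_iff₀ (by linarith) hn0]
    nlinarith
  have hinner : ∀ x : E2, inner ℝ m x = (n 0 * x 0 + n 1 * x 1) / n 2 := by
    intro x
    simp [hmdef, PiLp.inner_apply, Fin.sum_univ_two]
    ring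
  -- the integrand on the whole space
  set P : ℝ × E2 → ℝ≥0∞ := fun p => (Icc (-H) H).indicator (fun _ => ‖ev h p.1 f p.2‖ₑ ^ 2)
    (n 2 * p.1 + (n 0 * p.2 0 + n 1 * p.2 1 - c')) with hP
  have hPm : Measurable P := by
    have h1 : Measurable (fun p : ℝ × E2 => ‖ev h p.1 f p.2‖ₑ ^ 2) := by
      have := hcont.measurable
      fun_prop
    have h2 : MeasurableSet {p : ℝ × E2 | n 2 * p.1 + (n 0 * p.2 0 + n 1 * p.2 1 - c') ∈ Icc (-H) H} := by
      have : Measurable (fun p : ℝ × E2 => n 2 * p.1 + (n 0 * p.2 0 + n 1 * p.2 1 - c')) := by fun_prop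
      exact this measurableSet_Icc
    have h3 : P = {p : ℝ × E2 | n 2 * p.1 + (n 0 * p.2 0 + n 1 * p.2 1 - c') ∈ Icc (-H) H}.indicator
        (fun p : ℝ × E2 => ‖ev h p.1 f p.2‖ₑ ^ 2) := by
      ext p
      simp only [hP, indicator, mem_ofPred_eq]
    rw [h3]
    exact h1.indicator h2
  have step1 : slabInt h n c' H R 2 f ≤ ∫⁻ t, ∫⁻ x, P (t, x) := by
    unfold slabInt
    refine (setLIntegral_le_lintegral _ _).trans ?_
    apply lintegral_mono
    intro t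
    have hset : MeasurableSet (slabAt n c' H t) := by
      unfold slabAt
      have : Measurable (fun x : E2 => |n 0 * x 0 + n 1 * x 1 + n 2 * t - c'|) := by fun_prop
      exact measurableSet_le this measurable_const
    simp only
    rw [← lintegral_indicator hset]
    apply lintegral_mono
    intro x
    by_cases hx : x ∈ slabAt n c' H t
    · have hx' : n 2 * t + (n 0 * x 0 + n 1 * x 1 - c') ∈ Icc (-H) H := by
        have h1 : |n 0 * x 0 + n 1 * x 1 + n 2 * t - c'| ≤ H := hx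
        rw [abs_le] at h1
        constructor <;> linarith [h1.1, h1.2]
      simp only [hP]
      rw [indicator_of_mem hx, indicator_of_mem hx']
      exact le_of_eq (ENNReal.rpow_ofNat _ 2)
    · rw [indicator_of_notMem hx]
      exact zero_le
  have step2 : ∫⁻ t, ∫⁻ x, P (t, x) = ∫⁻ x, ∫⁻ t, P (t, x) := lintegral_lintegral_swap (by
    simpa only [Function.uncurry_def] using hPm.aemeasurable)
  have step3 : ∀ x : E2, ∫⁻ t, P (t, x) = ENNReal.ofReal (n 2)⁻¹ *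
      ∫⁻ a in Icc (-H) H, ‖ev h ((c' + a) / n 2 - inner ℝ m x) f x‖ₑ ^ 2 := by
    intro x
    have h1 := lintegral_affine hn0 (n 0 * x 0 + n 1 * x 1 - c')
      (fun a => (Icc (-H) H).indicator (fun a => ‖ev h ((c' + a) / n 2 - inner ℝ m x) f x‖ₑ ^ 2) a)
    rw [lintegral_indicator measurableSet_Icc] at h1
    rw [← h1]
    apply lintegral_congr
    intro t
    simp only [hP, indicator]
    rw [hinner]
    congr 5
    field_simp
    ring
  rw [step2] at step1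
  simp_rw [step3] at step1
  refine step1.trans ?_
  rw [lintegral_const_mul' _ _ ENNReal.ofReal_ne_top]
  have step4 : ∫⁻ x : E2, ∫⁻ a in Icc (-H) H, ‖ev h ((c' + a) / n 2 - inner ℝ m x) f x‖ₑ ^ 2 =
      ∫⁻ a in Icc (-H) H, ∫⁻ x : E2, ‖ev h ((c' + a) / n 2 - inner ℝ m x) f x‖ₑ ^ 2 := by
    apply lintegral_lintegral_swap
    have h2 : Continuous (fun p : E2 × ℝ => (((c' + p.2) / n 2 - inner ℝ m p.1, p.1) : ℝ × E2)) := by fun_prop
    have h3 := (hcont.comp h2).measurable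
    simp only [Function.comp_def] at h3
    apply Measurable.aemeasurable
    simp only [Function.uncurry_def]
    fun_prop
  rw [step4]
  have step5 : ∫⁻ a in Icc (-H) H, ∫⁻ x : E2, ‖ev h ((c' + a) / n 2 - inner ℝ m x) f x‖ₑ ^ 2 ≤
      ENNReal.ofReal (2 * H) * (ENNReal.ofReal C1 * ∫⁻ x, ‖f x‖ₑ ^ 2) := by
    calc _ ≤ ∫⁻ a in Icc (-H) H, (ENNReal.ofReal C1 * ∫⁻ x, ‖f x‖ₑ ^ 2) := by
          apply lintegral_mono
          intro a
          have := plane_L2 hh hf hs (m := m) ((c' + a) / n 2) (κ := C1⁻¹) (by positivity) hm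
          refine this.trans (le_of_eq ?_)
          rw [ENNReal.ofReal_inv_of_pos (by linarith), inv_inv]
      _ = _ := by
          rw [setLIntegral_const, Real.volume_Icc, mul_comm]
          congr 2
          ring
  calc _ ≤ ENNReal.ofReal (n 2)⁻¹ * (ENNReal.ofReal (2 * H) * (ENNReal.ofReal C1 * ∫⁻ x, ‖f x‖ₑ ^ 2)) := by
        gcongr
    _ ≤ ENNReal.ofReal 1 * (ENNReal.ofReal (2 * H) * (ENNReal.ofReal C1 * ∫⁻ x, ‖f x‖ₑ ^ 2)) := by
        gcongr
        exact inv_le_one_of_one_le₀ hn1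
    _ = _ := by
        rw [ENNReal.ofReal_one, one_mul, ← mul_assoc, ← ENNReal.ofReal_mul (by positivity)]
        simp only [ENNReal.rpow_ofNat]
        congr 2
        ring

theorem StFL_proof : StFL := by
  intro c C C1 hc
  refine ⟨2 * |C1|, by positivity, ?_⟩
  intro h n hh hn c' H R hH f hf hs
  obtain ⟨hn1, hn2⟩ := normal_n2 hh hn
  have := flux hh hn c' hH R hf (FS.mono hs Gcap_sub_Gb)
  rwa [abs_of_nonneg (by linarith : (0:ℝ) ≤ C1)]

end Vale.Agent.P106.C
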