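import Vale.Agent.P106.C.KB

open MeasureTheory Complex Set Filter
open scoped ENNReal NNReal ContDiff FourierTransform ComplexConjugate Topology SchwartzMap LineDeriv

namespace Vale.Agent.P106.C

open Vale.Agent.P117 (E2 Adm nrm norm_fourier_le norm_fourierInv_le continuous_fourier continuous_fourierInv
  lintegral_sq_fourier_le integral_fourier_mul integral_fourierInv_mul lintegral_E2 eta0 contDiff_eta0 eta0_supp eta0_sum)

variable {c C : ℝ} {h : ℝ → ℝ}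

theorem lintegral_sq_fourierInv_le {g : E2 → ℂ} (hg : Integrable g) (hgm : Measurable g) :
    ∫⁻ ξ, ‖𝓕⁻ g ξ‖ₑ ^ 2 ≤ ∫⁻ x, ‖g x‖ₑ ^ 2 := by
  have h1 := lintegral_sq_fourier_le (hg.comp_neg) (hgm.comp measurable_neg)
  rw [← Real.fourierInv_eq_fourier_comp_neg] at h1
  refine h1.trans (le_of_eq ?_)
  exact lintegral_neg_eq_self (fun x => ‖g x‖ₑ ^ 2)

theorem six_sq (a b0 b1 c0 c1 c2 p q : ℝ) :
    (a + p * (b0 + b1) + q * (c0 + c1 + c2)) ^ 2 ≤
      6 * (a ^ 2 + p ^ 2 * (b0 ^ 2 + b1 ^ 2) + q ^ 2 * (c0 ^ 2 + c1 ^ 2 + c2 ^ 2)) := by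
  nlinarith [sq_nonneg (a - p * b0), sq_nonneg (a - p * b1), sq_nonneg (a - q * c0), sq_nonneg (a - q * c1),
    sq_nonneg (a - q * c2), sq_nonneg (p * b0 - p * b1), sq_nonneg (p * b0 - q * c0), sq_nonneg (p * b0 - q * c1),
    sq_nonneg (p * b0 - q * c2), sq_nonneg (p * b1 - q * c0), sq_nonneg (p * b1 - q * c1),
    sq_nonneg (p * b1 - q * c2), sq_nonneg (q * c0 - q * c1), sq_nonneg (q * c0 - q * c2), sq_nonneg (q * c1 - q * c2)]

theorem enorm_sq_eq (z : ℂ) : ‖z‖ₑ ^ 2 = ENNReal.ofReal (‖z‖ ^ 2) := by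
  rw [← ofReal_norm, ENNReal.ofReal_pow (norm_nonneg _)]

theorem measurable_Mg {n : ℕ} {g : E2 → ℂ} (hg : AdmC n g) (H : ℝ) : Measurable (Mg H g) := by
  have h0 := (continuous_fourierInv hg.adm.int).measurable
  have h1 := (continuous_fourierInv (hg.mom1 0).adm.int).measurable
  have h2 := (continuous_fourierInv (hg.mom1 1).adm.int).measurable
  have h3 := (continuous_fourierInv (hg.mom2 0 0).adm.int).measurable
  have h4 := (continuous_fourierInv (hg.mom2 0 1).adm.int).measurable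
  have h5 := (continuous_fourierInv (hg.mom2 1 1).adm.int).measurable
  unfold Mg
  fun_prop

theorem lintegral_Mg_le {n : ℕ} {g : E2 → ℂ} (hg : AdmC n g) {H : ℝ} (hH : 0 < H) :
    ∫⁻ ξ in Gc, ENNReal.ofReal (Mg H g ξ) ^ 2 ≤
      ENNReal.ofReal (6000000) * ∫⁻ x, ‖g x‖ₑ ^ 2 * ENNReal.ofReal ((1 + ‖x‖ ^ 2 / H ^ 2) ^ 2) := by
  have m0 := (continuous_fourierInv hg.adm.int).measurable
  have m1 := (continuous_fourierInv (hg.mom1 0).adm.int).measurable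
  have m2 := (continuous_fourierInv (hg.mom1 1).adm.int).measurable
  have m3 := (continuous_fourierInv (hg.mom2 0 0).adm.int).measurable
  have m4 := (continuous_fourierInv (hg.mom2 0 1).adm.int).measurable
  have m5 := (continuous_fourierInv (hg.mom2 1 1).adm.int).measurable
  have p0 := lintegral_sq_fourierInv_le hg.adm.int hg.adm.meas
  have p1 := lintegral_sq_fourierInv_le (hg.mom1 0).adm.int (hg.mom1 0).adm.meas
  have p2 := lintegral_sq_fourierInv_le (hg.mom1 1).adm.int (hg.mom1 1).adm.meas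
  have p3 := lintegral_sq_fourierInv_le (hg.mom2 0 0).adm.int (hg.mom2 0 0).adm.meas
  have p4 := lintegral_sq_fourierInv_le (hg.mom2 0 1).adm.int (hg.mom2 0 1).adm.meas
  have p5 := lintegral_sq_fourierInv_le (hg.mom2 1 1).adm.int (hg.mom2 1 1).adm.meas
  set P : ℝ≥0∞ := ENNReal.ofReal ((100 * H⁻¹) ^ 2) with hP
  set Q : ℝ≥0∞ := ENNReal.ofReal ((1000 * H⁻¹ ^ 2) ^ 2) with hQ
  have hPt : P ≠ ⊤ := ENNReal.ofReal_ne_top
  have hQt : Q ≠ ⊤ := ENNReal.ofReal_ne_top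
  have hm := hg.adm.meas
  calc ∫⁻ ξ in Gc, ENNReal.ofReal (Mg H g ξ) ^ 2 ≤ ∫⁻ ξ, ENNReal.ofReal (Mg H g ξ) ^ 2 :=
        setLIntegral_le_lintegral _ _
    _ ≤ ∫⁻ ξ, 6 * (‖𝓕⁻ g ξ‖ₑ ^ 2 + P * (‖𝓕⁻ (mom1 g 0) ξ‖ₑ ^ 2 + ‖𝓕⁻ (mom1 g 1) ξ‖ₑ ^ 2) +
          Q * (‖𝓕⁻ (mom2 g 0 0) ξ‖ₑ ^ 2 + ‖𝓕⁻ (mom2 g 0 1) ξ‖ₑ ^ 2 + ‖𝓕⁻ (mom2 g 1 1) ξ‖ₑ ^ 2)) := by
        apply lintegral_mono
        intro ξ
        have hM0 : 0 ≤ Mg H g ξ := by unfold Mg; positivity
        simp only [enorm_sq_eq, hP, hQ]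
        rw [show (6:ℝ≥0∞) = ENNReal.ofReal 6 by simp, ← ENNReal.ofReal_add (by positivity) (by positivity),
          ← ENNReal.ofReal_add (by positivity) (by positivity), ← ENNReal.ofReal_add (by positivity) (by positivity),
          ← ENNReal.ofReal_mul (by positivity), ← ENNReal.ofReal_mul (by positivity),
          ← ENNReal.ofReal_add (by positivity) (by positivity), ← ENNReal.ofReal_add (by positivity) (by positivity),
          ← ENNReal.ofReal_mul (by positivity), ← ENNReal.ofReal_pow hM0]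
        apply ENNReal.ofReal_le_ofReal
        refine le_trans (le_of_eq ?_) (six_sq _ _ _ _ _ _ _ _)
        unfold Mg
        ring
    _ = 6 * ((∫⁻ ξ, ‖𝓕⁻ g ξ‖ₑ ^ 2) + P * ((∫⁻ ξ, ‖𝓕⁻ (mom1 g 0) ξ‖ₑ ^ 2) + ∫⁻ ξ, ‖𝓕⁻ (mom1 g 1) ξ‖ₑ ^ 2) +
          Q * ((∫⁻ ξ, ‖𝓕⁻ (mom2 g 0 0) ξ‖ₑ ^ 2) + (∫⁻ ξ, ‖𝓕⁻ (mom2 g 0 1) ξ‖ₑ ^ 2) +
            ∫⁻ ξ, ‖𝓕⁻ (mom2 g 1 1) ξ‖ₑ ^ 2)) := by
        rw [lintegral_const_mul' _ _ (by finiteness), lintegral_add_left (by fun_prop),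
          lintegral_add_left (by fun_prop), lintegral_const_mul' _ _ hPt, lintegral_const_mul' _ _ hQt,
          lintegral_add_left (by fun_prop), lintegral_add_left (by fun_prop), lintegral_add_left (by fun_prop)]
    _ ≤ 6 * ((∫⁻ x, ‖g x‖ₑ ^ 2) + P * ((∫⁻ x, ‖mom1 g 0 x‖ₑ ^ 2) + ∫⁻ x, ‖mom1 g 1 x‖ₑ ^ 2) +
          Q * ((∫⁻ x, ‖mom2 g 0 0 x‖ₑ ^ 2) + (∫⁻ x, ‖mom2 g 0 1 x‖ₑ ^ 2) +
            ∫⁻ x, ‖mom2 g 1 1 x‖ₑ ^ 2)) := by gcongr
    _ = ∫⁻ x, 6 * (‖g x‖ₑ ^ 2 + P * (‖mom1 g 0 x‖ₑ ^ 2 + ‖mom1 g 1 x‖ₑ ^ 2) +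
          Q * (‖mom2 g 0 0 x‖ₑ ^ 2 + ‖mom2 g 0 1 x‖ₑ ^ 2 + ‖mom2 g 1 1 x‖ₑ ^ 2)) := by
        have m1 := (hg.mom1 0).adm.meas
        have m2 := (hg.mom1 1).adm.meas
        have m3 := (hg.mom2 0 0).adm.meas
        have m4 := (hg.mom2 0 1).adm.meas
        have m5 := (hg.mom2 1 1).adm.meas
        rw [lintegral_const_mul' _ _ (by finiteness), lintegral_add_left (by fun_prop),
          lintegral_add_left (by fun_prop), lintegral_const_mul' _ _ hPt, lintegral_const_mul' _ _ hQt,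
          lintegral_add_left (by fun_prop), lintegral_add_left (by fun_prop), lintegral_add_left (by fun_prop)]
    _ ≤ ∫⁻ x, ENNReal.ofReal (6000000) * (‖g x‖ₑ ^ 2 * ENNReal.ofReal ((1 + ‖x‖ ^ 2 / H ^ 2) ^ 2)) := by
        apply lintegral_mono
        intro x
        simp only [enorm_sq_eq, hP, hQ, mom1, mom2, norm_mul, Complex.norm_real, Real.norm_eq_abs, mul_pow, sq_abs]
        rw [show (6:ℝ≥0∞) = ENNReal.ofReal 6 by simp, ← ENNReal.ofReal_add (by positivity) (by positivity),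
          ← ENNReal.ofReal_add (by positivity) (by positivity), ← ENNReal.ofReal_add (by positivity) (by positivity),
          ← ENNReal.ofReal_mul (by positivity), ← ENNReal.ofReal_mul (by positivity),
          ← ENNReal.ofReal_add (by positivity) (by positivity), ← ENNReal.ofReal_add (by positivity) (by positivity),
          ← ENNReal.ofReal_mul (by positivity), ← ENNReal.ofReal_mul (by positivity),
          ← ENNReal.ofReal_mul (by positivity)]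
        apply ENNReal.ofReal_le_ofReal
        rw [EuclideanSpace.norm_sq_eq, Fin.sum_univ_two, div_eq_mul_inv]
        simp only [Real.norm_eq_abs, sq_abs, ← inv_pow]
        set u := ‖g x‖ ^ 2
        set i := H⁻¹ ^ 2
        have hi : 0 ≤ i := by positivity
        have hu : 0 ≤ u := by positivity
        have e1 : (0:ℝ) ≤ x 0 ^ 2 := by positivity
        have e2 : (0:ℝ) ≤ x 1 ^ 2 := by positivity
        set X := x 0 ^ 2
        set Y := x 1 ^ 2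
        have k1 : 6 * (u + 100 ^ 2 * i * (X * u + Y * u) + 1000 ^ 2 * i ^ 2 * (X * X * u + X * Y * u + Y * Y * u)) ≤
            6000000 * (u * (1 + (X + Y) * i) ^ 2) := by
          have k2 : 0 ≤ u * ((X + Y) * i) := by positivity
          have k3 : 0 ≤ u * (i ^ 2 * (X * Y)) := by positivity
          nlinarith
        refine le_trans (le_of_eq ?_) k1
        ring
    _ = _ := by
        rw [lintegral_const_mul' _ _ ENNReal.ofReal_ne_top]

theorem duality_step (hh : HC c C h) {f : E2 → ℂ} (hf : Adm volume f) (hs : FS f Gb) (t : ℝ) {δ : ℝ} {m : ℕ}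
    (hδ : 0 < δ) (hm : 2 ≤ m * δ) {g : E2 → ℂ} (hg : Integrable g) (hk : ContDiff ℝ ∞ (𝓕⁻ g)) :
    ∫ x, ev h t f x * g x =
      ∫ x, f x * 𝓕 (fun ξ => cexp (2 * Real.pi * I * (t * qh h ξ : ℝ)) * Theta δ m ξ * 𝓕⁻ g ξ) x := by
  have h1 : ∫ x, ev h t f x * g x =
      ∫ ξ : E2, (cexp (2 * Real.pi * I * (t * qh h ξ : ℝ)) * 𝓕 f ξ) * 𝓕⁻ g ξ :=
    integral_fourierInv_mul (integrable_ev hh hf hs t) hg
  rw [h1, ← integral_fourier_mul hf.int (integrable_full hh t hδ m hk)]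
  congr 1
  ext ξ
  by_cases hξ : ξ ∈ Gb
  · rw [Theta_one hδ hm hξ]; ring
  · rw [hs ξ hξ]; ring

theorem norm_integral_mul_le {f G : E2 → ℂ} {A : ℝ} (hA : ∀ x, ‖f x‖ ≤ A) :
    ‖∫ x, f x * G x‖ₑ ≤ ENNReal.ofReal A * ∫⁻ x, ‖G x‖ₑ := by
  calc ‖∫ x, f x * G x‖ₑ ≤ ∫⁻ x, ‖f x * G x‖ₑ := enorm_integral_le_lintegral_enorm _
    _ ≤ ∫⁻ x, ENNReal.ofReal A * ‖G x‖ₑ := by
        apply lintegral_mono
        intro x
        simp only
        rw [enorm_mul]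
        gcongr
        rw [← ofReal_norm]
        exact ENNReal.ofReal_le_ofReal (hA x)
    _ = _ := lintegral_const_mul' _ _ ENNReal.ofReal_ne_top

/-- the weight as a real function -/
noncomputable def wr (H : ℝ) (x : E2) : ℝ := ((1 + ‖x‖ ^ 2 / H ^ 2)⁻¹) ^ 2

theorem wr_nonneg (H : ℝ) (x : E2) : 0 ≤ wr H x := by unfold wr; positivity

theorem wr_le_one (H : ℝ) (x : E2) : wr H x ≤ 1 := by
  unfold wr
  apply pow_le_one₀ (by positivity)
  apply inv_le_one_of_one_le₀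
  have : 0 ≤ ‖x‖ ^ 2 / H ^ 2 := by positivity
  linarith

theorem measurable_wr (H : ℝ) : Measurable (wr H) := by unfold wr; fun_prop

theorem wr_mul (H : ℝ) (x : E2) : wr H x * (1 + ‖x‖ ^ 2 / H ^ 2) ^ 2 = 1 := by
  unfold wr
  have : 0 < 1 + ‖x‖ ^ 2 / H ^ 2 := by positivity
  rw [← mul_pow, inv_mul_cancel₀ this.ne', one_pow]

theorem wE_eq (H : ℝ) (x : E2) : wE H x = ENNReal.ofReal (wr H x) := rfl

theorem admC_tst {F : E2 → ℂ} (hF : Continuous F) {B : ℝ} (hB : ∀ x, ‖F x‖ ≤ B) (H : ℝ) (n : ℕ) :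
    AdmC n (tst F (wr H) n) :=
  ⟨tst_adm hF hB (measurable_wr H) (wr_nonneg H) (wr_le_one H) n, fun x hx => by
    unfold tst; rw [indicator_of_notMem hx]⟩

theorem lintegral_tst_weight (F : E2 → ℂ) (H : ℝ) (n : ℕ) :
    ∫⁻ x, ‖tst F (wr H) n x‖ₑ ^ 2 * ENNReal.ofReal ((1 + ‖x‖ ^ 2 / H ^ 2) ^ 2) =
      ∫⁻ x in Metric.closedBall (0 : E2) n, ‖F x‖ₑ ^ 2 * ENNReal.ofReal (wr H x) := by
  rw [← lintegral_indicator Metric.isClosed_closedBall.measurableSet]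
  apply lintegral_congr
  intro x
  unfold tst
  by_cases hx : x ∈ Metric.closedBall (0 : E2) n
  · rw [indicator_of_mem hx, indicator_of_mem hx, enorm_sq_eq, enorm_sq_eq, norm_mul, RCLike.norm_conj,
      Complex.norm_real, Real.norm_of_nonneg (wr_nonneg H x), ← ENNReal.ofReal_mul (by positivity),
      ← ENNReal.ofReal_mul (by positivity)]
    congr 1
    have := wr_mul H x
    calc _ = ‖F x‖ ^ 2 * wr H x * (wr H x * (1 + ‖x‖ ^ 2 / H ^ 2) ^ 2) := by ring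
      _ = _ := by rw [this, mul_one]
  · rw [indicator_of_notMem hx, indicator_of_notMem hx]; simp

theorem combine_consts {A K R D : ℝ} (hA : 0 ≤ A) (hK : 0 ≤ K) (hR : 0 ≤ R) (_hD : 0 ≤ D) (I : ℝ≥0∞) :
    ENNReal.ofReal A * (ENNReal.ofReal (K * R) * (ENNReal.ofReal D * I)) ^ (1/2:ℝ) =
      ENNReal.ofReal (D * K * (R * A ^ 2)) ^ (1/2:ℝ) * I ^ (1/2:ℝ) := by
  have e1 : ENNReal.ofReal A = (ENNReal.ofReal (A ^ 2)) ^ (1/2:ℝ) := by
    rw [ENNReal.ofReal_rpow_of_nonneg (by positivity) (by norm_num), ← Real.rpow_natCast, ← Real.rpow_mul hA]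
    norm_num
  rw [e1, ← ENNReal.mul_rpow_of_nonneg _ _ (by norm_num), ← mul_assoc, ← mul_assoc,
    ← ENNReal.ofReal_mul (by positivity), ← ENNReal.ofReal_mul (by positivity),
    ENNReal.mul_rpow_of_nonneg _ _ (by norm_num)]
  congr 3
  ring

theorem continuous_ev_t (hh : HC c C h) {f : E2 → ℂ} (hf : Adm volume f) (hs : FS f Gb) (t : ℝ) :
    Continuous (ev h t f) := by
  have h1 : Continuous (fun x : E2 => ((t, x) : ℝ × E2)) := by fun_prop
  have h2 := (continuous_ev hh hf hs).comp h1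
  simp only [Function.comp_def] at h2
  exact h2

theorem LI0 (c C : ℝ) (hc : 0 < c) (hcC : c ≤ C) : ∃ K : ℝ, 0 ≤ K ∧ ∀ (h : ℝ → ℝ), HC c C h →
    ∀ (H R t A : ℝ), 1 ≤ H → H ≤ R → |t| ≤ 2 * R → ∀ (f : E2 → ℂ), Adm volume f → FS f Gb → (∀ x, ‖f x‖ ≤ A) →
    ∫⁻ x, ‖ev h t f x‖ₑ ^ 2 * wE H x ≤ ENNReal.ofReal (K * (H * R * A ^ 2)) := by
  obtain ⟨K, hK, key⟩ := arc_lemma c C hc hcC
  refine ⟨6000000 * K, by positivity, ?_⟩
  intro h hh H R t A hH hHR ht f hf hs hA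
  obtain ⟨δ, m, hδ, hm, hkey⟩ := key h hh H R t hH hHR ht
  have hH0 : 0 < H := by linarith
  have hR0 : 0 < R := by linarith
  have hA0 : 0 ≤ A := (norm_nonneg _).trans (hA 0)
  have hF : Continuous (ev h t f) := continuous_ev_t hh hf hs t
  have hB : ∀ x, ‖ev h t f x‖ ≤ ∫ ξ, ‖𝓕 f ξ‖ := fun x => norm_ev_le x t
  simp_rw [wE_eq]
  apply weighted_dual hF hB (measurable_wr H) (wr_nonneg H) (wr_le_one H)
  intro n
  have hg := admC_tst hF hB H n
  rw [duality_step hh hf hs t hδ hm hg.adm.int hg.contDiff]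
  have s1 := norm_integral_mul_le (f := f) (G := 𝓕 (fun ξ => cexp (2 * Real.pi * I * (t * qh h ξ : ℝ)) * Theta δ m ξ *
        𝓕⁻ (tst (ev h t f) (wr H) n) ξ)) hA
  have s2 := hkey _ _ (measurable_Mg hg H) (KB_fourierInv hg hH0)
  have s3 := lintegral_Mg_le hg hH0
  rw [lintegral_tst_weight] at s3
  rw [← combine_consts hA0 (by linarith : 0 ≤ K) (by positivity : 0 ≤ H * R) (by norm_num : (0:ℝ) ≤ 6000000)]
  refine s1.trans ?_
  gcongr
  refine s2.trans ?_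
  gcongr

/-! ### translations -/

theorem fourier_translate (f : E2 → ℂ) (y ξ : E2) :
    𝓕 (fun x => f (x + y)) ξ = cexp (2 * Real.pi * I * (inner ℝ ξ y : ℝ)) * 𝓕 f ξ := by
  rw [Real.fourier_eq', Real.fourier_eq', ← integral_const_mul,
    ← integral_add_right_eq_self (fun v => cexp (2 * Real.pi * I * (inner ℝ ξ y : ℝ)) *
      (cexp (((-2 * Real.pi * inner ℝ v ξ : ℝ) : ℂ) * I) • f v)) y]
  congr 1
  ext v
  rw [smul_eq_mul, smul_eq_mul, ← mul_assoc, ← Complex.exp_add, inner_add_left, real_inner_comm ξ y]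
  congr 2
  push_cast
  ring

theorem Adm.translate {f : E2 → ℂ} (hf : Adm volume f) (y : E2) : Adm volume (fun x => f (x + y)) := by
  obtain ⟨B, hB⟩ := hf.bdd
  exact ⟨hf.meas.comp (measurable_id.add_const y), hf.int.comp_add_right y, B, fun x => hB _⟩

theorem FS.translate {f : E2 → ℂ} {G : Set E2} (hs : FS f G) (y : E2) : FS (fun x => f (x + y)) G := by
  intro ξ hξ
  rw [fourier_translate, hs ξ hξ, mul_zero]

theorem ev_translate (f : E2 → ℂ) (t : ℝ) (y x : E2) : ev h t (fun x => f (x + y)) x = ev h t f (x + y) := by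
  rw [ev_eq, ev_eq]
  congr 1
  ext ξ
  rw [fourier_translate, ← mul_assoc, ← Complex.exp_add, inner_add_right]
  congr 2
  push_cast
  ring

/-- [LI] local energy bound for bounded data -/
theorem LI_Gb (c C : ℝ) (hc : 0 < c) (hcC : c ≤ C) : ∃ K : ℝ, 0 ≤ K ∧ ∀ (h : ℝ → ℝ), HC c C h →
    ∀ (H R t A : ℝ), 1 ≤ H → H ≤ R → |t| ≤ 2 * R → ∀ (f : E2 → ℂ) (y : E2), Adm volume f → FS f Gb →
    (∀ x, ‖f x‖ ≤ A) →
    ∫⁻ x, ‖ev h t f x‖ₑ ^ 2 * wE H (x - y) ≤ ENNReal.ofReal (K * (H * R * A ^ 2)) := by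
  obtain ⟨K, hK, key⟩ := LI0 c C hc hcC
  refine ⟨K, hK, ?_⟩
  intro h hh H R t A hH hHR ht f y hf hs hA
  have := key h hh H R t A hH hHR ht (fun x => f (x + y)) (Adm.translate hf y) (FS.translate hs y) (fun x => hA _)
  simp_rw [ev_translate] at this
  refine le_trans (le_of_eq ?_) this
  rw [← lintegral_add_right_eq_self (fun x => ‖ev h t f x‖ₑ ^ 2 * wE H (x - y)) y]
  simp

/-- [LI'] sup bound -/
theorem LIs_Gb (c C : ℝ) (hc : 0 < c) (hcC : c ≤ C) : ∃ K : ℝ, 0 ≤ K ∧ ∀ (h : ℝ → ℝ), HC c C h →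
    ∀ (R t A : ℝ), 1 ≤ R → |t| ≤ 2 * R → ∀ (f : E2 → ℂ) (x : E2), Adm volume f → FS f Gb → (∀ x, ‖f x‖ ≤ A) →
    ‖ev h t f x‖ ≤ K * R ^ (1/2 : ℝ) * A := by
  obtain ⟨K, hK, key⟩ := arc_lemma c C hc hcC
  refine ⟨(K * (volume Gc).toReal) ^ (1/2:ℝ), by positivity, ?_⟩
  intro h hh R t A hR ht f x hf hs hA
  obtain ⟨δ, m, hδ, hm, hkey⟩ := key h hh 1 R t le_rfl hR ht
  have hR0 : 0 < R := by linarith
  have hA0 : 0 ≤ A := (norm_nonneg _).trans (hA 0)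
  set f' : E2 → ℂ := fun z => f (z + x) with hf'
  have hf1 : Adm volume f' := Adm.translate hf x
  have hs1 : FS f' Gb := FS.translate hs x
  have e0 : ev h t f x = ev h t f' 0 := by rw [hf', ev_translate, zero_add]
  have hk1 : KB (fun _ : E2 => (1:ℂ)) (fun _ => 1) 1 := by
    refine ⟨contDiff_const, fun ξ v _ _ => ⟨0, 0, ⟨fun _ => 0, ?_, rfl, hasDerivAt_const 0 0⟩, by simp, by simp, by simp⟩⟩
    filter_upwards with r
    exact hasDerivAt_const r 1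
  have hint : Integrable (fun ξ => cexp (2 * Real.pi * I * (t * qh h ξ : ℝ)) * Theta δ m ξ * (1:ℂ)) :=
    integrable_full hh t hδ m (k := fun _ => (1:ℂ)) contDiff_const
  have e1 : ev h t f' 0 = ∫ z, f' z * 𝓕 (fun ξ => cexp (2 * Real.pi * I * (t * qh h ξ : ℝ)) * Theta δ m ξ * (1:ℂ)) z := by
    rw [← integral_fourier_mul hf1.int hint, ev_eq]
    congr 1
    ext ξ
    by_cases hξ : ξ ∈ Gb
    · rw [Theta_one hδ hm hξ, inner_zero_right, zero_add]; ring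
    · rw [hs1 ξ hξ]; ring
  have h1 : ‖ev h t f x‖ₑ ≤ ENNReal.ofReal A * (ENNReal.ofReal (K * (1 * R)) * ∫⁻ _ξ in Gc, ENNReal.ofReal 1 ^ 2) ^ (1/2:ℝ) := by
    rw [e0, e1]
    refine (norm_integral_mul_le (f := f') (fun z => hA _)).trans ?_
    gcongr
    exact hkey _ _ measurable_const hk1
  have hvol : volume Gc = ENNReal.ofReal (volume Gc).toReal := (ENNReal.ofReal_toReal volume_Gc_lt_top.ne).symm
  rw [ENNReal.ofReal_one, one_pow, setLIntegral_one, one_mul, hvol, ← ENNReal.ofReal_mul (by positivity),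
    ENNReal.ofReal_rpow_of_nonneg (by positivity) (by norm_num), ← ENNReal.ofReal_mul hA0, ← ofReal_norm] at h1
  rw [ENNReal.ofReal_le_ofReal_iff (by positivity)] at h1
  refine h1.trans (le_of_eq ?_)
  rw [show K * R * (volume Gc).toReal = (K * (volume Gc).toReal) * R by ring, Real.mul_rpow (by positivity) hR0.le]
  ring

theorem StLI_proof : StLI := by
  intro c C hc
  by_cases hcC : c ≤ C
  · obtain ⟨K, hK, key⟩ := LI_Gb c C hc hcC
    refine ⟨K, hK, ?_⟩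
    intro h hh H R t A hH hHR ht f y hf hs hA
    have := key h hh H R t A hH hHR ht f y hf (FS.mono hs Gcap_sub_Gb) hA
    simpa only [ENNReal.rpow_ofNat] using this
  · refine ⟨0, le_rfl, ?_⟩
    intro h hh
    exact absurd ((hh.lower 0).trans (hh.upper 0)) hcC

theorem StLIs_proof : StLIs := by
  intro c C hc
  by_cases hcC : c ≤ C
  · obtain ⟨K, hK, key⟩ := LIs_Gb c C hc hcC
    refine ⟨K, hK, ?_⟩
    intro h hh R t A hR ht f x hf hs hA
    exact key h hh R t A hR ht f x hf (FS.mono hs Gcap_sub_Gb) hA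
  · refine ⟨0, le_rfl, ?_⟩
    intro h hh
    exact absurd ((hh.lower 0).trans (hh.upper 0)) hcC

end Vale.Agent.P106.C
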