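import Vale.Agent.P106.B.Rec
import Vale.Agent.P106.C.LI
import Vale.Agent.P106.C.Flux

/-! # The plane bound -/

open MeasureTheory Complex Set
open scoped ENNReal NNReal ContDiff FourierTransform SchwartzMap

namespace Vale.Agent.P106.C

open Vale.Agent.P117 (E2 E3 Adm cv)
open Vale.Agent.P106

variable {c C : ℝ} {h : ℝ → ℝ}

theorem fourier_add' {f g : E2 → ℂ} (hf : Integrable f) (hg : Integrable g) (ξ : E2) :
    𝓕 (fun x => f x + g x) ξ = 𝓕 f ξ + 𝓕 g ξ := by
  have key : ∀ {f : E2 → ℂ}, Integrable f → Integrable (fun v : E2 => cexp (((-2 * Real.pi * inner ℝ v ξ : ℝ) : ℂ) * I) • f v) := by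
    intro f hf
    have := (Real.fourierIntegral_convergent_iff ξ).2 hf
    refine this.congr (Filter.Eventually.of_forall fun v => ?_)
    simp only
    rw [Circle.smul_def, Real.fourierChar_apply]
    congr 2
    push_cast
    ring
  rw [Real.fourier_eq', Real.fourier_eq', Real.fourier_eq', ← integral_add (key hf) (key hg)]
  simp only [smul_add]

theorem ev_add (hh : HC c C h) {f g : E2 → ℂ} (hf : Adm volume f) (hg : Adm volume g) (hfs : FS f Gb) (hgs : FS g Gb)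
    (t : ℝ) (x : E2) : ev h t (fun x => f x + g x) x = ev h t f x + ev h t g x := by
  unfold ev
  rw [← fourierInv_add' (integrable_ev hh hf hfs t) (integrable_ev hh hg hgs t)]
  have e : (fun ξ : E2 => cexp (2 * Real.pi * I * (t * qh h ξ : ℝ)) * 𝓕 (fun x => f x + g x) ξ) =
      fun ξ => cexp (2 * Real.pi * I * (t * qh h ξ : ℝ)) * 𝓕 f ξ + cexp (2 * Real.pi * I * (t * qh h ξ : ℝ)) * 𝓕 g ξ := by
    ext ξ
    rw [fourier_add' hf.int hg.int, mul_add]
  rw [e]

theorem FS_piece_Gb {K : ℕ} (hK : 1 ≤ K) {j : ℤ} (hj : |j| ≤ K) {f : E2 → ℂ} (hf : Adm volume f) :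
    FS (piece K j f) Gb := FS_piece_big hK j hf hj

theorem piece_L2_one {K : ℕ} (hK : 1 ≤ K) {j : ℤ} (hj : j ∈ Finset.Icc (-(K:ℤ)) K) {f : E2 → ℂ} (hf : Adm volume f) :
    ∫⁻ x, ‖piece K j f x‖ₑ ^ 2 ≤ 3 * ∫⁻ x, ‖f x‖ₑ ^ 2 :=
  (Finset.single_le_sum (f := fun j => ∫⁻ x, ‖piece K j f x‖ₑ ^ 2) (fun _ _ => zero_le) hj).trans (piece_L2 hK hf)

theorem PL_piece {C1 : ℝ} {n : Fin 3 → ℝ} (hh : HC c C h) (hn : Normal C1 h n) {Ks : ℝ} (hKs : 0 ≤ Ks)
    (hLIs : ∀ (R t A : ℝ), 1 ≤ R → |t| ≤ 2 * R → ∀ (f : E2 → ℂ) (x : E2), Adm volume f → FS f Gb →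
      (∀ x, ‖f x‖ ≤ A) → ‖ev h t f x‖ ≤ Ks * R ^ (1/2 : ℝ) * A)
    (c' : ℝ) {H R : ℝ} (hH : 0 < H) (hR : 1 ≤ R) {K : ℕ} (hK : 1 ≤ K) {j : ℤ} (hj : j ∈ Finset.Icc (-(K:ℤ)) K)
    {f : E2 → ℂ} (hf : Adm volume f) :
    slabInt h n c' H R 3 (piece K j f) ≤
      ENNReal.ofReal (24 * (2 * C1 * H * 3) * (Ks * R ^ (1/2:ℝ) * B0)) * ∫⁻ x, ‖f x‖ₑ ^ 3 := by
  have hj' : |j| ≤ K := by rw [Finset.mem_Icc] at hj; exact abs_le.2 ⟨hj.1, hj.2⟩
  have hhm : Measurable h := (hc_cont hh).measurable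
  have hC1 : 1 ≤ C1 := by obtain ⟨h1, h2⟩ := normal_n2 hh hn; linarith
  have hR0 : 0 < R := by linarith
  have hp : ∀ {f : E2 → ℂ}, Adm volume f → Adm volume (piece K j f) := fun hf => adm_piece hK j hf
  have hms : ∀ {f : E2 → ℂ}, Adm volume f → Measurable (fun z : ℝ × E2 => ‖ev h z.1 (piece K j f) z.2‖ₑ) :=
    fun hf => (measurable_ev hhm (hp hf).int).enorm
  rw [slabInt_eq hhm n c' H R 3 (hp hf).int, ← lintegral_indicator (measurableSet_slabST n c' H R)]
  have key := Tri.sublinear_interp (X := E2) (Y := ℝ × E2) volume volume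
    (fun f => (slabST n c' H R).indicator (fun z => ‖ev h z.1 (piece K j f) z.2‖ₑ))
    (A := 2 * C1 * H * 3) (B := Ks * R ^ (1/2:ℝ) * B0) (by positivity)
    (mul_nonneg (by positivity) B0_nonneg) ?_ ?_ ?_ ?_ hf
  · refine le_trans (le_of_eq ?_) key
    apply lintegral_congr
    intro z
    by_cases hz : z ∈ slabST n c' H R
    · simp only [indicator_of_mem hz]
      norm_num
    · simp only [indicator_of_notMem hz]
      norm_num
  · intro f hf
    exact (hms hf).indicator (measurableSet_slabST n c' H R)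
  · intro f g hf hg z
    by_cases hz : z ∈ slabST n c' H R
    · simp only [indicator_of_mem hz]
      have e : piece K j (fun x => f x + g x) = fun x => piece K j f x + piece K j g x := by
        ext x; exact piece_add hK j hf hg x
      rw [e, ev_add hh (hp hf) (hp hg) (FS_piece_Gb hK hj' hf) (FS_piece_Gb hK hj' hg)]
      exact enorm_add_le _ _
    · simp only [indicator_of_notMem hz]
      exact zero_le
  · intro f hf
    have h1 := flux hh hn c' hH R (hp hf) (FS_piece_Gb hK hj' hf)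
    rw [slabInt_eq hhm n c' H R 2 (hp hf).int, ← lintegral_indicator (measurableSet_slabST n c' H R)] at h1
    simp only [ENNReal.rpow_ofNat] at h1
    calc ∫⁻ z, (slabST n c' H R).indicator (fun z => ‖ev h z.1 (piece K j f) z.2‖ₑ) z ^ 2
        = ∫⁻ z, (slabST n c' H R).indicator (fun z => ‖ev h z.1 (piece K j f) z.2‖ₑ ^ 2) z := by
          apply lintegral_congr
          intro z
          by_cases hz : z ∈ slabST n c' H R
          · simp only [indicator_of_mem hz]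
          · simp only [indicator_of_notMem hz]
            norm_num
      _ ≤ ENNReal.ofReal (2 * C1 * H) * ∫⁻ x, ‖piece K j f x‖ₑ ^ 2 := h1
      _ ≤ ENNReal.ofReal (2 * C1 * H) * (3 * ∫⁻ x, ‖f x‖ₑ ^ 2) := by
          gcongr
          exact piece_L2_one hK hj hf
      _ = _ := by
          rw [ENNReal.ofReal_mul (by positivity) (q := 3), ← mul_assoc]
          norm_num
  · intro f hf M hM z
    by_cases hz : z ∈ slabST n c' H R
    · simp only [indicator_of_mem hz]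
      rw [← ofReal_norm]
      apply ENNReal.ofReal_le_ofReal
      have hM0 : 0 ≤ M := (norm_nonneg _).trans (hM 0)
      have ht : |z.1| ≤ 2 * R := by
        have := hz.1
        rw [mem_Icc, ← abs_le] at this
        linarith
      have := hLIs R z.1 (B0 * M) hR ht (piece K j f) z.2 (hp hf) (FS_piece_Gb hK hj' hf)
        (fun x => norm_piece_le hK j hf hM x)
      refine this.trans (le_of_eq ?_)
      ring
    · simp only [indicator_of_notMem hz]
      exact zero_le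

/-- crude power mean inequality -/
theorem sum_cube_le {ι : Type*} (s : Finset ι) (x : ι → ℝ≥0∞) :
    (∑ i ∈ s, x i) ^ 3 ≤ (s.card : ℝ≥0∞) ^ 3 * ∑ i ∈ s, x i ^ 3 := by
  rcases s.eq_empty_or_nonempty with rfl | hs
  · simp
  obtain ⟨m, hm, hmax⟩ := s.exists_max_image x hs
  calc (∑ i ∈ s, x i) ^ 3 ≤ (∑ _i ∈ s, x m) ^ 3 := by
        gcongr with i hi
        exact hmax i hi
    _ = (s.card : ℝ≥0∞) ^ 3 * x m ^ 3 := by
        rw [Finset.sum_const, nsmul_eq_mul, mul_pow]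
    _ ≤ _ := by
        gcongr
        exact Finset.single_le_sum (f := fun i => x i ^ 3) (fun _ _ => zero_le) hm

theorem StPL_proof : StPL := by
  intro c C C1 hc
  by_cases hcC : c ≤ C
  swap
  · exact ⟨0, le_rfl, fun h n hh => absurd ((hh.lower 0).trans (hh.upper 0)) hcC⟩
  obtain ⟨Ks, hKs, hLIs⟩ := LIs_Gb c C hc hcC
  refine ⟨3 ^ 3 * (3 * (24 * (2 * |C1| * 3) * (Ks * B0))), ?_, ?_⟩
  · have := B0_nonneg
    positivity
  intro h n hh hn c' H R hH hR f hf hfs
  have hhm : Measurable h := (hc_cont hh).measurable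
  have hC1 : 1 ≤ C1 := by obtain ⟨h1, h2⟩ := normal_n2 hh hn; linarith
  have hR0 : 0 < R := by linarith
  have hB0 := B0_nonneg
  have e3 : ∀ x : ℝ≥0∞, x ^ (3:ℝ) = x ^ 3 := fun x => by norm_num
  have hcard : (Finset.Icc (-((1:ℕ):ℤ)) (1:ℕ)).card = 3 := by rfl
  have hms : ∀ j, Measurable (fun z : ℝ × E2 => ‖ev h z.1 (piece 1 j f) z.2‖ₑ) :=
    fun j => (measurable_ev hhm (adm_piece le_rfl j hf).int).enorm
  rw [slabInt_eq hhm n c' H R 3 hf.int]
  simp only [e3]
  calc ∫⁻ z in slabST n c' H R, ‖ev h z.1 f z.2‖ₑ ^ 3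
      ≤ ∫⁻ z in slabST n c' H R, (3:ℝ≥0∞) ^ 3 * ∑ j ∈ Finset.Icc (-((1:ℕ):ℤ)) (1:ℕ), ‖ev h z.1 (piece 1 j f) z.2‖ₑ ^ 3 := by
        apply lintegral_mono
        intro z
        simp only
        rw [ev_eq_sum_piece le_rfl hf hfs hhm]
        have h1 := sum_cube_le (Finset.Icc (-((1:ℕ):ℤ)) (1:ℕ)) (fun j => ‖ev h z.1 (piece 1 j f) z.2‖ₑ)
        rw [hcard] at h1
        refine le_trans ?_ h1
        gcongr
        exact enorm_sum_le _ _
    _ = (3:ℝ≥0∞) ^ 3 * ∑ j ∈ Finset.Icc (-((1:ℕ):ℤ)) (1:ℕ), slabInt h n c' H R 3 (piece 1 j f) := by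
        rw [lintegral_const_mul' _ _ (by finiteness), lintegral_finsetSum _ (fun j _ => (hms j).pow_const 3)]
        congr 1
        apply Finset.sum_congr rfl
        intro j _
        rw [slabInt_eq hhm n c' H R 3 (adm_piece le_rfl j hf).int]
        simp only [e3]
    _ ≤ (3:ℝ≥0∞) ^ 3 * ∑ _j ∈ Finset.Icc (-((1:ℕ):ℤ)) (1:ℕ),
        ENNReal.ofReal (24 * (2 * C1 * H * 3) * (Ks * R ^ (1/2:ℝ) * B0)) * ∫⁻ x, ‖f x‖ₑ ^ 3 := by
        gcongr with j hj
        exact PL_piece hh hn hKs (fun R t A hR ht f x hf hs hA => hLIs h hh R t A hR ht f x hf hs hA) c' hH hR le_rfl hj hf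
    _ = _ := by
        rw [Finset.sum_const, hcard, nsmul_eq_mul, abs_of_nonneg (by linarith : (0:ℝ) ≤ C1), ← mul_assoc, ← mul_assoc,
          show (3:ℝ≥0∞) ^ 3 = ENNReal.ofReal (3 ^ 3) by rw [ENNReal.ofReal_pow (by norm_num)]; norm_num,
          show ((3:ℕ):ℝ≥0∞) = ENNReal.ofReal 3 by norm_num, ← ENNReal.ofReal_mul (by positivity),
          ← ENNReal.ofReal_mul (by positivity)]
        congr 2
        ring

end Vale.Agent.P106.C
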