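import Vale.Agent.P106.C.Omega

open MeasureTheory Complex Set Filter
open scoped ENNReal NNReal ContDiff FourierTransform ComplexConjugate Topology SchwartzMap LineDeriv

namespace Vale.Agent.P106.C

open Vale.Agent.P117 (E2 Adm nrm norm_fourier_le norm_fourierInv_le continuous_fourier continuous_fourierInv
  lintegral_sq_fourier_le integral_fourier_mul integral_fourierInv_mul lintegral_E2 eta0 contDiff_eta0 eta0_supp eta0_sum)

variable {c C : ℝ} {h : ℝ → ℝ}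

/-! ### Schwartz functions along lines -/

theorem hasDerivAt_line (G : 𝓢(E2, ℂ)) (ξ v : E2) (r : ℝ) :
    HasDerivAt (fun r : ℝ => G (ξ + r • v)) ((∂_{v} G : 𝓢(E2, ℂ)) (ξ + r • v)) r := by
  have h1 : HasFDerivAt G (fderiv ℝ G (ξ + r • v)) (ξ + r • v) := (G.differentiable _).hasFDerivAt
  have h2 : HasDerivAt (fun r : ℝ => ξ + r • v) v r := by
    simpa using ((hasDerivAt_id r).smul_const v).const_add ξ
  have h3 := h1.comp_hasDerivAt r h2
  rw [SchwartzMap.lineDerivOp_apply_eq_fderiv]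
  exact h3

theorem dd_eq_of_J2 (G : 𝓢(E2, ℂ)) {ξ v : E2} {f1 f2 : ℂ} (hJ : J2 (fun r : ℝ => G (ξ + r • v)) 0 f1 f2) :
    dd v G ξ = f2 := by
  obtain ⟨f', h1, h2, h3⟩ := hJ
  have h4 : f' =ᶠ[𝓝 0] fun r => (∂_{v} G : 𝓢(E2, ℂ)) (ξ + r • v) := by
    filter_upwards [h1] with r hr
    exact hr.unique (hasDerivAt_line G ξ v r)
  have h5 := (h4.hasDerivAt_iff).1 h3
  have h6 := h5.unique (hasDerivAt_line (∂_{v} G) ξ v 0)
  rw [h6, zero_smul, add_zero]
  rfl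

theorem dd_eq_zero (G : 𝓢(E2, ℂ)) {S : Set E2} (hS : IsClosed S) (hG : ∀ ξ, ξ ∉ S → G ξ = 0) {ξ v : E2}
    (hξ : ξ ∉ S) : dd v G ξ = 0 := by
  have h1 : tsupport G ⊆ S := by
    apply closure_minimal _ hS
    intro x hx
    by_contra hcon
    exact hx (hG x hcon)
  have h2 : tsupport (dd v G) ⊆ S :=
    ((SchwartzMap.tsupport_lineDerivOp_subset v (∂_{v} G)).trans
      (SchwartzMap.tsupport_lineDerivOp_subset v G)).trans h1
  exact image_eq_zero_of_notMem_tsupport fun h => hξ (h2 h)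

/-! ### cut-offs -/

/-- cut-off in the radial variable -/
noncomputable def chi0 (x : ℝ) : ℂ :=
  ((Real.smoothTransition (400 * x - 1) * Real.smoothTransition (2 - x / 200) : ℝ) : ℂ)

theorem contDiff_chi0 : ContDiff ℝ ∞ chi0 := by
  unfold chi0
  have h := Vale.Agent.P117.contDiff_st
  exact Complex.ofRealCLM.contDiff.comp ((h.comp (by fun_prop)).mul (h.comp (by fun_prop)))

theorem chi0_one {x : ℝ} (h1 : 1/200 ≤ x) (h2 : x ≤ 200) : chi0 x = 1 := by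
  unfold chi0
  rw [Real.smoothTransition.one_of_one_le (by linarith), Real.smoothTransition.one_of_one_le (by linarith)]
  simp

theorem chi0_supp {x : ℝ} (hx : chi0 x ≠ 0) : 1/400 ≤ x ∧ x ≤ 400 := by
  constructor
  · by_contra hcon
    apply hx
    unfold chi0
    rw [Real.smoothTransition.zero_of_nonpos (by linarith)]
    simp
  · by_contra hcon
    apply hx
    unfold chi0
    rw [Real.smoothTransition.zero_of_nonpos (x := 2 - x / 200) (by linarith)]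
    simp

/-- smooth compactly supported functions of one variable have bounded derivatives -/
theorem exists_bd {η : ℝ → ℂ} (hη : ContDiff ℝ ∞ η) (hs : HasCompactSupport η) :
    ∃ E : ℝ, 1 ≤ E ∧ (∀ x, ‖η x‖ ≤ E) ∧ (∀ x, ‖deriv η x‖ ≤ E) ∧ ∀ x, ‖deriv (deriv η) x‖ ≤ E := by
  have hη1 : ContDiff ℝ ∞ (deriv η) := ((contDiff_succ_iff_deriv (n := ∞)).1 hη).2.2
  have hη2 : ContDiff ℝ ∞ (deriv (deriv η)) := ((contDiff_succ_iff_deriv (n := ∞)).1 hη1).2.2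
  obtain ⟨A, hA⟩ := hs.exists_bound_of_continuous hη.continuous
  obtain ⟨B, hB⟩ := hs.deriv.exists_bound_of_continuous hη1.continuous
  obtain ⟨D, hD⟩ := hs.deriv.deriv.exists_bound_of_continuous hη2.continuous
  refine ⟨max 1 (max A (max B D)), le_max_left _ _, fun x => (hA x).trans (by simp), fun x => (hB x).trans (by simp),
    fun x => (hD x).trans (by simp)⟩

theorem hcs_chi0 : HasCompactSupport chi0 :=
  HasCompactSupport.intro (isCompact_Icc (a := (1/400:ℝ)) (b := 400)) fun x hx => by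
    by_contra hcon
    exact hx (chi0_supp hcon)

theorem hcs_eta0 : HasCompactSupport eta0 :=
  HasCompactSupport.intro (isCompact_Icc (a := (-1:ℝ)) (b := 1)) fun x hx => by
    by_contra hcon
    exact hx (abs_le.1 (eta0_supp x hcon))

/-! ### arcs -/

/-- jets bounds for the amplitude -/
structure KB (k : E2 → ℂ) (M : E2 → ℝ) (H : ℝ) : Prop where
  smooth : ContDiff ℝ ∞ k
  jet : ∀ ξ v : E2, |v 0| ≤ 1 → |v 1| ≤ 5 → BJ (fun r => k (ξ + r • v)) 0 (M ξ) H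

/-- linearised phase -/
noncomputable def lin (h : ℝ → ℝ) (b : ℝ) (ξ : E2) : ℝ := (h b - b * deriv h b) * ξ 0 + deriv h b * ξ 1

/-- the arc piece, with the linear phase removed -/
noncomputable def arcG (h : ℝ → ℝ) (t δ : ℝ) (a : ℤ) (k : E2 → ℂ) (ξ : E2) : ℂ :=
  cexp (I * ((2 * Real.pi * t) * (qh h ξ - lin h (a * δ) ξ) : ℝ)) *
    (chi0 (ξ 0) * eta0 (ξ 1 / ξ 0 / δ - a)) * k ξ

/-- closed support region of an arc -/
def Sarc (δ : ℝ) (a : ℤ) : Set E2 := {ξ | 1/400 ≤ ξ 0 ∧ ξ 0 ≤ 400 ∧ |ξ 1 - a * δ * ξ 0| ≤ δ * ξ 0}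

theorem isClosed_Sarc (δ : ℝ) (a : ℤ) : IsClosed (Sarc δ a) := by
  unfold Sarc
  have h0 : Continuous (fun ξ : E2 => ξ 0) := by fun_prop
  have h1 : Continuous (fun ξ : E2 => ξ 1) := by fun_prop
  apply IsClosed.inter
  · exact isClosed_le continuous_const h0
  apply IsClosed.inter
  · exact isClosed_le h0 continuous_const
  · exact isClosed_le ((h1.sub (continuous_const.mul h0)).abs) (continuous_const.mul h0)

theorem arcG_zero {t δ : ℝ} (hδ : 0 < δ) {a : ℤ} {k : E2 → ℂ} {ξ : E2} (hξ : ξ ∉ Sarc δ a) :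
    arcG h t δ a k ξ = 0 := by
  by_contra hcon
  apply hξ
  unfold arcG at hcon
  have h1 : chi0 (ξ 0) ≠ 0 := fun h0 => hcon (by rw [h0]; ring)
  have h2 : eta0 (ξ 1 / ξ 0 / δ - a) ≠ 0 := fun h0 => hcon (by rw [h0]; ring)
  obtain ⟨h3, h4⟩ := chi0_supp h1
  have h5 := eta0_supp _ h2
  have hx0 : 0 < ξ 0 := by linarith
  refine ⟨h3, h4, ?_⟩
  have e : ξ 1 - a * δ * ξ 0 = (ξ 1 / ξ 0 / δ - a) * (δ * ξ 0) := by field_simp
  rw [e, abs_mul, abs_of_pos (show (0:ℝ) < δ * ξ 0 by positivity)]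
  have : 0 < δ * ξ 0 := by positivity
  nlinarith

theorem contDiff_coord (i : Fin 2) : ContDiff ℝ ∞ (fun ξ : E2 => ξ i) :=
  (EuclideanSpace.proj i : E2 →L[ℝ] ℝ).contDiff

theorem contDiff_arcG (hh : HC c C h) (t δ : ℝ) (a : ℤ) {k : E2 → ℂ} (hk : ContDiff ℝ ∞ k) :
    ContDiff ℝ ∞ (arcG h t δ a k) := by
  rw [contDiff_iff_contDiffAt]
  intro ξ
  have h0 := contDiff_coord 0
  have h1 := contDiff_coord 1
  by_cases hξ : 0 < ξ 0
  · have hu : ContDiffAt ℝ ∞ (fun ξ : E2 => ξ 1 / ξ 0) ξ := h1.contDiffAt.div h0.contDiffAt hξ.ne'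
    have hq : ContDiffAt ℝ ∞ (qh h) ξ := by
      unfold qh
      exact h0.contDiffAt.mul (hh.smooth.contDiffAt.comp ξ hu)
    have hl : ContDiffAt ℝ ∞ (lin h (a * δ)) ξ := by
      unfold lin
      exact ((contDiff_const.mul h0).add (contDiff_const.mul h1)).contDiffAt
    have hphase : ContDiffAt ℝ ∞ (fun ξ : E2 => cexp (I * ((2 * Real.pi * t) * (qh h ξ - lin h (a * δ) ξ) : ℝ))) ξ := by
      have h2 : ContDiffAt ℝ ∞ (fun ξ : E2 => (2 * Real.pi * t) * (qh h ξ - lin h (a * δ) ξ)) ξ :=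
        contDiffAt_const.mul (hq.sub hl)
      exact contDiff_cexpI.contDiffAt.comp ξ h2
    have hc : ContDiffAt ℝ ∞ (fun ξ : E2 => chi0 (ξ 0)) ξ := (contDiff_chi0.comp h0).contDiffAt
    have he : ContDiffAt ℝ ∞ (fun ξ : E2 => eta0 (ξ 1 / ξ 0 / δ - a)) ξ := by
      have h2 : ContDiffAt ℝ ∞ (fun ξ : E2 => ξ 1 / ξ 0 / δ - a) ξ :=
        (hu.div_const δ).sub contDiffAt_const
      exact contDiff_eta0.contDiffAt.comp ξ h2
    exact (hphase.mul (hc.mul he)).mul hk.contDiffAt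
  · have h2 : ∀ᶠ η in 𝓝 ξ, η 0 < 1/400 :=
      h0.continuous.continuousAt.eventually_lt continuousAt_const (by linarith)
    have h3 : arcG h t δ a k =ᶠ[𝓝 ξ] fun _ => 0 := by
      filter_upwards [h2] with η hη
      have : chi0 (η 0) = 0 := by
        by_contra hcon
        linarith [(chi0_supp hcon).1]
      simp [arcG, this]
    exact contDiffAt_const.congr_of_eventuallyEq h3

theorem Sarc_bdd {δ : ℝ} (hδ : 0 < δ) (a : ℤ) :
    Sarc δ a ⊆ Metric.closedBall (0 : E2) (400 + 400 * ((|(a:ℝ)| + 1) * δ)) := by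
  rintro ξ ⟨h1, h2, h3⟩
  rw [mem_closedBall_zero_iff]
  have h4 : ‖ξ‖ ≤ |ξ 0| + |ξ 1| := by
    rw [EuclideanSpace.norm_eq, Fin.sum_univ_two]
    apply Real.sqrt_le_iff.2 ⟨by positivity, ?_⟩
    simp only [Real.norm_eq_abs]
    nlinarith [mul_nonneg (abs_nonneg (ξ 0)) (abs_nonneg (ξ 1))]
  have h5 : |ξ 1| ≤ δ * ξ 0 + |(a:ℝ)| * δ * ξ 0 := by
    calc |ξ 1| = |(ξ 1 - a * δ * ξ 0) + a * δ * ξ 0| := by ring_nf
      _ ≤ |ξ 1 - a * δ * ξ 0| + |a * δ * ξ 0| := abs_add_le _ _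
      _ ≤ δ * ξ 0 + |(a:ℝ)| * δ * ξ 0 := by
          rw [abs_mul, abs_mul, abs_of_pos hδ, abs_of_pos (by linarith : 0 < ξ 0)]
          gcongr
  have h6 : (|(a:ℝ)| + 1) * δ * ξ 0 ≤ (|(a:ℝ)| + 1) * δ * 400 := by
    gcongr
  rw [abs_of_pos (by linarith : 0 < ξ 0)] at h4
  nlinarith

theorem hcs_arcG {t δ : ℝ} (hδ : 0 < δ) (a : ℤ) (k : E2 → ℂ) : HasCompactSupport (arcG h t δ a k) :=
  HasCompactSupport.intro (isCompact_closedBall (0 : E2) (400 + 400 * ((|(a:ℝ)| + 1) * δ))) fun _ hx =>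
    arcG_zero hδ fun h0 => hx (Sarc_bdd hδ a h0)

/-- the arc piece as a Schwartz function -/
noncomputable def arcS (hh : HC c C h) (t : ℝ) {δ : ℝ} (hδ : 0 < δ) (a : ℤ) {k : E2 → ℂ} (hk : ContDiff ℝ ∞ k) :
    𝓢(E2, ℂ) :=
  HasCompactSupport.toSchwartzMap (f := arcG h t δ a k) (hcs_arcG hδ a k) (contDiff_arcG hh t δ a hk)

theorem arcS_apply (hh : HC c C h) (t : ℝ) {δ : ℝ} (hδ : 0 < δ) (a : ℤ) {k : E2 → ℂ} (hk : ContDiff ℝ ∞ k) (ξ : E2) :
    arcS hh t hδ a hk ξ = arcG h t δ a k ξ := rfl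

end Vale.Agent.P106.C
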