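import Vale.Agent.P106.C.Arc

open MeasureTheory Complex Set Filter
open scoped ENNReal NNReal ContDiff FourierTransform ComplexConjugate Topology SchwartzMap LineDeriv

namespace Vale.Agent.P106.C

open Vale.Agent.P117 (E2 Adm nrm norm_fourier_le norm_fourierInv_le continuous_fourier continuous_fourierInv
  lintegral_sq_fourier_le integral_fourier_mul integral_fourierInv_mul lintegral_E2 eta0 contDiff_eta0 eta0_supp eta0_sum)

variable {c C : ℝ} {h : ℝ → ℝ}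

/-- constant in the jet bounds -/
noncomputable def Kj (E0 E1 c1 c2 : ℝ) : ℝ := 4 * (4 * (2 * c1 ^ 2) * (4 * (2 * E0 * 1 ^ 2) * (2 * E1 * c2 ^ 2)))

theorem arc_jet (hh : HC c C h) {t δ : ℝ} {a : ℤ} {k : E2 → ℂ} {M : E2 → ℝ} {H : ℝ} (hk : KB k M H)
    (hH : 1 ≤ H) {ξ : E2} (hx : 0 < ξ 0) {v0 v1 lam c1 c2 E0 E1 : ℝ} (hv0 : |v0| ≤ 1) (hv1 : |v1| ≤ 5)
    (hlam : H ≤ lam) (hc1 : 1 ≤ c1) (hc2 : 1 ≤ c2)
    (hE0 : (∀ x, ‖chi0 x‖ ≤ E0) ∧ (∀ x, ‖deriv chi0 x‖ ≤ E0) ∧ ∀ x, ‖deriv (deriv chi0) x‖ ≤ E0)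
    (hE1 : (∀ x, ‖eta0 x‖ ≤ E1) ∧ (∀ x, ‖deriv eta0 x‖ ≤ E1) ∧ ∀ x, ‖deriv (deriv eta0) x‖ ≤ E1)
    (h1 : |2 * Real.pi * t * ((v0 * h (ξ 1 / ξ 0) + (v1 - v0 * (ξ 1 / ξ 0)) * deriv h (ξ 1 / ξ 0)) -
      ((h (a * δ) - a * δ * deriv h (a * δ)) * v0 + deriv h (a * δ) * v1))| ≤ c1 * lam)
    (h2 : |2 * Real.pi * t * ((v1 - v0 * (ξ 1 / ξ 0)) ^ 2 * deriv (deriv h) (ξ 1 / ξ 0) / ξ 0)| ≤ c1 * lam ^ 2)
    (h3 : |δ⁻¹ * ((v1 - v0 * (ξ 1 / ξ 0)) / ξ 0)| ≤ c2 * lam)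
    (h4 : |δ⁻¹ * (-2 * v0 * (v1 - v0 * (ξ 1 / ξ 0)) / ξ 0 ^ 2)| ≤ c2 * lam ^ 2) :
    BJ (fun r => arcG h t δ a k (ξ + r • !₂[v0, v1])) 0 (Kj E0 E1 c1 c2 * M ξ) lam := by
  have hl0 : 0 ≤ lam := by linarith
  have hl1 : 1 ≤ lam := by linarith
  have hne : ξ 0 + 0 * v0 ≠ 0 := by simpa using hx.ne'
  -- phase
  have P1 := J2.phase hh (ξ 0) (ξ 1) v0 v1 0 hne
  have P2 := J2.affine (lin h (a * δ) ξ) ((h (a * δ) - a * δ * deriv h (a * δ)) * v0 + deriv h (a * δ) * v1) 0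
  have P3 := (P1.sub P2).const_add' (2 * Real.pi * t) 0
  simp only [zero_mul, add_zero, sub_zero] at P3
  have B1 := BJ.cexp P3 hc1 hl0 h1 h2
  -- radial cut-off
  have Q1 := J2.affine (ξ 0) v0 0
  have B2 := BJ.comp contDiff_chi0 hE0.1 hE0.2.1 hE0.2.2 Q1 (c := 1) le_rfl hl0
    (by linarith) (by simp; positivity)
  -- angular cut-off
  have R1 := (J2.slope (ξ 0) (ξ 1) v0 v1 0 hne).const_add' δ⁻¹ (-a)
  simp only [zero_mul, add_zero] at R1
  have B3 := BJ.comp contDiff_eta0 hE1.1 hE1.2.1 hE1.2.2 R1 (c := c2) hc2 hl0 h3 h4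
  have B4 := (hk.jet ξ !₂[v0, v1] (by simpa using hv0) (by simpa using hv1)).mono le_rfl (by linarith) hlam
  have B5 := BJ.mul hl0 (BJ.mul hl0 B1 (BJ.mul hl0 B2 B3)) B4
  have e : (fun r => arcG h t δ a k (ξ + r • !₂[v0, v1])) = fun r => cexp (I * ((2 * Real.pi * t *
      ((ξ 0 + r * v0) * h ((ξ 1 + r * v1) / (ξ 0 + r * v0)) - (lin h (a * δ) ξ +
        r * ((h (a * δ) - a * δ * deriv h (a * δ)) * v0 + deriv h (a * δ) * v1))) : ℝ) : ℂ)) *
      (chi0 (ξ 0 + r * v0) * eta0 (δ⁻¹ * ((ξ 1 + r * v1) / (ξ 0 + r * v0)) + -a)) * k (ξ + r • !₂[v0, v1]) := by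
    ext r
    have e0 : (ξ + r • !₂[v0, v1]) 0 = ξ 0 + r * v0 := by simp
    have e1 : (ξ + r • !₂[v0, v1]) 1 = ξ 1 + r * v1 := by simp
    unfold arcG qh lin
    rw [e0, e1]
    congr 3
    · congr 3
      ring
    · congr 1
      rw [div_eq_inv_mul _ δ]
      ring
  rw [e]
  refine B5.mono (le_of_eq ?_) hl0 le_rfl
  unfold Kj
  ring

/-- Taylor bounds for the profile -/
theorem taylor1 (hh : HC c C h) (hc : 0 < c) (x y : ℝ) : |deriv h x - deriv h y| ≤ C * |x - y| := by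
  have h1 := (convex_univ (𝕜 := ℝ) (E := ℝ)).norm_image_sub_le_of_norm_hasDerivWithin_le (f := deriv h)
    (f' := deriv (deriv h)) (C := C) (fun z _ => (hc_deriv1 hh z).hasDerivWithinAt)
    (fun z _ => by
      rw [Real.norm_eq_abs, abs_le]
      have := hh.lower z
      have := hh.upper z
      constructor <;> linarith) (mem_univ y) (mem_univ x)
  simpa [Real.norm_eq_abs] using h1

theorem taylor2 (hh : HC c C h) (hc : 0 < c) (x y : ℝ) : |h x + (y - x) * deriv h x - h y| ≤ C * |x - y| ^ 2 := by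
  -- derivative in `x` is `(y - x) h''(x)`
  have hC : 0 ≤ C := by linarith [hh.lower 0, hh.upper 0]
  have hd : ∀ z, HasDerivAt (fun z => h z + (y - z) * deriv h z - h y) ((y - z) * deriv (deriv h) z) z := by
    intro z
    have := ((hc_deriv hh z).add (((hasDerivAt_id z).const_sub y).mul (hc_deriv1 hh z))).sub_const (h y)
    refine this.congr_deriv ?_
    simp
  have h1 := (convex_uIcc y x).norm_image_sub_le_of_norm_hasDerivWithin_le
    (f := fun z => h z + (y - z) * deriv h z - h y)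
    (f' := fun z => (y - z) * deriv (deriv h) z) (C := C * |x - y|) (fun z _ => (hd z).hasDerivWithinAt)
    (fun z hz => by
      rw [norm_mul, Real.norm_eq_abs, Real.norm_eq_abs, mul_comm]
      have h2 : |deriv (deriv h) z| ≤ C := by
        rw [abs_le]
        have := hh.lower z
        have := hh.upper z
        constructor <;> linarith
      have h3 : |y - z| ≤ |x - y| := by
        have := abs_sub_left_of_mem_uIcc hz
        rw [abs_sub_comm y z]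
        exact this
      gcongr) left_mem_uIcc right_mem_uIcc
  simp only [sub_self, zero_mul, add_zero, sub_zero, Real.norm_eq_abs] at h1
  calc _ ≤ _ := h1
    _ = _ := by ring

end Vale.Agent.P106.C
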