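import Vale.Agent.P106.C.ArcJet

open MeasureTheory Complex Set Filter
open scoped ENNReal NNReal ContDiff FourierTransform ComplexConjugate Topology SchwartzMap LineDeriv

namespace Vale.Agent.P106.C

open Vale.Agent.P117 (E2 Adm nrm norm_fourier_le norm_fourierInv_le continuous_fourier continuous_fourierInv
  lintegral_sq_fourier_le integral_fourier_mul integral_fourierInv_mul lintegral_E2 eta0 contDiff_eta0 eta0_supp eta0_sum)

variable {c C : ℝ} {h : ℝ → ℝ}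

/-- the scales: spatial localisation `H`, arc length `L/R` -/
structure Scl (H L R : ℝ) : Prop where
  h1 : 1 ≤ H
  h2 : H ≤ L
  h3 : L ≤ R
  h4 : L ^ 2 ≤ H * R
  h5 : R ≤ L ^ 2

theorem hdd (hh : HC c C h) (hc : 0 < c) (z : ℝ) : |deriv (deriv h) z| ≤ C := by
  rw [abs_le]
  have := hh.lower z
  have := hh.upper z
  constructor <;> linarith

theorem nums_delta {H L R : ℝ} (hS : Scl H L R) : 0 < L / R ∧ R * (L / R) = L ∧ (L / R) * L ≤ H ∧ (L / R)⁻¹ ≤ L := by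
  obtain ⟨s1, s2, s3, s4, s5⟩ := hS
  have hL : 0 < L := by linarith
  have hR : 0 < R := by linarith
  refine ⟨by positivity, by field_simp, ?_, ?_⟩
  · rw [div_mul_eq_mul_div, div_le_iff₀ hR]
    nlinarith
  · rw [inv_div, div_le_iff₀ hL]
    nlinarith

/-- bounds along the radial direction of the arc -/
theorem nums0 (hh : HC c C h) (hc : 0 < c) {H L R t δ b u x : ℝ} (h1 : 1 ≤ H) (hR : 0 < R) (hδ : 0 < δ)
    (hRδ : R * δ = L) (hδL : δ * L ≤ H) (ht : |t| ≤ 2 * R) (hub : |u - b| ≤ δ) (hx : 1/400 ≤ x) :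
    |2 * Real.pi * t * ((1 * h u + (b - 1 * u) * deriv h u) - ((h b - b * deriv h b) * 1 + deriv h b * b))| ≤
      (1 + 1600 * Real.pi * C) * H ∧
    |2 * Real.pi * t * ((b - 1 * u) ^ 2 * deriv (deriv h) u / x)| ≤ (1 + 1600 * Real.pi * C) * H ^ 2 ∧
    |δ⁻¹ * ((b - 1 * u) / x)| ≤ 320000 * H ∧
    |δ⁻¹ * (-2 * 1 * (b - 1 * u) / x ^ 2)| ≤ 320000 * H ^ 2 := by
  have hpi := Real.pi_pos
  have hC0 : 0 < C := by linarith [hh.lower 0, hh.upper 0]
  have hx0 : 0 < x := by linarith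
  have hxinv : x⁻¹ ≤ 400 := by
    rw [inv_le_comm₀ hx0 (by norm_num)]
    linarith
  have hxinv0 : 0 < x⁻¹ := by positivity
  have habst : |2 * Real.pi * t| ≤ 4 * Real.pi * R := by
    rw [abs_mul, abs_of_pos (by positivity : 0 < 2 * Real.pi)]
    nlinarith
  have hsq : |u - b| ^ 2 ≤ δ ^ 2 := by gcongr
  refine ⟨?_, ?_, ?_, ?_⟩
  · rw [abs_mul]
    have e : (1 * h u + (b - 1 * u) * deriv h u) - ((h b - b * deriv h b) * 1 + deriv h b * b) =
        h u + (b - u) * deriv h u - h b := by ring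
    rw [e]
    calc |2 * Real.pi * t| * |h u + (b - u) * deriv h u - h b|
        ≤ (4 * Real.pi * R) * (C * |u - b| ^ 2) := by
          gcongr
          exact taylor2 hh hc u b
      _ ≤ (4 * Real.pi * R) * (C * δ ^ 2) := by gcongr
      _ = 4 * Real.pi * C * (δ * L) := by rw [← hRδ]; ring
      _ ≤ 4 * Real.pi * C * H := by gcongr
      _ ≤ (1 + 1600 * Real.pi * C) * H := by
          apply mul_le_mul_of_nonneg_right _ (by linarith)
          nlinarith [mul_pos hpi hC0]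
  · rw [abs_mul, abs_div, abs_mul ((b - 1 * u) ^ 2), abs_pow, abs_of_pos hx0]
    have e : |b - 1 * u| = |u - b| := by rw [one_mul, abs_sub_comm]
    rw [e]
    calc |2 * Real.pi * t| * (|u - b| ^ 2 * |deriv (deriv h) u| / x)
        = |2 * Real.pi * t| * (|u - b| ^ 2 * |deriv (deriv h) u| * x⁻¹) := by rw [div_eq_mul_inv]
      _ ≤ (4 * Real.pi * R) * (δ ^ 2 * C * 400) := by
          gcongr
          exact hdd hh hc u
      _ = 1600 * Real.pi * C * (δ * L) := by rw [← hRδ]; ring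
      _ ≤ 1600 * Real.pi * C * H ^ 2 := by
          gcongr
          nlinarith
      _ ≤ (1 + 1600 * Real.pi * C) * H ^ 2 := by
          apply mul_le_mul_of_nonneg_right _ (by positivity)
          linarith
  · rw [one_mul, abs_mul, abs_div, abs_of_pos hx0, abs_of_pos (inv_pos.2 hδ), abs_sub_comm b u]
    calc δ⁻¹ * (|u - b| / x) = δ⁻¹ * |u - b| * x⁻¹ := by rw [div_eq_mul_inv]; ring
      _ ≤ δ⁻¹ * δ * 400 := by gcongr
      _ = 400 := by rw [inv_mul_cancel₀ hδ.ne', one_mul]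
      _ ≤ 320000 * H := by linarith
  · rw [abs_mul, abs_div, abs_of_pos (inv_pos.2 hδ), abs_mul, one_mul, abs_sub_comm b u, abs_pow, abs_of_pos hx0]
    calc δ⁻¹ * (|(-2:ℝ) * 1| * |u - b| / x ^ 2) = 2 * (δ⁻¹ * |u - b| * x⁻¹ ^ 2) := by
          rw [mul_one, abs_neg, abs_of_pos (by norm_num : (0:ℝ) < 2), div_eq_mul_inv, ← inv_pow]; ring
      _ ≤ 2 * (δ⁻¹ * δ * 400 ^ 2) := by gcongr
      _ = 320000 := by rw [inv_mul_cancel₀ hδ.ne']; norm_num
      _ ≤ 320000 * H ^ 2 := by nlinarith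

/-- bounds along the tangential direction of the arc -/
theorem nums1 (hh : HC c C h) (hc : 0 < c) {L R t δ b u x : ℝ} (hL : 1 ≤ L) (hR : 0 < R) (hδ : 0 < δ)
    (hRδ : R * δ = L) (hRL : R ≤ L ^ 2) (hδL : δ⁻¹ ≤ L) (ht : |t| ≤ 2 * R) (hub : |u - b| ≤ δ) (hx : 1/400 ≤ x) :
    |2 * Real.pi * t * ((0 * h u + (1 - 0 * u) * deriv h u) - ((h b - b * deriv h b) * 0 + deriv h b * 1))| ≤
      (1 + 1600 * Real.pi * C) * L ∧
    |2 * Real.pi * t * ((1 - 0 * u) ^ 2 * deriv (deriv h) u / x)| ≤ (1 + 1600 * Real.pi * C) * L ^ 2 ∧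
    |δ⁻¹ * ((1 - 0 * u) / x)| ≤ 320000 * L ∧
    |δ⁻¹ * (-2 * 0 * (1 - 0 * u) / x ^ 2)| ≤ 320000 * L ^ 2 := by
  have hpi := Real.pi_pos
  have hC0 : 0 < C := by linarith [hh.lower 0, hh.upper 0]
  have hx0 : 0 < x := by linarith
  have hL0 : 0 < L := by linarith
  have hxinv : x⁻¹ ≤ 400 := by
    rw [inv_le_comm₀ hx0 (by norm_num)]
    linarith
  have hxinv0 : 0 < x⁻¹ := by positivity
  have habst : |2 * Real.pi * t| ≤ 4 * Real.pi * R := by
    rw [abs_mul, abs_of_pos (by positivity : 0 < 2 * Real.pi)]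
    nlinarith
  refine ⟨?_, ?_, ?_, ?_⟩
  · rw [abs_mul]
    have e : (0 * h u + (1 - 0 * u) * deriv h u) - ((h b - b * deriv h b) * 0 + deriv h b * 1) =
        deriv h u - deriv h b := by ring
    rw [e]
    calc |2 * Real.pi * t| * |deriv h u - deriv h b|
        ≤ (4 * Real.pi * R) * (C * |u - b|) := by
          gcongr
          exact taylor1 hh hc u b
      _ ≤ (4 * Real.pi * R) * (C * δ) := by gcongr
      _ = 4 * Real.pi * C * L := by rw [← hRδ]; ring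
      _ ≤ (1 + 1600 * Real.pi * C) * L := by
          apply mul_le_mul_of_nonneg_right _ hL0.le
          nlinarith [mul_pos hpi hC0]
  · rw [abs_mul, zero_mul, sub_zero, one_pow, one_mul, abs_div, abs_of_pos hx0]
    calc |2 * Real.pi * t| * (|deriv (deriv h) u| / x)
        = |2 * Real.pi * t| * (|deriv (deriv h) u| * x⁻¹) := by rw [div_eq_mul_inv]
      _ ≤ (4 * Real.pi * R) * (C * 400) := by
          gcongr
          exact hdd hh hc u
      _ = 1600 * Real.pi * C * R := by ring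
      _ ≤ 1600 * Real.pi * C * L ^ 2 := by gcongr
      _ ≤ (1 + 1600 * Real.pi * C) * L ^ 2 := by
          apply mul_le_mul_of_nonneg_right _ (by positivity)
          linarith
  · rw [zero_mul, sub_zero, abs_mul, abs_div, abs_of_pos hx0, abs_of_pos (inv_pos.2 hδ), abs_one]
    calc δ⁻¹ * (1 / x) = δ⁻¹ * x⁻¹ := by rw [one_div]
      _ ≤ L * 400 := by gcongr
      _ ≤ 320000 * L := by linarith
  · simp only [mul_zero, zero_mul, zero_div, abs_zero]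
    positivity

theorem mem_Sarc_slope {δ : ℝ} {a : ℤ} {ξ : E2} (hξ : ξ ∈ Sarc δ a) : |ξ 1 / ξ 0 - a * δ| ≤ δ := by
  obtain ⟨x1, x2, x3⟩ := hξ
  have hx : 0 < ξ 0 := by linarith
  have e : ξ 1 / ξ 0 - a * δ = (ξ 1 - a * δ * ξ 0) / ξ 0 := by field_simp
  rw [e, abs_div, abs_of_pos hx, div_le_iff₀ hx]
  exact x3

theorem exists_Karc (c C : ℝ) (hc : 0 < c) (hcC : c ≤ C) : ∃ K : ℝ, 1 ≤ K ∧ ∀ (h : ℝ → ℝ), HC c C h →
    ∀ (H L R t : ℝ), Scl H L R → |t| ≤ 2 * R → ∀ (a : ℤ), |a * (L / R)| ≤ 5 →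
    ∀ (k : E2 → ℂ) (M : E2 → ℝ), KB k M H → ∀ ξ ∈ Sarc (L / R) a,
      BJ (fun r => arcG h t (L / R) a k (ξ + r • !₂[1, a * (L / R)])) 0 (K * M ξ) H ∧
      BJ (fun r => arcG h t (L / R) a k (ξ + r • !₂[0, 1])) 0 (K * M ξ) L := by
  obtain ⟨E0, hE01, hE0⟩ := exists_bd contDiff_chi0 hcs_chi0
  obtain ⟨E1, hE11, hE1⟩ := exists_bd contDiff_eta0 hcs_eta0
  have hpi := Real.pi_pos
  have hC0 : 0 < C := by linarith
  have hc11 : 1 ≤ 1 + 1600 * Real.pi * C := by nlinarith [mul_pos hpi hC0]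
  refine ⟨Kj E0 E1 (1 + 1600 * Real.pi * C) 320000, ?_, ?_⟩
  · unfold Kj
    have h1 : 1 ≤ (1 + 1600 * Real.pi * C) ^ 2 := one_le_pow₀ hc11
    have h3 : 1 ≤ E0 * E1 := one_le_mul_of_one_le_of_one_le hE01 hE11
    have h4 : 1 ≤ (1 + 1600 * Real.pi * C) ^ 2 * (E0 * E1) := one_le_mul_of_one_le_of_one_le h1 h3
    calc (1:ℝ) ≤ 4 * (4 * 2 * (4 * 2 * 2 * 320000 ^ 2)) * 1 := by norm_num
      _ ≤ 4 * (4 * 2 * (4 * 2 * 2 * 320000 ^ 2)) * ((1 + 1600 * Real.pi * C) ^ 2 * (E0 * E1)) := by gcongr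
      _ = _ := by ring
  intro h hh H L R t hS ht a ha k M hk ξ hξ
  obtain ⟨d1, d2, d3, d4⟩ := nums_delta hS
  obtain ⟨s1, s2, s3, s4, s5⟩ := hS
  have hub := mem_Sarc_slope hξ
  obtain ⟨x1, x2, x3⟩ := hξ
  have hx : 0 < ξ 0 := by linarith
  have hR : 0 < R := by linarith
  constructor
  · obtain ⟨n1, n2, n3, n4⟩ := nums0 hh hc s1 hR d1 d2 d3 ht hub x1
    exact arc_jet hh hk s1 hx (by norm_num) ha le_rfl hc11 (by norm_num) hE0 hE1 n1 n2 n3 n4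
  · obtain ⟨n1, n2, n3, n4⟩ := nums1 hh hc (s1.trans s2) hR d1 d2 s5 d4 ht hub x1
    exact arc_jet hh hk s1 hx (by norm_num) (by norm_num) s2 hc11 (by norm_num) hE0 hE1 n1 n2 n3 n4

theorem continuous_arcG (hh : HC c C h) (t δ : ℝ) (a : ℤ) {k : E2 → ℂ} (hk : ContDiff ℝ ∞ k) :
    Continuous (arcG h t δ a k) := (contDiff_arcG hh t δ a hk).continuous

/-- the `L¹` norm of one arc -/
theorem arc_L1 (c C : ℝ) (hc : 0 < c) (hcC : c ≤ C) : ∃ K : ℝ, 1 ≤ K ∧ ∀ (h : ℝ → ℝ), HC c C h →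
    ∀ (H L R t : ℝ), Scl H L R → |t| ≤ 2 * R → ∀ (a : ℤ), |a * (L / R)| ≤ 5 →
    ∀ (k : E2 → ℂ) (M : E2 → ℝ), KB k M H →
      ∫⁻ x, ‖𝓕 (arcG h t (L / R) a k) x‖ₑ ≤ (ENNReal.ofReal (K * (H * L))) ^ (1/2:ℝ) *
        (∫⁻ ξ in Sarc (L / R) a, ENNReal.ofReal (M ξ) ^ 2) ^ (1/2:ℝ) := by
  obtain ⟨K, hK, key⟩ := exists_Karc c C hc hcC
  refine ⟨Real.pi ^ 2 * (3 * K) ^ 2, ?_, ?_⟩
  · have := Real.pi_gt_three
    exact one_le_mul_of_one_le_of_one_le (one_le_pow₀ (by linarith)) (one_le_pow₀ (by linarith))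
  intro h hh H L R t hS ht a ha k M hk
  have hS' := hS
  obtain ⟨s1, s2, s3, s4, s5⟩ := hS'
  have hH : 0 < H := by linarith
  have hL : 0 < L := by linarith
  have hR : 0 < R := by linarith
  have hδ : 0 < L / R := by positivity
  set G := arcS hh t hδ a hk.smooth with hG
  have hGe : ∀ ξ, G ξ = arcG h t (L / R) a k ξ := fun ξ => arcS_apply hh t hδ a hk.smooth ξ
  have hGf : (fun ξ : E2 => G ξ) = arcG h t (L / R) a k := funext hGe
  set v : E2 := !₂[1, a * (L / R)] with hv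
  set w : E2 := !₂[0, 1] with hw
  have hpi := Real.pi_gt_three
  have hmeas : Measurable (𝓕 (arcG h t (L / R) a k)) :=
    (continuous_fourier (by rw [← hGf]; exact G.integrable)).measurable
  refine (L1_le (a * (L / R)) hH hL hmeas).trans ?_
  have hom := omega_L2 G v w (H⁻¹ ^ 2) (L⁻¹ ^ 2)
  rw [hGf] at hom
  have e1 : ∀ x : E2, inner ℝ x v = x 0 + a * (L / R) * x 1 := by
    intro x; simp [hv, PiLp.inner_apply, Fin.sum_univ_two]
  have e2 : ∀ x : E2, inner ℝ x w = x 1 := by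
    intro x; simp [hw, PiLp.inner_apply, Fin.sum_univ_two]
  simp only [e1, e2] at hom
  -- pointwise bound
  have hpt : ∀ ξ : E2, ‖G ξ - ((H⁻¹ ^ 2 / (4 * Real.pi ^ 2) : ℝ) : ℂ) * dd v G ξ -
      ((L⁻¹ ^ 2 / (4 * Real.pi ^ 2) : ℝ) : ℂ) * dd w G ξ‖ₑ ^ 2 ≤
      (Sarc (L / R) a).indicator (fun ξ => (ENNReal.ofReal (3 * K) * ENNReal.ofReal (M ξ)) ^ 2) ξ := by
    intro ξ
    by_cases hξ : ξ ∈ Sarc (L / R) a
    · rw [indicator_of_mem hξ]
      obtain ⟨B1, B2⟩ := key h hh H L R t hS ht a ha k M hk ξ hξ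
      have hM0 := B1.nonneg
      obtain ⟨f1, f2, j0, j1, j2, j3⟩ := B1
      obtain ⟨g1, g2, l0, l1, l2, l3⟩ := B2
      have hd1 : dd v G ξ = f2 := by
        apply dd_eq_of_J2 (f1 := f1)
        simpa only [hGe] using j0
      have hd2 : dd w G ξ = g2 := by
        apply dd_eq_of_J2 (f1 := g1)
        simpa only [hGe] using l0
      rw [hd1, hd2, hGe]
      simp only [zero_smul, add_zero] at j1
      have hb : ‖arcG h t (L / R) a k ξ - ((H⁻¹ ^ 2 / (4 * Real.pi ^ 2) : ℝ) : ℂ) * f2 -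
          ((L⁻¹ ^ 2 / (4 * Real.pi ^ 2) : ℝ) : ℂ) * g2‖ ≤ 3 * (K * M ξ) := by
        have h36 : 1 ≤ 4 * Real.pi ^ 2 := by nlinarith
        have t1 : ‖((H⁻¹ ^ 2 / (4 * Real.pi ^ 2) : ℝ) : ℂ) * f2‖ ≤ K * M ξ := by
          rw [norm_mul, Complex.norm_real, Real.norm_of_nonneg (by positivity)]
          calc H⁻¹ ^ 2 / (4 * Real.pi ^ 2) * ‖f2‖ ≤ H⁻¹ ^ 2 / 1 * (K * M ξ * H ^ 2) := by
                gcongr
            _ = K * M ξ := by field_simp
        have t2 : ‖((L⁻¹ ^ 2 / (4 * Real.pi ^ 2) : ℝ) : ℂ) * g2‖ ≤ K * M ξ := by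
          rw [norm_mul, Complex.norm_real, Real.norm_of_nonneg (by positivity)]
          calc L⁻¹ ^ 2 / (4 * Real.pi ^ 2) * ‖g2‖ ≤ L⁻¹ ^ 2 / 1 * (K * M ξ * L ^ 2) := by
                gcongr
            _ = K * M ξ := by field_simp
        calc _ ≤ ‖arcG h t (L / R) a k ξ‖ + ‖((H⁻¹ ^ 2 / (4 * Real.pi ^ 2) : ℝ) : ℂ) * f2‖ +
              ‖((L⁻¹ ^ 2 / (4 * Real.pi ^ 2) : ℝ) : ℂ) * g2‖ :=
              (norm_sub_le _ _).trans (add_le_add_left (norm_sub_le _ _) _)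
          _ ≤ _ := by linarith
      have hM : 0 ≤ M ξ := by nlinarith
      rw [← ofReal_norm, ← ENNReal.ofReal_mul (by positivity)]
      gcongr
      linarith
    · rw [indicator_of_notMem hξ]
      have hz : ∀ ξ, ξ ∉ Sarc (L / R) a → G ξ = 0 := fun ξ hξ => by rw [hGe]; exact arcG_zero hδ hξ
      rw [dd_eq_zero G (isClosed_Sarc _ _) hz hξ, dd_eq_zero G (isClosed_Sarc _ _) hz hξ, hz ξ hξ]
      simp
  have hfin : ∫⁻ x : E2, ‖((1 + H⁻¹ ^ 2 * (x 0 + a * (L / R) * x 1) ^ 2 + L⁻¹ ^ 2 * (x 1) ^ 2 : ℝ) : ℂ) *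
      𝓕 (arcG h t (L / R) a k) x‖ₑ ^ 2 ≤ ENNReal.ofReal (3 * K) ^ 2 * ∫⁻ ξ in Sarc (L / R) a, ENNReal.ofReal (M ξ) ^ 2 := by
    refine hom.trans ((lintegral_mono hpt).trans (le_of_eq ?_))
    rw [lintegral_indicator (isClosed_Sarc _ _).measurableSet, ← lintegral_const_mul' _ _ (by finiteness)]
    apply lintegral_congr
    intro ξ
    rw [mul_pow]
  calc _ ≤ (ENNReal.ofReal (Real.pi ^ 2 * (H * L))) ^ (1/2:ℝ) *
        (ENNReal.ofReal (3 * K) ^ 2 * ∫⁻ ξ in Sarc (L / R) a, ENNReal.ofReal (M ξ) ^ 2) ^ (1/2:ℝ) := by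
        gcongr
    _ = (ENNReal.ofReal (Real.pi ^ 2 * (H * L)) * ENNReal.ofReal (3 * K) ^ 2) ^ (1/2:ℝ) *
        (∫⁻ ξ in Sarc (L / R) a, ENNReal.ofReal (M ξ) ^ 2) ^ (1/2:ℝ) := by
        rw [ENNReal.mul_rpow_of_nonneg _ _ (by norm_num), ENNReal.mul_rpow_of_nonneg _ _ (by norm_num)]
        ring
    _ = _ := by
        rw [← ENNReal.ofReal_pow (by positivity), ← ENNReal.ofReal_mul (by positivity)]
        congr 3
        ring

end Vale.Agent.P106.C
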