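import Vale.Agent.P106.C.ArcOne

open MeasureTheory Complex Set Filter
open scoped ENNReal NNReal ContDiff FourierTransform ComplexConjugate Topology SchwartzMap LineDeriv

namespace Vale.Agent.P106.C

open Vale.Agent.P117 (E2 Adm nrm norm_fourier_le norm_fourierInv_le continuous_fourier continuous_fourierInv
  lintegral_sq_fourier_le integral_fourier_mul integral_fourierInv_mul lintegral_E2 eta0 contDiff_eta0 eta0_supp eta0_sum)

variable {c C : ℝ} {h : ℝ → ℝ}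

theorem fourier_modulate (g : E2) (G : E2 → ℂ) (x : E2) :
    𝓕 (fun ξ : E2 => cexp (I * ((2 * Real.pi * inner ℝ ξ g : ℝ))) * G ξ) x = 𝓕 G (x - g) := by
  rw [Real.fourier_eq', Real.fourier_eq']
  congr 1
  ext ξ
  rw [smul_eq_mul, smul_eq_mul, ← mul_assoc, ← Complex.exp_add, inner_sub_right]
  congr 2
  push_cast
  ring

theorem lintegral_fourier_modulate (g : E2) (G : E2 → ℂ) :
    ∫⁻ x, ‖𝓕 (fun ξ : E2 => cexp (I * ((2 * Real.pi * inner ℝ ξ g : ℝ))) * G ξ) x‖ₑ = ∫⁻ x, ‖𝓕 G x‖ₑ := by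
  simp_rw [fourier_modulate]
  exact lintegral_sub_right_eq_self (fun x => ‖𝓕 G x‖ₑ) g

theorem fourier_sum {ι : Type*} (s : Finset ι) (F : ι → E2 → ℂ) (hF : ∀ i ∈ s, Integrable (F i)) (x : E2) :
    𝓕 (fun ξ : E2 => ∑ i ∈ s, F i ξ) x = ∑ i ∈ s, 𝓕 (F i) x := by
  rw [Real.fourier_eq']
  simp_rw [Finset.smul_sum]
  rw [integral_finsetSum]
  · apply Finset.sum_congr rfl
    intro i _
    rw [Real.fourier_eq']
  · intro i hi
    have := (Real.fourierIntegral_convergent_iff x).2 (hF i hi)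
    refine this.congr (Eventually.of_forall fun v => ?_)
    simp only
    rw [Circle.smul_def, Real.fourierChar_apply]
    congr 2
    push_cast
    ring

/-- the full cut-off -/
noncomputable def Theta (δ : ℝ) (m : ℕ) (ξ : E2) : ℂ :=
  chi0 (ξ 0) * ∑ a ∈ Finset.Icc (-(m:ℤ)) m, eta0 (ξ 1 / ξ 0 / δ - a)

theorem Theta_one {δ : ℝ} (hδ : 0 < δ) {m : ℕ} (hm : 2 ≤ m * δ) {ξ : E2} (hξ : ξ ∈ Gb) : Theta δ m ξ = 1 := by
  obtain ⟨h1, h2, h3⟩ := hξ
  have hx : 0 < ξ 0 := by linarith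
  unfold Theta
  rw [chi0_one h1 h2, eta0_sum, one_mul]
  rw [abs_div, abs_div, abs_of_pos hx, abs_of_pos hδ, div_le_iff₀ hδ]
  refine le_trans ?_ hm
  rw [div_le_iff₀ hx]
  exact h3

/-- the region containing all arcs -/
def Gc : Set E2 := {ξ | 1/400 ≤ ξ 0 ∧ ξ 0 ≤ 400 ∧ |ξ 1| ≤ 4 * ξ 0}

theorem measurableSet_Gc : MeasurableSet Gc := by
  unfold Gc
  apply MeasurableSet.inter
  · exact measurableSet_le measurable_const (measurable_coord 0)
  apply MeasurableSet.inter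
  · exact measurableSet_le (measurable_coord 0) measurable_const
  · exact measurableSet_le ((measurable_coord 1).abs) ((measurable_coord 0).const_mul 4)

theorem volume_Gc_lt_top : volume Gc < ⊤ := by
  have : Gc ⊆ Metric.closedBall (0 : E2) 2000 := by
    rintro ξ ⟨h1, h2, h3⟩
    rw [mem_closedBall_zero_iff, EuclideanSpace.norm_eq, Fin.sum_univ_two]
    apply Real.sqrt_le_iff.2 ⟨by norm_num, ?_⟩
    simp only [Real.norm_eq_abs, sq_abs]
    have h4 := abs_le.1 h3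
    nlinarith
  exact lt_of_le_of_lt (measure_mono this) (isCompact_closedBall _ _).measure_lt_top

theorem Sarc_sub_Gc {δ : ℝ} (hδ : 0 < δ) (hδ1 : δ ≤ 1) {m : ℕ} (hm : m * δ ≤ 2 + δ) {a : ℤ}
    (ha : a ∈ Finset.Icc (-(m:ℤ)) m) : Sarc δ a ⊆ Gc ∧ |a * δ| ≤ 3 := by
  have ha' : |(a:ℝ)| ≤ m := by
    rw [Finset.mem_Icc] at ha
    rw [abs_le]
    constructor
    · exact_mod_cast ha.1
    · exact_mod_cast ha.2
  have hb : |(a:ℝ) * δ| ≤ 3 := by
    rw [abs_mul, abs_of_pos hδ]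
    nlinarith
  refine ⟨?_, hb⟩
  rintro ξ ⟨h1, h2, h3⟩
  refine ⟨h1, h2, ?_⟩
  have hx : 0 < ξ 0 := by linarith
  calc |ξ 1| = |(ξ 1 - a * δ * ξ 0) + a * δ * ξ 0| := by ring_nf
    _ ≤ |ξ 1 - a * δ * ξ 0| + |a * δ * ξ 0| := abs_add_le _ _
    _ ≤ δ * ξ 0 + 3 * ξ 0 := by
        rw [abs_mul (a * δ : ℝ), abs_of_pos hx]
        gcongr
    _ ≤ 4 * ξ 0 := by nlinarith

theorem overlap {δ : ℝ} (hδ : 0 < δ) (m : ℕ) (ξ : E2) :
    ∑ a ∈ Finset.Icc (-(m:ℤ)) m, (Sarc δ a).indicator (fun _ => (1:ℝ≥0∞)) ξ ≤ 3 := by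
  classical
  by_cases hx : 0 < ξ 0
  swap
  · have : ∀ a : ℤ, ξ ∉ Sarc δ a := by
      rintro a ⟨h1, h2, h3⟩
      exact hx (by linarith)
    simp [this]
  have h1 : ∀ a : ℤ, (Sarc δ a).indicator (fun _ => (1:ℝ≥0∞)) ξ ≤
      if a ∈ Finset.Icc ⌈ξ 1 / ξ 0 / δ - 1⌉ ⌊ξ 1 / ξ 0 / δ + 1⌋ then 1 else 0 := by
    intro a
    by_cases hξ : ξ ∈ Sarc δ a
    · rw [indicator_of_mem hξ, if_pos]
      have h2 := mem_Sarc_slope hξ
      rw [abs_le] at h2
      rw [Finset.mem_Icc, Int.ceil_le, Int.le_floor]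
      constructor
      · rw [sub_le_iff_le_add, div_le_iff₀ hδ]; linarith
      · rw [← sub_le_iff_le_add, le_div_iff₀ hδ]; linarith
    · rw [indicator_of_notMem hξ]; exact zero_le
  calc _ ≤ ∑ a ∈ Finset.Icc (-(m:ℤ)) m,
        (if a ∈ Finset.Icc ⌈ξ 1 / ξ 0 / δ - 1⌉ ⌊ξ 1 / ξ 0 / δ + 1⌋ then (1:ℝ≥0∞) else 0) :=
        Finset.sum_le_sum fun a _ => h1 a
    _ = (((Finset.Icc (-(m:ℤ)) m) ∩ (Finset.Icc ⌈ξ 1 / ξ 0 / δ - 1⌉ ⌊ξ 1 / ξ 0 / δ + 1⌋)).card : ℝ≥0∞) := by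
        rw [Finset.sum_ite_mem]
        simp
    _ ≤ ((Finset.Icc ⌈ξ 1 / ξ 0 / δ - 1⌉ ⌊ξ 1 / ξ 0 / δ + 1⌋).card : ℝ≥0∞) := by
        gcongr
        exact Finset.inter_subset_right
    _ ≤ 3 := by
        have h3 : (Finset.Icc ⌈ξ 1 / ξ 0 / δ - 1⌉ ⌊ξ 1 / ξ 0 / δ + 1⌋).card ≤ 3 := by
          rw [Int.card_Icc]
          have h4 := Int.floor_le (ξ 1 / ξ 0 / δ + 1)
          have h5 := Int.le_ceil (ξ 1 / ξ 0 / δ - 1)
          have h6 : ((⌊ξ 1 / ξ 0 / δ + 1⌋ - ⌈ξ 1 / ξ 0 / δ - 1⌉ : ℤ) : ℝ) ≤ 2 := by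
            push_cast; linarith
          have h7 : ⌊ξ 1 / ξ 0 / δ + 1⌋ - ⌈ξ 1 / ξ 0 / δ - 1⌉ ≤ 2 := by exact_mod_cast h6
          omega
        exact_mod_cast h3

theorem integrable_arc (hh : HC c C h) (t : ℝ) {δ : ℝ} (hδ : 0 < δ) (a : ℤ) {k : E2 → ℂ} (hk : ContDiff ℝ ∞ k)
    (g : E2) :
    Integrable (fun ξ : E2 => cexp (I * ((2 * Real.pi * inner ℝ ξ g : ℝ))) * arcG h t δ a k ξ) := by
  have h1 := (arcS hh t hδ a hk).integrable (μ := volume)
  refine h1.norm.mono' ?_ ?_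
  · apply Continuous.aestronglyMeasurable
    have := continuous_arcG hh t δ a hk
    fun_prop
  · filter_upwards with ξ
    rw [norm_mul, norm_cexpI, one_mul, arcS_apply]

/-- slope of the phase -/
noncomputable def gvec (h : ℝ → ℝ) (t b : ℝ) : E2 := !₂[t * (h b - b * deriv h b), t * deriv h b]

theorem full_eq_sum (t δ : ℝ) (m : ℕ) (k : E2 → ℂ) (ξ : E2) :
    cexp (2 * Real.pi * I * (t * qh h ξ : ℝ)) * Theta δ m ξ * k ξ = ∑ a ∈ Finset.Icc (-(m:ℤ)) m,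
      cexp (I * ((2 * Real.pi * inner ℝ ξ (gvec h t (a * δ)) : ℝ))) * arcG h t δ a k ξ := by
  unfold Theta arcG
  rw [Finset.mul_sum, Finset.mul_sum, Finset.sum_mul]
  apply Finset.sum_congr rfl
  intro a _
  have e1 : inner ℝ ξ (gvec h t (a * δ)) = t * lin h (a * δ) ξ := by
    simp [gvec, lin, PiLp.inner_apply, Fin.sum_univ_two]
    ring
  have e2 : cexp (2 * Real.pi * I * (t * qh h ξ : ℝ)) = cexp (I * ((2 * Real.pi * inner ℝ ξ (gvec h t (a * δ)) : ℝ))) *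
      cexp (I * ((2 * Real.pi * t) * (qh h ξ - lin h (a * δ) ξ) : ℝ)) := by
    rw [← Complex.exp_add, e1]
    congr 1
    push_cast
    ring
  rw [e2]
  ring

theorem integrable_full (hh : HC c C h) (t : ℝ) {δ : ℝ} (hδ : 0 < δ) (m : ℕ) {k : E2 → ℂ} (hk : ContDiff ℝ ∞ k) :
    Integrable (fun ξ => cexp (2 * Real.pi * I * (t * qh h ξ : ℝ)) * Theta δ m ξ * k ξ) := by
  simp_rw [full_eq_sum]
  exact integrable_finsetSum _ fun a _ => integrable_arc hh t hδ a hk _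

theorem sum_sqrt_le {ι : Type*} (s : Finset ι) (f : ι → ℝ≥0∞) :
    ∑ i ∈ s, f i ^ (1/2:ℝ) ≤ ((s.card : ℝ≥0∞) * ∑ i ∈ s, f i) ^ (1/2:ℝ) := by
  have h := ENNReal.inner_le_Lp_mul_Lq s (fun _ => (1:ℝ≥0∞)) (fun i => f i ^ (1/2:ℝ)) (p := 2) (q := 2)
    ⟨by norm_num, by norm_num, by norm_num⟩
  simp only [one_mul, ENNReal.one_rpow, Finset.sum_const, nsmul_eq_mul, mul_one] at h
  rw [ENNReal.mul_rpow_of_nonneg _ _ (by norm_num)]
  refine h.trans (le_of_eq ?_)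
  congr 2
  apply Finset.sum_congr rfl
  intro i _
  rw [← ENNReal.rpow_mul]
  norm_num

/-- the arc lemma -/
theorem arc_lemma (c C : ℝ) (hc : 0 < c) (hcC : c ≤ C) : ∃ K : ℝ, 1 ≤ K ∧ ∀ (h : ℝ → ℝ), HC c C h →
    ∀ (H R t : ℝ), 1 ≤ H → H ≤ R → |t| ≤ 2 * R → ∃ (δ : ℝ) (m : ℕ), 0 < δ ∧ 2 ≤ m * δ ∧
    ∀ (k : E2 → ℂ) (M : E2 → ℝ), Measurable M → KB k M H →
      ∫⁻ x, ‖𝓕 (fun ξ => cexp (2 * Real.pi * I * (t * qh h ξ : ℝ)) * Theta δ m ξ * k ξ) x‖ₑ ≤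
        (ENNReal.ofReal (K * (H * R)) * ∫⁻ ξ in Gc, ENNReal.ofReal (M ξ) ^ 2) ^ (1/2:ℝ) := by
  obtain ⟨K, hK, key⟩ := arc_L1 c C hc hcC
  refine ⟨21 * K, by linarith, ?_⟩
  intro h hh H R t hH hHR ht
  set L : ℝ := max H (Real.sqrt R) with hL
  have hR1 : 1 ≤ R := hH.trans hHR
  have hsq : Real.sqrt R ^ 2 = R := Real.sq_sqrt (by linarith)
  have hs1 : 1 ≤ Real.sqrt R := Real.one_le_sqrt.2 hR1
  have hS : Scl H L R := by
    refine ⟨hH, le_max_left _ _, ?_, ?_, ?_⟩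
    · rw [hL]; apply max_le hHR; nlinarith
    · rcases max_cases H (Real.sqrt R) with ⟨h1, h2⟩ | ⟨h1, h2⟩
      · rw [hL, h1]; nlinarith
      · rw [hL, h1, hsq]; nlinarith
    · calc R = Real.sqrt R ^ 2 := hsq.symm
        _ ≤ L ^ 2 := by gcongr; exact le_max_right _ _
  have hS' := hS
  obtain ⟨s1, s2, s3, s4, s5⟩ := hS'
  have hL0 : 0 < L := by linarith
  have hR0 : 0 < R := by linarith
  set δ : ℝ := L / R with hδdef
  have hδ : 0 < δ := by positivity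
  have hδ1 : δ ≤ 1 := by rw [hδdef, div_le_one hR0]; exact s3
  set m : ℕ := ⌈2 / δ⌉₊ with hm
  have hm1 : 2 / δ ≤ m := Nat.le_ceil _
  have hm2 : (m:ℝ) < 2 / δ + 1 := Nat.ceil_lt_add_one (by positivity)
  have hm3 : 2 ≤ m * δ := by rwa [div_le_iff₀ hδ] at hm1
  have hm4 : m * δ ≤ 2 + δ := by
    have : (m:ℝ) * δ ≤ (2 / δ + 1) * δ := by gcongr
    rw [add_mul, div_mul_cancel₀ _ hδ.ne'] at this
    linarith
  refine ⟨δ, m, hδ, hm3, ?_⟩
  intro k M hM hk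
  have e1 : ∀ x, ‖𝓕 (fun ξ => cexp (2 * Real.pi * I * (t * qh h ξ : ℝ)) * Theta δ m ξ * k ξ) x‖ₑ ≤
      ∑ a ∈ Finset.Icc (-(m:ℤ)) m,
        ‖𝓕 (fun ξ : E2 => cexp (I * ((2 * Real.pi * inner ℝ ξ (gvec h t (a * δ)) : ℝ))) * arcG h t δ a k ξ) x‖ₑ := by
    intro x
    simp_rw [full_eq_sum]
    rw [fourier_sum _ _ (fun a _ => integrable_arc hh t hδ a hk.smooth _)]
    exact enorm_sum_le _ _
  calc _ ≤ ∫⁻ x, ∑ a ∈ Finset.Icc (-(m:ℤ)) m,
        ‖𝓕 (fun ξ : E2 => cexp (I * ((2 * Real.pi * inner ℝ ξ (gvec h t (a * δ)) : ℝ))) * arcG h t δ a k ξ) x‖ₑ :=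
        lintegral_mono e1
    _ = ∑ a ∈ Finset.Icc (-(m:ℤ)) m, ∫⁻ x,
        ‖𝓕 (fun ξ : E2 => cexp (I * ((2 * Real.pi * inner ℝ ξ (gvec h t (a * δ)) : ℝ))) * arcG h t δ a k ξ) x‖ₑ := by
        rw [lintegral_finsetSum]
        intro a _
        exact (continuous_fourier (integrable_arc hh t hδ a hk.smooth _)).measurable.enorm
    _ = ∑ a ∈ Finset.Icc (-(m:ℤ)) m, ∫⁻ x, ‖𝓕 (arcG h t δ a k) x‖ₑ := by
        apply Finset.sum_congr rfl
        intro a _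
        rw [lintegral_fourier_modulate]
    _ ≤ ∑ a ∈ Finset.Icc (-(m:ℤ)) m, (ENNReal.ofReal (K * (H * L))) ^ (1/2:ℝ) *
        (∫⁻ ξ in Sarc δ a, ENNReal.ofReal (M ξ) ^ 2) ^ (1/2:ℝ) := by
        apply Finset.sum_le_sum
        intro a ha
        have hb := (Sarc_sub_Gc hδ hδ1 hm4 ha).2
        exact key h hh H L R t hS ht a (by linarith) k M hk
    _ ≤ (ENNReal.ofReal (K * (H * L))) ^ (1/2:ℝ) * (((Finset.Icc (-(m:ℤ)) m).card : ℝ≥0∞) *
        ∑ a ∈ Finset.Icc (-(m:ℤ)) m, ∫⁻ ξ in Sarc δ a, ENNReal.ofReal (M ξ) ^ 2) ^ (1/2:ℝ) := by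
        rw [← Finset.mul_sum]
        gcongr
        exact sum_sqrt_le _ _
    _ ≤ (ENNReal.ofReal (K * (H * L))) ^ (1/2:ℝ) * (ENNReal.ofReal (7 * (R / L)) *
        (3 * ∫⁻ ξ in Gc, ENNReal.ofReal (M ξ) ^ 2)) ^ (1/2:ℝ) := by
        have hcard : ((Finset.Icc (-(m:ℤ)) m).card : ℝ≥0∞) ≤ ENNReal.ofReal (7 * (R / L)) := by
          rw [Int.card_Icc]
          have e2 : ((m:ℤ) + 1 - -(m:ℤ)).toNat = 2 * m + 1 := by omega
          rw [e2]
          have e3 : ((2 * m + 1 : ℕ) : ℝ≥0∞) = ENNReal.ofReal (2 * m + 1) := by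
            rw [ENNReal.ofReal_add (by positivity) (by norm_num), ENNReal.ofReal_mul (by norm_num)]
            simp
          rw [e3]
          apply ENNReal.ofReal_le_ofReal
          have e4 : R / L = 1 / δ := by rw [hδdef]; field_simp
          have e5 : 1 ≤ 1 / δ := by rw [le_div_iff₀ hδ]; linarith
          rw [e4]
          have e6 : 2 / δ = 2 * (1 / δ) := by ring
          linarith
        have hsum : ∑ a ∈ Finset.Icc (-(m:ℤ)) m, ∫⁻ ξ in Sarc δ a, ENNReal.ofReal (M ξ) ^ 2 ≤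
            3 * ∫⁻ ξ in Gc, ENNReal.ofReal (M ξ) ^ 2 := by
          have hMm : Measurable (fun ξ => ENNReal.ofReal (M ξ) ^ 2) := by fun_prop
          calc ∑ a ∈ Finset.Icc (-(m:ℤ)) m, ∫⁻ ξ in Sarc δ a, ENNReal.ofReal (M ξ) ^ 2
              = ∑ a ∈ Finset.Icc (-(m:ℤ)) m, ∫⁻ ξ, (Sarc δ a).indicator (fun ξ => ENNReal.ofReal (M ξ) ^ 2) ξ := by
                apply Finset.sum_congr rfl
                intro a _
                rw [lintegral_indicator (isClosed_Sarc _ _).measurableSet]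
            _ = ∫⁻ ξ, ∑ a ∈ Finset.Icc (-(m:ℤ)) m, (Sarc δ a).indicator (fun ξ => ENNReal.ofReal (M ξ) ^ 2) ξ := by
                rw [lintegral_finsetSum]
                intro a _
                exact hMm.indicator (isClosed_Sarc _ _).measurableSet
            _ ≤ ∫⁻ ξ, 3 * Gc.indicator (fun ξ => ENNReal.ofReal (M ξ) ^ 2) ξ := by
                apply lintegral_mono
                intro ξ
                simp only
                by_cases hξ : ξ ∈ Gc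
                · rw [indicator_of_mem hξ]
                  calc ∑ a ∈ Finset.Icc (-(m:ℤ)) m, (Sarc δ a).indicator (fun ξ => ENNReal.ofReal (M ξ) ^ 2) ξ
                      = (∑ a ∈ Finset.Icc (-(m:ℤ)) m, (Sarc δ a).indicator (fun _ => (1:ℝ≥0∞)) ξ) *
                        ENNReal.ofReal (M ξ) ^ 2 := by
                        rw [Finset.sum_mul]
                        apply Finset.sum_congr rfl
                        intro a _
                        by_cases h7 : ξ ∈ Sarc δ a <;> simp [h7]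
                    _ ≤ _ := by
                        gcongr
                        exact overlap hδ m ξ
                · rw [indicator_of_notMem hξ, mul_zero, nonpos_iff_eq_zero]
                  apply Finset.sum_eq_zero
                  intro a ha
                  apply indicator_of_notMem
                  exact fun h7 => hξ ((Sarc_sub_Gc hδ hδ1 hm4 ha).1 h7)
            _ = 3 * ∫⁻ ξ in Gc, ENNReal.ofReal (M ξ) ^ 2 := by
                rw [lintegral_const_mul' _ _ (by finiteness), lintegral_indicator measurableSet_Gc]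
        gcongr
    _ = _ := by
        rw [← ENNReal.mul_rpow_of_nonneg _ _ (by norm_num), ← mul_assoc, ← mul_assoc,
          show (3:ℝ≥0∞) = ENNReal.ofReal 3 by simp, ← ENNReal.ofReal_mul (by positivity),
          ← ENNReal.ofReal_mul (by positivity)]
        congr 3
        field_simp
        ring

end Vale.Agent.P106.C
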