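import Vale.Agent.P117.Bdl.B2
import Vale.Agent.P106.Defs

open MeasureTheory Complex Set
open scoped ENNReal NNReal ContDiff FourierTransform ComplexConjugate

namespace Vale.Agent.P106.C

open Vale.Agent.P117 (E2 Adm nrm norm_fourier_le norm_fourierInv_le continuous_fourier continuous_fourierInv
  lintegral_sq_fourier_le integral_fourier_mul integral_fourierInv_mul)
open Vale.Agent.P106

variable {c C : ℝ} {h : ℝ → ℝ}

theorem hc_diff (hh : HC c C h) : Differentiable ℝ h := hh.smooth.differentiable (by simp)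

theorem hc_deriv (hh : HC c C h) (u : ℝ) : HasDerivAt h (deriv h u) u :=
  (hc_diff hh u).hasDerivAt

theorem hc_smooth1 (hh : HC c C h) : ContDiff ℝ ∞ (deriv h) :=
  ((contDiff_succ_iff_deriv (n := ∞)).1 hh.smooth).2.2

theorem hc_smooth2 (hh : HC c C h) : ContDiff ℝ ∞ (deriv (deriv h)) :=
  ((contDiff_succ_iff_deriv (n := ∞)).1 (hc_smooth1 hh)).2.2

theorem hc_diff1 (hh : HC c C h) : Differentiable ℝ (deriv h) :=
  (hc_smooth1 hh).differentiable (by simp)

theorem hc_deriv1 (hh : HC c C h) (u : ℝ) : HasDerivAt (deriv h) (deriv (deriv h) u) u :=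
  (hc_diff1 hh u).hasDerivAt

theorem hc_cont (hh : HC c C h) : Continuous h := (hc_diff hh).continuous

/-- the larger frequency region -/
def Gb : Set E2 := {ξ | 1/200 ≤ ξ 0 ∧ ξ 0 ≤ 200 ∧ |ξ 1| ≤ 2 * ξ 0}

theorem Gcap_sub_Gb : Gcap 0 1 ⊆ Gb := by
  rintro ξ ⟨h1, h2, h3⟩
  refine ⟨by linarith, by linarith, ?_⟩
  simp only [zero_mul, sub_zero, one_mul] at h3
  linarith

theorem measurable_coord (i : Fin 2) : Measurable (fun ξ : E2 => ξ i) := by fun_prop

theorem measurableSet_Gb : MeasurableSet Gb := by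
  unfold Gb
  apply MeasurableSet.inter
  · exact measurableSet_le measurable_const (measurable_coord 0)
  apply MeasurableSet.inter
  · exact measurableSet_le (measurable_coord 0) measurable_const
  · exact measurableSet_le ((measurable_coord 1).abs) ((measurable_coord 0).const_mul 2)

theorem Gb_sub_ball : Gb ⊆ Metric.closedBall (0 : E2) 1000 := by
  rintro ξ ⟨h1, h2, h3⟩
  rw [mem_closedBall_zero_iff, EuclideanSpace.norm_eq, Fin.sum_univ_two]
  apply Real.sqrt_le_iff.2 ⟨by norm_num, ?_⟩
  simp only [Real.norm_eq_abs, sq_abs]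
  have h4 := abs_le.1 h3
  nlinarith

theorem volume_Gb_lt_top : volume Gb < ⊤ :=
  lt_of_le_of_lt (measure_mono Gb_sub_ball) (isCompact_closedBall _ _).measure_lt_top

theorem FS.mono {f : E2 → ℂ} {G G' : Set E2} (hf : FS f G) (hG : G ⊆ G') : FS f G' :=
  fun ξ hξ => hf ξ (fun h => hξ (hG h))

theorem integrable_fourier {f : E2 → ℂ} (hf : Adm volume f) (hs : FS f Gb) : Integrable (𝓕 f) := by
  have h1 : Integrable (Gb.indicator (𝓕 f)) := by
    rw [integrable_indicator_iff measurableSet_Gb]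
    refine Measure.integrableOn_of_bounded (M := ∫ v, ‖f v‖) volume_Gb_lt_top.ne
      (continuous_fourier hf.int).aestronglyMeasurable ?_
    filter_upwards with ξ
    exact norm_fourier_le f ξ
  refine h1.congr ?_
  filter_upwards with ξ
  by_cases hξ : ξ ∈ Gb
  · simp [hξ]
  · simp [hξ, hs ξ hξ]

theorem measurable_qh (hh : HC c C h) : Measurable (qh h) := by
  unfold qh
  have := (hc_cont hh).measurable
  fun_prop

/-- unimodular factor of the evolution -/
theorem norm_ephase (a : ℝ) : ‖cexp (2 * Real.pi * I * (a : ℝ))‖ = 1 := by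
  rw [show (2 * Real.pi * I * (a : ℝ) : ℂ) = ((2 * Real.pi * a : ℝ) : ℂ) * I by push_cast; ring]
  exact Complex.norm_exp_ofReal_mul_I _

theorem integrable_ev {f : E2 → ℂ} (hh : HC c C h) (hf : Adm volume f) (hs : FS f Gb) (t : ℝ) :
    Integrable (fun ξ : E2 => cexp (2 * Real.pi * I * (t * qh h ξ : ℝ)) * 𝓕 f ξ) := by
  refine (integrable_fourier hf hs).norm.mono' ?_ ?_
  · apply AEStronglyMeasurable.mul
    · have := measurable_qh hh
      apply Measurable.aestronglyMeasurable
      fun_prop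
    · exact (continuous_fourier hf.int).aestronglyMeasurable
  · filter_upwards with ξ
    rw [norm_mul, norm_ephase, one_mul]

theorem ev_eq (h : ℝ → ℝ) (t : ℝ) (f : E2 → ℂ) (x : E2) :
    ev h t f x = ∫ ξ : E2, cexp (2 * Real.pi * I * ((inner ℝ ξ x + t * qh h ξ : ℝ))) * 𝓕 f ξ := by
  unfold ev
  rw [Real.fourierInv_eq']
  congr 1
  ext ξ
  rw [smul_eq_mul, ← mul_assoc, ← Complex.exp_add]
  congr 2
  push_cast
  ring

theorem norm_ev_le {f : E2 → ℂ} (x : E2) (t : ℝ) : ‖ev h t f x‖ ≤ ∫ ξ, ‖𝓕 f ξ‖ := by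
  rw [ev_eq]
  refine (norm_integral_le_integral_norm _).trans (le_of_eq ?_)
  congr 1
  ext ξ
  rw [norm_mul, norm_ephase, one_mul]

theorem continuous_ev {f : E2 → ℂ} (hh : HC c C h) (hf : Adm volume f) (hs : FS f Gb) :
    Continuous (fun p : ℝ × E2 => ev h p.1 f p.2) := by
  simp_rw [ev_eq]
  have hq := measurable_qh hh
  apply continuous_of_dominated (bound := fun ξ => ‖𝓕 f ξ‖)
  · intro p
    apply AEStronglyMeasurable.mul
    · apply Measurable.aestronglyMeasurable
      fun_prop
    · exact (continuous_fourier hf.int).aestronglyMeasurable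
  · intro p
    filter_upwards with ξ
    rw [norm_mul, norm_ephase, one_mul]
  · exact (integrable_fourier hf hs).norm
  · filter_upwards with ξ
    fun_prop

end Vale.Agent.P106.C
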