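import Vale.Agent.P106.C.Base

open MeasureTheory Complex Set
open scoped ENNReal NNReal ContDiff FourierTransform ComplexConjugate

namespace Vale.Agent.P106.C

open Vale.Agent.P117 (E2 Adm nrm norm_fourier_le norm_fourierInv_le continuous_fourier continuous_fourierInv
  lintegral_sq_fourier_le integral_fourier_mul integral_fourierInv_mul)
open Vale.Agent.P106

theorem le_of_le_sqrt_mul {I M : ℝ≥0∞} (hI : I ≠ ⊤) (h : I ≤ M ^ (1/2 : ℝ) * I ^ (1/2 : ℝ)) : I ≤ M := by
  by_cases h0 : I = 0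
  · simp [h0]
  by_cases hM : M = ⊤
  · simp [hM]
  have h1 : I ^ (1/2 : ℝ) ≠ 0 := by
    simp [ENNReal.rpow_eq_zero_iff, h0, hI]
  have h2 : I ^ (1/2 : ℝ) ≠ ⊤ := by
    simp [ENNReal.rpow_eq_top_iff, h0, hI]
  have h3 : I = I ^ (1/2 : ℝ) * I ^ (1/2 : ℝ) := by
    rw [← ENNReal.rpow_add _ _ h0 hI]; norm_num
  have h4 : I ^ (1/2 : ℝ) ≤ M ^ (1/2 : ℝ) := by
    have h5 : I ^ (1/2 : ℝ) * I ^ (1/2 : ℝ) ≤ M ^ (1/2 : ℝ) * I ^ (1/2 : ℝ) := h3.symm.le.trans h
    exact (ENNReal.mul_le_mul_iff_left h1 h2).1 h5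
  exact (ENNReal.rpow_le_rpow_iff (by norm_num)).1 h4

/-- test functions for the duality argument -/
noncomputable def tst (F : E2 → ℂ) (w : E2 → ℝ) (n : ℕ) (x : E2) : ℂ :=
  (Metric.closedBall (0 : E2) n).indicator (fun x => conj (F x) * (w x : ℂ)) x

theorem tst_adm {F : E2 → ℂ} (hF : Continuous F) {B : ℝ} (hB : ∀ x, ‖F x‖ ≤ B) {w : E2 → ℝ}
    (hw : Measurable w) (hw0 : ∀ x, 0 ≤ w x) (hw1 : ∀ x, w x ≤ 1) (n : ℕ) : Adm volume (tst F w n) := by
  have hB0 : 0 ≤ B := (norm_nonneg _).trans (hB 0)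
  have hm : Measurable (fun x => conj (F x) * (w x : ℂ)) := by
    have := hF.measurable
    fun_prop
  have hb : ∀ x, ‖conj (F x) * (w x : ℂ)‖ ≤ B := by
    intro x
    rw [norm_mul, RCLike.norm_conj, Complex.norm_real, Real.norm_of_nonneg (hw0 x)]
    calc ‖F x‖ * w x ≤ B * 1 := by gcongr; exacts [hw0 x, hB x, hw1 x]
      _ = B := mul_one _
  refine ⟨hm.indicator Metric.isClosed_closedBall.measurableSet, ?_, B, ?_⟩
  · unfold tst
    rw [show (fun x => (Metric.closedBall (0 : E2) n).indicator (fun x => conj (F x) * (w x : ℂ)) x) =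
      (Metric.closedBall (0 : E2) n).indicator (fun x => conj (F x) * (w x : ℂ)) from rfl]
    rw [integrable_indicator_iff Metric.isClosed_closedBall.measurableSet]
    refine Measure.integrableOn_of_bounded (M := B) (isCompact_closedBall _ _).measure_lt_top.ne
      hm.aestronglyMeasurable ?_
    filter_upwards with x
    exact hb x
  · intro x
    unfold tst
    by_cases hx : x ∈ Metric.closedBall (0 : E2) n
    · rw [indicator_of_mem hx]; exact hb x
    · rw [indicator_of_notMem hx]; simpa using hB0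

theorem integral_mul_tst {F : E2 → ℂ} (hF : Continuous F) {B : ℝ} (hB : ∀ x, ‖F x‖ ≤ B) {w : E2 → ℝ}
    (hw : Measurable w) (hw0 : ∀ x, 0 ≤ w x) (hw1 : ∀ x, w x ≤ 1) (n : ℕ) :
    ‖∫ x, F x * tst F w n x‖ₑ = ∫⁻ x in Metric.closedBall (0 : E2) n, ‖F x‖ₑ ^ 2 * ENNReal.ofReal (w x) := by
  have e1 : ∀ x, F x * tst F w n x =
      (((Metric.closedBall (0 : E2) n).indicator (fun x => ‖F x‖ ^ 2 * w x) x : ℝ) : ℂ) := by
    intro x
    unfold tst
    by_cases hx : x ∈ Metric.closedBall (0 : E2) n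
    · rw [indicator_of_mem hx, indicator_of_mem hx, ← mul_assoc, Complex.mul_conj']
      push_cast
      rfl
    · rw [indicator_of_notMem hx, indicator_of_notMem hx]; simp
  simp_rw [e1]
  rw [integral_complex_ofReal, integral_indicator Metric.isClosed_closedBall.measurableSet]
  have h0 : 0 ≤ ∫ x in Metric.closedBall (0 : E2) n, ‖F x‖ ^ 2 * w x :=
    integral_nonneg fun x => mul_nonneg (by positivity) (hw0 x)
  rw [← ofReal_norm, Complex.norm_real, Real.norm_of_nonneg h0, ofReal_integral_eq_lintegral_ofReal]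
  · apply lintegral_congr
    intro x
    rw [ENNReal.ofReal_mul (by positivity), ENNReal.ofReal_pow (norm_nonneg _), ofReal_norm]
  · refine Measure.integrableOn_of_bounded (M := B ^ 2) (isCompact_closedBall _ _).measure_lt_top.ne
      ?_ ?_
    · have := hF.measurable
      apply Measurable.aestronglyMeasurable
      fun_prop
    · filter_upwards with x
      rw [Real.norm_of_nonneg (mul_nonneg (by positivity) (hw0 x))]
      calc ‖F x‖ ^ 2 * w x ≤ B ^ 2 * 1 := by
            gcongr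
            exacts [hw0 x, hB x, hw1 x]
        _ = B ^ 2 := mul_one _
  · filter_upwards with x
    exact mul_nonneg (by positivity) (hw0 x)

/-- a weighted L² bound from the dual estimate for the extremal test functions -/
theorem weighted_dual {F : E2 → ℂ} (hF : Continuous F) {B : ℝ} (hB : ∀ x, ‖F x‖ ≤ B) {w : E2 → ℝ}
    (hw : Measurable w) (hw0 : ∀ x, 0 ≤ w x) (hw1 : ∀ x, w x ≤ 1) {M : ℝ≥0∞}
    (h : ∀ n : ℕ, ‖∫ x, F x * tst F w n x‖ₑ ≤ M ^ (1/2:ℝ) *
      (∫⁻ x in Metric.closedBall (0 : E2) n, ‖F x‖ₑ ^ 2 * ENNReal.ofReal (w x)) ^ (1/2:ℝ)) :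
    ∫⁻ x, ‖F x‖ₑ ^ 2 * ENNReal.ofReal (w x) ≤ M := by
  have key : ∀ n : ℕ, ∫⁻ x in Metric.closedBall (0 : E2) n, ‖F x‖ₑ ^ 2 * ENNReal.ofReal (w x) ≤ M := by
    intro n
    apply le_of_le_sqrt_mul
    · rw [← integral_mul_tst hF hB hw hw0 hw1 n]
      exact enorm_ne_top
    · have := h n
      rwa [integral_mul_tst hF hB hw hw0 hw1 n] at this
  have hU : (⋃ n : ℕ, Metric.closedBall (0 : E2) n) = univ := Metric.iUnion_closedBall_nat 0
  have hmono : Monotone (fun n : ℕ => Metric.closedBall (0 : E2) n) := by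
    intro a b hab
    exact Metric.closedBall_subset_closedBall (by exact_mod_cast hab)
  have h1 := setLIntegral_iUnion_of_directed (μ := volume) (s := fun n : ℕ => Metric.closedBall (0 : E2) n)
    (fun x => ‖F x‖ₑ ^ 2 * ENNReal.ofReal (w x)) (hmono.directed_le)
  rw [hU, setLIntegral_univ] at h1
  rw [h1]
  exact iSup_le key

end Vale.Agent.P106.C
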