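import Vale.Agent.P106.Defs2
import Vale.Agent.P117.Bdl.B2

/-! # A profile which is round near the origin -/

open MeasureTheory Complex Set Filter
open scoped ENNReal NNReal ContDiff Topology

namespace Vale.Agent.P106.C

open Vale.Agent.P106

/-- even cut-off equal to one on `[-3,3]` and zero outside `[-4,4]` -/
noncomputable def cut (u : ℝ) : ℝ := Real.smoothTransition (4 - u) * Real.smoothTransition (u + 4)

theorem contDiff_cut : ContDiff ℝ ∞ cut := by
  unfold cut
  have h := Vale.Agent.P117.contDiff_st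
  exact (h.comp (by fun_prop)).mul (h.comp (by fun_prop))

theorem cut_one {u : ℝ} (hu : |u| ≤ 3) : cut u = 1 := by
  rw [abs_le] at hu
  unfold cut
  rw [Real.smoothTransition.one_of_one_le (by linarith), Real.smoothTransition.one_of_one_le (by linarith), one_mul]

theorem cut_zero {u : ℝ} (hu : 4 ≤ |u|) : cut u = 0 := by
  unfold cut
  rcases le_abs.1 hu with h | h
  · rw [Real.smoothTransition.zero_of_nonpos (by linarith), zero_mul]
  · rw [Real.smoothTransition.zero_of_nonpos (x := u + 4) (by linarith), mul_zero]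

theorem cut_mem (u : ℝ) : 0 ≤ cut u ∧ cut u ≤ 1 := by
  unfold cut
  constructor
  · exact mul_nonneg (Real.smoothTransition.nonneg _) (Real.smoothTransition.nonneg _)
  · exact mul_le_one₀ (Real.smoothTransition.le_one _) (Real.smoothTransition.nonneg _)
      (Real.smoothTransition.le_one _)

/-- second derivative of the profile -/
noncomputable def G2 (u : ℝ) : ℝ := cut u * ((Real.sqrt (1 + u ^ 2)) ^ 3)⁻¹ + (1 - cut u)

theorem sqrt_pos' (u : ℝ) : 0 < Real.sqrt (1 + u ^ 2) := Real.sqrt_pos.2 (by positivity)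

theorem contDiff_sqrt' : ContDiff ℝ ∞ (fun u : ℝ => Real.sqrt (1 + u ^ 2)) := by
  apply ContDiff.sqrt (by fun_prop)
  intro x
  positivity

theorem contDiff_G2 : ContDiff ℝ ∞ G2 := by
  unfold G2
  exact (contDiff_cut.mul ((contDiff_sqrt'.pow 3).inv fun u => (pow_pos (sqrt_pos' u) 3).ne')).add
    (contDiff_const.sub contDiff_cut)

theorem G2_lower (u : ℝ) : 1/125 ≤ G2 u := by
  unfold G2
  obtain ⟨h1, h2⟩ := cut_mem u
  by_cases hu : |u| < 4
  · have h3 : Real.sqrt (1 + u ^ 2) ≤ 5 := by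
      rw [Real.sqrt_le_left (by norm_num)]
      have := sq_lt_sq' (by linarith [(abs_lt.1 hu).1]) ((abs_lt.1 hu).2)
      linarith
    have h4 : (1:ℝ)/125 ≤ ((Real.sqrt (1 + u ^ 2)) ^ 3)⁻¹ := by
      rw [one_div]
      apply inv_anti₀ (pow_pos (sqrt_pos' u) 3)
      calc Real.sqrt (1 + u ^ 2) ^ 3 ≤ 5 ^ 3 := by gcongr
        _ = 125 := by norm_num
    nlinarith
  · rw [cut_zero (by linarith)]
    norm_num

theorem G2_upper (u : ℝ) : G2 u ≤ 1 := by
  unfold G2
  obtain ⟨h1, h2⟩ := cut_mem u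
  have h3 : 1 ≤ Real.sqrt (1 + u ^ 2) := Real.one_le_sqrt.2 (by nlinarith [sq_nonneg u])
  have h4 : ((Real.sqrt (1 + u ^ 2)) ^ 3)⁻¹ ≤ 1 := inv_le_one_of_one_le₀ (one_le_pow₀ h3)
  nlinarith

noncomputable def G1 (v : ℝ) : ℝ := ∫ x in (0:ℝ)..v, G2 x
noncomputable def G0 (v : ℝ) : ℝ := ∫ x in (0:ℝ)..v, G1 x

theorem hasDerivAt_G1 (v : ℝ) : HasDerivAt G1 (G2 v) v :=
  intervalIntegral.integral_hasDerivAt_right (contDiff_G2.continuous.intervalIntegrable _ _)
    (contDiff_G2.continuous.stronglyMeasurableAtFilter _ _) contDiff_G2.continuous.continuousAt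

theorem deriv_G1 : deriv G1 = G2 := funext fun v => (hasDerivAt_G1 v).deriv

theorem contDiff_G1 : ContDiff ℝ ∞ G1 := by
  refine (contDiff_succ_iff_deriv (n := ∞)).2 ⟨fun v => (hasDerivAt_G1 v).differentiableAt, by simp, ?_⟩
  rw [deriv_G1]
  exact contDiff_G2

theorem hasDerivAt_G0 (v : ℝ) : HasDerivAt G0 (G1 v) v :=
  intervalIntegral.integral_hasDerivAt_right (contDiff_G1.continuous.intervalIntegrable _ _)
    (contDiff_G1.continuous.stronglyMeasurableAtFilter _ _) contDiff_G1.continuous.continuousAt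

theorem deriv_G0 : deriv G0 = G1 := funext fun v => (hasDerivAt_G0 v).deriv

theorem contDiff_G0 : ContDiff ℝ ∞ G0 := by
  refine (contDiff_succ_iff_deriv (n := ∞)).2 ⟨fun v => (hasDerivAt_G0 v).differentiableAt, by simp, ?_⟩
  rw [deriv_G0]
  exact contDiff_G1

theorem deriv_G2_bd : ∃ B : ℝ, ∀ u, |deriv G2 u| ≤ B := by
  have hc : Continuous (deriv G2) := (((contDiff_succ_iff_deriv (n := ∞)).1 contDiff_G2).2.2).continuous
  have hs : HasCompactSupport (fun u => G2 u - 1) := by
    apply HasCompactSupport.intro (isCompact_Icc (a := (-4:ℝ)) (b := 4))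
    intro u hu
    have : 4 ≤ |u| := by
      by_contra hcon
      exact hu (abs_le.1 (by linarith))
    simp [G2, cut_zero this]
  have hs' : HasCompactSupport (deriv G2) := by
    have e : deriv G2 = deriv (fun u => G2 u - 1) := by
      ext u
      rw [deriv_sub_const]
    rw [e]
    exact hs.deriv
  obtain ⟨B, hB⟩ := hs'.exists_bound_of_continuous hc
  exact ⟨B, fun u => by simpa using hB u⟩

/-- two functions with the same derivative on an interval around `0` -/
theorem eq_of_deriv {f g f' g' : ℝ → ℝ} (hf : ∀ x, HasDerivAt f (f' x) x) (hg : ∀ x, HasDerivAt g (g' x) x)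
    (he : ∀ x, |x| ≤ 3 → f' x = g' x) (h0 : f 0 = g 0) {x : ℝ} (hx : |x| ≤ 3) : f x = g x := by
  have h1 := (convex_Icc (-3:ℝ) 3).norm_image_sub_le_of_norm_hasDerivWithin_le
    (f := fun x => f x - g x) (f' := fun x => f' x - g' x) (C := 0)
    (fun z _ => ((hf z).sub (hg z)).hasDerivWithinAt)
    (fun z hz => by rw [he z (abs_le.2 hz), sub_self, norm_zero]) (x := 0) (y := x) (by norm_num) (abs_le.1 hx)
  rw [zero_mul, h0, sub_self, sub_zero] at h1
  have := norm_le_zero_iff.1 h1
  linarith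

theorem stRP : StRP := by
  obtain ⟨B, hB⟩ := deriv_G2_bd
  refine ⟨1/125, max 1 B, G0, by norm_num, ?_, ?_⟩
  · refine ⟨contDiff_G0, by simp [G0], ?_, ?_, ?_, ?_⟩
    · rw [deriv_G0]; simp [G1]
    · intro u; rw [deriv_G0, deriv_G1]; exact G2_lower u
    · intro u; rw [deriv_G0, deriv_G1]; exact (G2_upper u).trans (le_max_left _ _)
    · intro u; rw [deriv_G0, deriv_G1]; exact (hB u).trans (le_max_right _ _)
  · have hd : ∀ x : ℝ, HasDerivAt (fun u : ℝ => Real.sqrt (1 + u ^ 2) - 1) (x / Real.sqrt (1 + x ^ 2)) x := by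
      intro x
      have h1 : HasDerivAt (fun u : ℝ => 1 + u ^ 2) (2 * x) x := by
        simpa using (hasDerivAt_pow 2 x).const_add 1
      have h2 := (h1.sqrt (by positivity)).sub_const 1
      refine h2.congr_deriv ?_
      field_simp
    have hd2 : ∀ x : ℝ, HasDerivAt (fun u : ℝ => u / Real.sqrt (1 + u ^ 2)) (((Real.sqrt (1 + x ^ 2)) ^ 3)⁻¹) x := by
      intro x
      have h1 : HasDerivAt (fun u : ℝ => 1 + u ^ 2) (2 * x) x := by
        simpa using (hasDerivAt_pow 2 x).const_add 1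
      have h2 := h1.sqrt (by positivity)
      have h3 := (hasDerivAt_id x).div h2 (sqrt_pos' x).ne'
      refine h3.congr_deriv ?_
      have hs : Real.sqrt (1 + x ^ 2) ^ 2 = 1 + x ^ 2 := Real.sq_sqrt (by positivity)
      have hp := sqrt_pos' x
      simp only [id]
      field_simp
      rw [hs]
      ring
    have e1 : ∀ x : ℝ, |x| ≤ 3 → G1 x = x / Real.sqrt (1 + x ^ 2) := by
      intro x hx
      exact eq_of_deriv hasDerivAt_G1 hd2 (fun z hz => by unfold G2; rw [cut_one hz]; ring) (by simp [G1]) hx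
    intro u hu
    exact eq_of_deriv hasDerivAt_G0 hd e1 (by simp [G0]) hu

end Vale.Agent.P106.C
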