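import Vale.Agent.P106.C.EWe
import Vale.Agent.P106.C.RP
import Vale.Agent.P106.B.All

/-! # The planar estimates for exact waves, unconditional -/

namespace Vale.Agent.P106.C

theorem ew_final : StEW := stEW (stAR2 StFL_proof) ar3_final stAM stLow stCK stRP

end Vale.Agent.P106.C
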