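import Vale.Agent.P106.Defs2
import Vale.Agent.P106.B.Rec

/-! # Basic properties of the cut-off half waves -/

open MeasureTheory Complex Set
open scoped ENNReal NNReal ContDiff FourierTransform

set_option linter.all false

namespace Vale.Agent.P106.C

open Vale.Agent.P106
open Vale.Agent.P117 (E2 E3 Adm cv)

/-- change of chart -/
theorem wv_comp (ρ : E2 ≃ₗᵢ[ℝ] E2) (Y : E2 → ℂ) (t : ℝ) (f : E2 → ℂ) (x : E2) :
    wv (fun ξ => Y (ρ ξ)) t f x = wv Y t (fun y => f (ρ.symm y)) (ρ x) := by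
  unfold wv
  rw [← Real.fourierInv_comp_linearIsometry]
  refine congrArg (fun G : E2 → ℂ => 𝓕⁻ G x) (funext fun ξ => ?_)
  have h : 𝓕 (fun y => f (ρ.symm y)) (ρ ξ) = 𝓕 f ξ := by
    have := Real.fourier_comp_linearIsometry ρ.symm f (ρ ξ)
    rw [ρ.symm_apply_apply] at this
    exact this
  simp only [Function.comp_apply, h, ρ.norm_map]

theorem adm_comp (ρ : E2 ≃ₗᵢ[ℝ] E2) {f : E2 → ℂ} (hf : Adm volume f) :
    Adm volume (fun y => f (ρ.symm y)) where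
  meas := hf.meas.comp ρ.symm.continuous.measurable
  int := (ρ.symm.measurePreserving.integrable_comp_emb ρ.symm.toHomeomorph.measurableEmbedding).2 hf.int
  bdd := by
    obtain ⟨C, hC⟩ := hf.bdd
    exact ⟨C, fun x => hC _⟩

theorem lintegral_comp (ρ : E2 ≃ₗᵢ[ℝ] E2) (F : E2 → ℝ≥0∞) :
    ∫⁻ y, F (ρ.symm y) = ∫⁻ x, F x :=
  ρ.symm.measurePreserving.lintegral_comp_emb ρ.symm.toHomeomorph.measurableEmbedding F

/-- block integral over the target set `A` -/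
noncomputable def blk (Y : E2 → ℂ) (Λ p : ℝ) (A : Set E2) (f : E2 → ℂ) : ℝ≥0∞ :=
  ∫⁻ t in Icc (-Λ) Λ, ∫⁻ x in A, ‖wv Y t f x‖ₑ ^ p

theorem blk_comp (ρ : E2 ≃ₗᵢ[ℝ] E2) (Y : E2 → ℂ) (Λ p : ℝ) (B : Set E2) (f : E2 → ℂ) :
    blk (fun ξ => Y (ρ ξ)) Λ p (ρ ⁻¹' B) f = blk Y Λ p B (fun y => f (ρ.symm y)) := by
  unfold blk
  refine lintegral_congr fun t => ?_
  simp_rw [wv_comp]
  exact ρ.measurePreserving.setLIntegral_comp_preimage_emb ρ.toHomeomorph.measurableEmbedding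
    (fun y => ‖wv Y t (fun y => f (ρ.symm y)) y‖ₑ ^ p) B

theorem blk_mono {Y : E2 → ℂ} {Λ Λ' p : ℝ} {A A' : Set E2} {f : E2 → ℂ} (h : Λ ≤ Λ') (hA : A ⊆ A') :
    blk Y Λ p A f ≤ blk Y Λ' p A' f := by
  unfold blk
  calc _ ≤ ∫⁻ t in Icc (-Λ) Λ, ∫⁻ x in A', ‖wv Y t f x‖ₑ ^ p :=
        lintegral_mono fun t => lintegral_mono_set hA
    _ ≤ _ := lintegral_mono_set (Icc_subset_Icc (by linarith) h)

theorem bdd_fourier {f : E2 → ℂ} (hf : Integrable f) (ξ : E2) : ‖𝓕 f ξ‖ ≤ ∫ x, ‖f x‖ := by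
  rw [Real.fourier_eq]
  refine (norm_integral_le_integral_norm _).trans_eq ?_
  simp [Circle.norm_smul]

theorem integrable_wvi {Y : E2 → ℂ} (hY : Integrable Y) {f : E2 → ℂ} (hf : Integrable f) (t : ℝ) :
    Integrable (fun ξ : E2 => cexp (2 * Real.pi * I * (t * ‖ξ‖ : ℝ)) * (Y ξ * 𝓕 f ξ)) := by
  have h1 : Integrable (fun ξ : E2 => Y ξ * 𝓕 f ξ) := by
    apply hY.mul_bdd (c := ∫ x, ‖f x‖)
    · exact (Vale.Agent.P117.continuous_fourier hf).aestronglyMeasurable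
    · exact Filter.Eventually.of_forall (bdd_fourier hf)
  apply h1.bdd_mul (c := 1)
  · exact (Continuous.aestronglyMeasurable (by fun_prop))
  · filter_upwards with ξ
    rw [show (2 * Real.pi * I * (t * ‖ξ‖ : ℝ) : ℂ) = ((2 * Real.pi * (t * ‖ξ‖) : ℝ) : ℂ) * I by push_cast; ring,
      Complex.norm_exp_ofReal_mul_I]

theorem measurable_wv {Y : E2 → ℂ} (hY : Measurable Y) {f : E2 → ℂ} (hf : Integrable f) :
    Measurable (fun z : ℝ × E2 => wv Y z.1 f z.2) := by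
  unfold wv
  simp_rw [inv2_eq]
  have hF : Measurable (𝓕 f) := (Vale.Agent.P117.continuous_fourier hf).measurable
  have hm : Measurable (fun p : (ℝ × E2) × E2 => cexp (((2 * Real.pi * (p.1.2 0 * p.2 0 + p.1.2 1 * p.2 1) : ℝ) : ℂ) * I) *
      (cexp (2 * Real.pi * I * (p.1.1 * ‖p.2‖ : ℝ)) * (Y p.2 * 𝓕 f p.2))) := by
    have h1 : Measurable (fun p : (ℝ × E2) × E2 => Y p.2) := hY.comp measurable_snd
    have h2 : Measurable (fun p : (ℝ × E2) × E2 => 𝓕 f p.2) := hF.comp measurable_snd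
    fun_prop
  exact (hm.stronglyMeasurable.integral_prod_right').measurable

theorem wv_sum {ι : Type*} (s : Finset ι) (Y : ι → E2 → ℂ) (hY : ∀ i ∈ s, Integrable (Y i)) {f : E2 → ℂ}
    (hf : Integrable f) (t : ℝ) (x : E2) : wv (fun ξ => ∑ i ∈ s, Y i ξ) t f x = ∑ i ∈ s, wv (Y i) t f x := by
  unfold wv
  simp_rw [inv2_eq]
  rw [← integral_finsetSum]
  · refine integral_congr_ae (Filter.Eventually.of_forall fun ξ => ?_)
    simp only [Finset.sum_mul, Finset.mul_sum]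
  · intro i hi
    apply (integrable_wvi (hY i hi) hf t).bdd_mul (c := 1)
    · exact (Continuous.aestronglyMeasurable (by fun_prop))
    · filter_upwards with ξ
      rw [Complex.norm_exp_ofReal_mul_I]

theorem blk_sum_le {ι : Type*} (s : Finset ι) (Y : ι → E2 → ℂ) (hY : ∀ i ∈ s, Integrable (Y i))
    (hm : ∀ i ∈ s, Measurable (Y i)) {f : E2 → ℂ} (hf : Integrable f) (Λ : ℝ) {p : ℝ} (hp : 1 ≤ p) (A : Set E2) :
    blk (fun ξ => ∑ i ∈ s, Y i ξ) Λ p A f ≤ (s.card : ℝ≥0∞) ^ (p - 1) * ∑ i ∈ s, blk (Y i) Λ p A f := by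
  unfold blk
  have h1 : ∀ i ∈ s, Measurable (fun z : ℝ × E2 => ‖wv (Y i) z.1 f z.2‖ₑ ^ p) := fun i hi =>
    (measurable_wv (hm i hi) hf).enorm.pow_const p
  have h2 : ∀ i ∈ s, Measurable (fun t : ℝ => ∫⁻ x in A, ‖wv (Y i) t f x‖ₑ ^ p) := fun i hi =>
    (h1 i hi).lintegral_prod_right'
  have hc : ((s.card : ℝ≥0∞) ^ (p - 1)) ≠ ⊤ := ENNReal.rpow_ne_top_of_nonneg (by linarith) (by simp)
  calc ∫⁻ t in Icc (-Λ) Λ, ∫⁻ x in A, ‖wv (fun ξ => ∑ i ∈ s, Y i ξ) t f x‖ₑ ^ p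
      ≤ ∫⁻ t in Icc (-Λ) Λ, ∫⁻ x in A, (s.card : ℝ≥0∞) ^ (p - 1) * ∑ i ∈ s, ‖wv (Y i) t f x‖ₑ ^ p := by
        refine lintegral_mono fun t => lintegral_mono fun x => ?_
        rw [wv_sum s Y hY hf]
        refine le_trans ?_ (ENNReal.rpow_sum_le_const_mul_sum_rpow s _ hp)
        gcongr
        exact enorm_sum_le _ _
    _ = (s.card : ℝ≥0∞) ^ (p - 1) * ∑ i ∈ s, ∫⁻ t in Icc (-Λ) Λ, ∫⁻ x in A, ‖wv (Y i) t f x‖ₑ ^ p := by
        rw [← lintegral_finsetSum' s (fun i hi => (h2 i hi).aemeasurable), ← lintegral_const_mul' _ _ hc]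
        refine lintegral_congr fun t => ?_
        rw [lintegral_const_mul' _ _ hc, lintegral_finsetSum' s]
        intro i hi
        exact ((h1 i hi).comp measurable_prodMk_left).aemeasurable

end Vale.Agent.P106.C
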