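import Vale.Agent.P106.C.EWa
import Vale.Agent.P106.B.Arc

/-! # Arcs in a chart -/

open MeasureTheory Complex Set
open scoped ENNReal NNReal ContDiff FourierTransform

set_option linter.all false

namespace Vale.Agent.P106.C

open Vale.Agent.P106
open Vale.Agent.P117 (E2 E3 Adm cv)

/-- the round profile near the origin -/
def Round (h : ℝ → ℝ) : Prop := ∀ u, |u| ≤ 3 → h u = Real.sqrt (1 + u ^ 2) - 1

variable {h : ℝ → ℝ}

theorem norm_eq_of_pos {ξ : E2} (h0 : 0 < ξ 0) : ‖ξ‖ = ξ 0 * Real.sqrt (1 + (ξ 1 / ξ 0) ^ 2) := by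
  have h1 : ‖ξ‖ ^ 2 = ξ 0 ^ 2 + ξ 1 ^ 2 := Vale.Agent.P117.E2_norm_sq ξ
  have h2 : (ξ 0 * Real.sqrt (1 + (ξ 1 / ξ 0) ^ 2)) ^ 2 = ξ 0 ^ 2 + ξ 1 ^ 2 := by
    rw [mul_pow, Real.sq_sqrt (by positivity)]
    field_simp
  have h3 : 0 ≤ ξ 0 * Real.sqrt (1 + (ξ 1 / ξ 0) ^ 2) := by positivity
  exact (pow_left_inj₀ (norm_nonneg _) h3 two_ne_zero).1 (h1.trans h2.symm)

theorem norm_eq_qh (hr : Round h) {ξ : E2} (h0 : 0 < ξ 0) (h1 : |ξ 1 / ξ 0| ≤ 3) : ‖ξ‖ = ξ 0 + qh h ξ := by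
  rw [norm_eq_of_pos h0, qh, hr _ h1]
  ring

theorem inv_shift (G : E2 → ℂ) (t : ℝ) (x : E2) :
    𝓕⁻ G !₂[x 0 + t, x 1] = 𝓕⁻ (fun ξ : E2 => cexp (2 * Real.pi * I * (t * ξ 0 : ℝ)) * G ξ) x := by
  rw [inv2_eq, inv2_eq]
  refine integral_congr_ae (Filter.Eventually.of_forall fun ξ => ?_)
  have e0 : (!₂[x 0 + t, x 1] : E2) 0 = x 0 + t := rfl
  have e1 : (!₂[x 0 + t, x 1] : E2) 1 = x 1 := rfl
  simp only [e0, e1]
  rw [← mul_assoc, ← Complex.exp_add]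
  congr 2
  push_cast
  ring

/-- support of an arc multiplier -/
theorem marc_supp {χ w : ℝ → ℂ} (hp : Prof χ w) {b s : ℝ} (hs : 0 < s) {ξ : E2} (hξ : marc χ w b s ξ ≠ 0) :
    1/100 ≤ ξ 0 ∧ ξ 0 ≤ 100 ∧ |ξ 1 / ξ 0 - b| ≤ s := by
  obtain ⟨h1, h2⟩ := hp.sχ _ (left_ne_zero_of_mul hξ)
  have h3 := hp.sw _ (right_ne_zero_of_mul hξ)
  rw [abs_div, abs_of_pos hs, div_le_one hs] at h3
  exact ⟨h1, h2, h3⟩

theorem wv_marc (hr : Round h) {χ w : ℝ → ℂ} (hp : Prof χ w) {b s : ℝ} (hs : 0 < s) (hbs : |b| + s ≤ 3)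
    (t : ℝ) (f : E2 → ℂ) (x : E2) :
    wv (marc χ w b s) t f x = evarc h χ w b s t f !₂[x 0 + t, x 1] := by
  unfold wv evarc
  rw [inv_shift]
  refine congrArg (fun G : E2 → ℂ => 𝓕⁻ G x) (funext fun ξ => ?_)
  by_cases hm : marc χ w b s ξ = 0
  · rw [hm]; simp
  · obtain ⟨h1, h2, h3⟩ := marc_supp hp hs hm
    have h4 : |ξ 1 / ξ 0| ≤ 3 := by
      calc |ξ 1 / ξ 0| = |(ξ 1 / ξ 0 - b) + b| := by ring_nf
        _ ≤ |ξ 1 / ξ 0 - b| + |b| := abs_add_le _ _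
        _ ≤ 3 := by linarith
    rw [norm_eq_qh hr (by linarith) h4, ← mul_assoc (cexp _) (cexp _), ← Complex.exp_add]
    congr 2
    push_cast
    ring

theorem evarc_eq_ev {χ w : ℝ → ℂ} {b s : ℝ} {f : E2 → ℂ}
    (hF : ∀ ξ, 𝓕 (arc χ w b s f) ξ = marc χ w b s ξ * 𝓕 f ξ) (t : ℝ) (x : E2) :
    evarc h χ w b s t f x = ev h t (arc χ w b s f) x := by
  unfold evarc ev
  refine congrArg (fun G : E2 → ℂ => 𝓕⁻ G x) (funext fun ξ => ?_)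
  rw [hF]

/-- the translation by `t` in the first coordinate -/
noncomputable def tr (t : ℝ) (x : E2) : E2 := !₂[x 0 + t, x 1]

theorem tr_eq (t : ℝ) (x : E2) : tr t x = x + !₂[t, 0] := by
  ext i
  fin_cases i <;> simp [tr]

theorem lintegral_tr (t : ℝ) (A B : Set E2) (hA : ∀ x ∈ A, tr t x ∈ B) (hB : MeasurableSet B) (F : E2 → ℝ≥0∞) :
    ∫⁻ x in A, F (tr t x) ≤ ∫⁻ x in B, F x := by
  have h1 : MeasurePreserving (tr t) (volume : Measure E2) volume := by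
    have : tr t = fun x => x + !₂[t, 0] := funext fun x => tr_eq t x
    rw [this]
    exact measurePreserving_add_right volume _
  have h2 : MeasurableEmbedding (tr t) := by
    have : tr t = fun x => x + !₂[t, 0] := funext fun x => tr_eq t x
    rw [this]
    exact (MeasurableEquiv.addRight (!₂[t, 0] : E2)).measurableEmbedding
  calc ∫⁻ x in A, F (tr t x) ≤ ∫⁻ x in tr t ⁻¹' B, F (tr t x) := lintegral_mono_set hA
    _ = ∫⁻ x in B, F x := h1.setLIntegral_comp_preimage_emb h2 F B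

/-- uniform slab estimate for functions living on arcs -/
def ARp (p a : ℝ) : Prop := ∀ c C C1 ε : ℝ, 0 < c → 0 < ε → ∃ K : ℝ, 0 ≤ K ∧
  ∀ (h : ℝ → ℝ) (n : Fin 3 → ℝ) (b s κ : ℝ),
  HC c C h → 0 < s → s ≤ 1 → 0 < κ → NormalAt C1 h n b s κ → ∀ (c' H T : ℝ), 0 < H →
    1 ≤ s ^ 2 * T → H ≤ κ * T → ∀ f : E2 → ℂ, Adm volume f → FS f (Gcap b s) →
    slabInt h n c' H T p f ≤ ENNReal.ofReal (K * T ^ ε * (T ^ (1 - a) * (H / κ) ^ a)) * ∫⁻ x, ‖f x‖ₑ ^ p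

theorem one_le_of_sq {s T : ℝ} (hs : 0 < s) (hs1 : s ≤ 1) (h : 1 ≤ s ^ 2 * T) : 1 ≤ T := by
  have h2 : s ^ 2 ≤ 1 := pow_le_one₀ hs.le hs1
  have h3 : 0 < T := by
    by_contra hc
    push Not at hc
    nlinarith [sq_nonneg s]
  nlinarith

theorem arp2 (H2 : StAR2) : ARp 2 1 := by
  intro c C C1 ε hc hε
  obtain ⟨K, hK, hA⟩ := H2 c C C1 hc
  refine ⟨K, hK, ?_⟩
  intro h n b s κ hh hs hs1 hκ hn c' H T hH hsT hHT f hf hfs
  refine (hA h n b s κ hh hs hs1 hκ hn c' H T hH f hf hfs).trans ?_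
  have hT := one_le_of_sq hs hs1 hsT
  have h1 : 1 ≤ T ^ ε := Real.one_le_rpow hT hε.le
  have h2 : 0 ≤ H / κ := by positivity
  have h3 : K * 1 * (H / κ) ≤ K * T ^ ε * (H / κ) := by gcongr
  have h4 : K * (H / κ) ≤ K * T ^ ε * (T ^ (1 - 1 : ℝ) * (H / κ) ^ (1 : ℝ)) := by
    rw [sub_self, Real.rpow_zero, one_mul, Real.rpow_one]
    linarith
  gcongr ENNReal.ofReal ?_ * _

theorem arp3 (H3 : StAR3) : ARp 3 (1/2) := by
  intro c C C1 ε hc hε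
  obtain ⟨K, hK, hA⟩ := H3 c C C1 ε hc hε
  refine ⟨K, hK, ?_⟩
  intro h n b s κ hh hs hs1 hκ hn c' H T hH hsT hHT f hf hfs
  refine (hA h n b s κ hh hs hs1 hκ hn c' H T hH hsT hHT f hf hfs).trans (le_of_eq ?_)
  have hT : 0 < T := by linarith [one_le_of_sq hs hs1 hsT]
  congr 3
  rw [show H * T / κ = T * (H / κ) by ring, Real.mul_rpow hT.le (by positivity)]
  norm_num

/-- the master estimate for one arc in a chart -/
theorem arc_blk {p a : ℝ} (hp : p = 2 ∨ p = 3) (hAR : ARp p a) (hAM : StAM) {c C : ℝ} (hc : 0 < c) {h : ℝ → ℝ}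
    (hh : HC c C h) (hr : Round h) {χ w : ℝ → ℂ} (hP : Prof χ w) (C1 ε : ℝ) (hε : 0 < ε) :
    ∃ K : ℝ, 0 ≤ K ∧ ∀ (n : Fin 3 → ℝ) (b s κ : ℝ), 0 < s → s ≤ 1 → 0 < κ → NormalAt C1 h n b s κ →
      |b| + s ≤ 3 → ∀ (c' H T Λ : ℝ), 0 < H → 1 ≤ s ^ 2 * T → H ≤ κ * T → Λ ≤ T → ∀ A : Set E2,
      (∀ t ∈ Icc (-Λ) Λ, ∀ x ∈ A, tr t x ∈ slabAt n c' H t) → ∀ f : E2 → ℂ, Adm volume f →
      blk (marc χ w b s) Λ p A f ≤ ENNReal.ofReal (K * T ^ ε * (T ^ (1 - a) * (H / κ) ^ a)) * ∫⁻ x, ‖f x‖ₑ ^ p := by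
  obtain ⟨K, hK, hA⟩ := hAR c C C1 ε hc hε
  obtain ⟨K', hK', hM⟩ := hAM χ w hP
  refine ⟨K * K', by positivity, ?_⟩
  intro n b s κ hs hs1 hκ hn hbs c' H T Λ hH hsT hHT hΛ A hA' f hf
  obtain ⟨ha, hF, hfs, h2, h3⟩ := hM b s hs f hf
  have hT := one_le_of_sq hs hs1 hsT
  have hcon := hA h n b s κ hh hs hs1 hκ hn c' H T hH hsT hHT _ ha hfs
  have hL : ∫⁻ x, ‖arc χ w b s f x‖ₑ ^ p ≤ ENNReal.ofReal K' * ∫⁻ x, ‖f x‖ₑ ^ p := by
    rcases hp with rfl | rfl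
    · exact h2
    · exact h3
  calc blk (marc χ w b s) Λ p A f ≤ slabInt h n c' H T p (arc χ w b s f) := by
        unfold blk slabInt
        calc _ ≤ ∫⁻ t in Icc (-Λ) Λ, ∫⁻ x in slabAt n c' H t, ‖ev h t (arc χ w b s f) x‖ₑ ^ p := by
              apply setLIntegral_mono' measurableSet_Icc
              intro t ht
              have e : ∀ x, ‖wv (marc χ w b s) t f x‖ₑ ^ p = (fun y => ‖ev h t (arc χ w b s f) y‖ₑ ^ p) (tr t x) := by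
                intro x
                rw [wv_marc hr hP hs hbs, evarc_eq_ev hF]
                rfl
              simp_rw [e]
              exact lintegral_tr t A _ (hA' t ht) (measurableSet_slabAt n c' H t) _
          _ ≤ _ := lintegral_mono_set (Icc_subset_Icc (by linarith) hΛ)
    _ ≤ _ := hcon
    _ ≤ ENNReal.ofReal (K * T ^ ε * (T ^ (1 - a) * (H / κ) ^ a)) * (ENNReal.ofReal K' * ∫⁻ x, ‖f x‖ₑ ^ p) := by gcongr
    _ = _ := by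
        rw [← mul_assoc, ← ENNReal.ofReal_mul (by positivity)]
        congr 2
        ring

end Vale.Agent.P106.C
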