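import Vale.Agent.P106.C.EWb

/-! # Angular cut-offs, decomposition into arcs, slab normals -/

open MeasureTheory Complex Set
open scoped ENNReal NNReal ContDiff FourierTransform

set_option linter.all false

namespace Vale.Agent.P106.C

open Vale.Agent.P106
open Vale.Agent.P117 (E2 E3 Adm cv eta0 contDiff_eta0 eta0_supp eta0_sum)

/-- radial cut-off -/
noncomputable def chc (r : ℝ) : ℂ :=
  ((Real.smoothTransition (100 * r - 1) * Real.smoothTransition ((100 - r) / 80) : ℝ) : ℂ)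

/-- angular cut-off around the `ξ₀` axis -/
noncomputable def aa (u : ℝ) : ℂ := ((Real.smoothTransition (10 * ((1 - u ^ 2) / (1 + u ^ 2))) : ℝ) : ℂ)

/-- angular cut-off around the `ξ₁` axis -/
noncomputable def ab (v : ℝ) : ℂ := ((1 - Real.smoothTransition (10 * ((v ^ 2 - 1) / (1 + v ^ 2))) : ℝ) : ℂ)

/-- dyadic piece -/
noncomputable def be (u : ℝ) : ℂ := aa u - aa (2 * u)

theorem contDiff_chc : ContDiff ℝ ∞ chc := by
  unfold chc
  have h := Vale.Agent.P117.contDiff_st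
  exact Complex.ofRealCLM.contDiff.comp ((h.comp (by fun_prop)).mul (h.comp (by fun_prop)))

theorem chc_one {r : ℝ} (h1 : 1/50 ≤ r) (h2 : r ≤ 20) : chc r = 1 := by
  unfold chc
  rw [Real.smoothTransition.one_of_one_le (by linarith), Real.smoothTransition.one_of_one_le (by linarith)]
  simp

theorem chc_supp {r : ℝ} (h : chc r ≠ 0) : 1/100 ≤ r ∧ r ≤ 100 := by
  constructor
  · by_contra hc
    push Not at hc
    apply h
    unfold chc
    rw [Real.smoothTransition.zero_of_nonpos (by linarith)]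
    simp
  · by_contra hc
    push Not at hc
    apply h
    unfold chc
    rw [Real.smoothTransition.zero_of_nonpos (x := (100 - r) / 80) (by linarith)]
    simp

theorem contDiff_aa : ContDiff ℝ ∞ aa := by
  unfold aa
  have h := Vale.Agent.P117.contDiff_st
  refine Complex.ofRealCLM.contDiff.comp (h.comp (contDiff_const.mul (ContDiff.div (by fun_prop) (by fun_prop) ?_)))
  intro x
  positivity

theorem contDiff_ab : ContDiff ℝ ∞ ab := by
  unfold ab
  have h := Vale.Agent.P117.contDiff_st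
  refine Complex.ofRealCLM.contDiff.comp (contDiff_const.sub
    (h.comp (contDiff_const.mul (ContDiff.div (by fun_prop) (by fun_prop) ?_))))
  intro x
  positivity

theorem contDiff_be : ContDiff ℝ ∞ be := contDiff_aa.sub (contDiff_aa.comp (by fun_prop))

theorem aa_supp {u : ℝ} (h : aa u ≠ 0) : |u| ≤ 1 := by
  by_contra hc
  push Not at hc
  apply h
  unfold aa
  have h1 : 1 < u ^ 2 := by rw [← sq_abs]; nlinarith
  rw [Real.smoothTransition.zero_of_nonpos]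
  · simp
  · have : (1 - u ^ 2) / (1 + u ^ 2) ≤ 0 := div_nonpos_of_nonpos_of_nonneg (by linarith) (by positivity)
    linarith

theorem aa_one {u : ℝ} (h : |u| ≤ 9/10) : aa u = 1 := by
  unfold aa
  have h1 : u ^ 2 ≤ 81/100 := by rw [← sq_abs]; nlinarith [abs_nonneg u]
  rw [Real.smoothTransition.one_of_one_le]
  · simp
  · have : 1/10 ≤ (1 - u ^ 2) / (1 + u ^ 2) := by
      rw [le_div_iff₀ (by positivity)]
      linarith
    linarith

theorem ab_supp {v : ℝ} (h : ab v ≠ 0) : |v| ≤ 10/9 := by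
  by_contra hc
  push Not at hc
  apply h
  unfold ab
  have h1 : 100/81 < v ^ 2 := by rw [← sq_abs]; nlinarith
  rw [Real.smoothTransition.one_of_one_le]
  · simp
  · have : 1/10 ≤ (v ^ 2 - 1) / (1 + v ^ 2) := by
      rw [le_div_iff₀ (by positivity)]
      linarith
    linarith

theorem be_supp {u : ℝ} (h : be u ≠ 0) : 9/20 ≤ |u| ∧ |u| ≤ 1 := by
  constructor
  · by_contra hc
    push Not at hc
    apply h
    unfold be
    rw [aa_one (by linarith), aa_one (by rw [abs_mul, abs_two]; linarith), sub_self]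
  · by_contra hc
    push Not at hc
    apply h
    unfold be
    have h1 : aa u = 0 := by
      by_contra h1
      linarith [aa_supp h1]
    have h2 : aa (2 * u) = 0 := by
      by_contra h2
      have := aa_supp h2
      rw [abs_mul, abs_two] at this
      linarith
    rw [h1, h2, sub_zero]

/-- arc profile -/
noncomputable def wj (g : ℝ → ℂ) (j : ℤ) (v : ℝ) : ℂ := g ((j + v) / 16) * eta0 v

theorem prof_wj {g : ℝ → ℂ} (hg : ContDiff ℝ ∞ g) (j : ℤ) : Prof chc (wj g j) where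
  cχ := contDiff_chc
  sχ := fun t ht => chc_supp ht
  cw := (hg.comp (by fun_prop)).mul contDiff_eta0
  sw := fun t ht => eta0_supp t (right_ne_zero_of_mul ht)

theorem marc_wj (g : ℝ → ℂ) (j : ℤ) {l : ℝ} (hl : 0 < l) (ξ : E2) :
    marc chc (wj g j) (j * l / 16) (l / 16) ξ = chc (ξ 0) * g (ξ 1 / ξ 0 / l) * eta0 (16 * (ξ 1 / ξ 0 / l) - j) := by
  unfold marc wj
  have e1 : (ξ 1 / ξ 0 - j * l / 16) / (l / 16) = 16 * (ξ 1 / ξ 0 / l) - j := by
    field_simp
  rw [e1, mul_assoc]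
  congr 3
  ring

theorem sum_arcs {g : ℝ → ℂ} (hgs : ∀ x, g x ≠ 0 → |x| ≤ 10/9) {l : ℝ} (hl : 0 < l) (ξ : E2) :
    ∑ j ∈ Finset.Icc (-18:ℤ) 18, marc chc (wj g j) (j * l / 16) (l / 16) ξ = chc (ξ 0) * g (ξ 1 / ξ 0 / l) := by
  simp_rw [marc_wj g _ hl]
  rw [← Finset.mul_sum]
  by_cases h : g (ξ 1 / ξ 0 / l) = 0
  · rw [h, mul_zero, zero_mul]
  · have h1 := hgs _ h
    have h2 := eta0_sum 18 (16 * (ξ 1 / ξ 0 / l)) (by rw [abs_mul, abs_of_pos (by norm_num : (0:ℝ) < 16)]; push_cast; linarith)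
    have e : Finset.Icc (-((18:ℕ):ℤ)) ((18:ℕ):ℤ) = Finset.Icc (-18:ℤ) 18 := by norm_num
    rw [e] at h2
    rw [h2, mul_one]

/-- arcs which are not empty -/
def JJ (g : ℝ → ℂ) (j : ℤ) : Prop := ∃ v, wj g j v ≠ 0

theorem JJ_spec {g : ℝ → ℂ} {j : ℤ} (h : JJ g j) : ∃ v : ℝ, |v| ≤ 1 ∧ g ((j + v) / 16) ≠ 0 := by
  obtain ⟨v, hv⟩ := h
  exact ⟨v, eta0_supp v (right_ne_zero_of_mul hv), left_ne_zero_of_mul hv⟩

theorem marc_zero {g : ℝ → ℂ} {j : ℤ} (h : ¬ JJ g j) (b s : ℝ) (ξ : E2) : marc chc (wj g j) b s ξ = 0 := by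
  unfold JJ at h
  push Not at h
  unfold marc
  rw [h, mul_zero]

open Classical in
theorem sum_arcs' {g : ℝ → ℂ} (hgs : ∀ x, g x ≠ 0 → |x| ≤ 10/9) {l : ℝ} (hl : 0 < l) (ξ : E2) :
    ∑ j ∈ (Finset.Icc (-18:ℤ) 18).filter (JJ g), marc chc (wj g j) (j * l / 16) (l / 16) ξ =
      chc (ξ 0) * g (ξ 1 / ξ 0 / l) := by
  rw [← sum_arcs hgs hl, Finset.sum_filter]
  refine Finset.sum_congr rfl fun j hj => ?_
  split_ifs with h
  · rfl
  · rw [marc_zero h]

theorem measurable_marc {χ w : ℝ → ℂ} (hp : Prof χ w) (b s : ℝ) : Measurable (marc χ w b s) := by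
  unfold marc
  have h1 := hp.cχ.continuous.measurable
  have h2 := hp.cw.continuous.measurable
  exact (h1.comp (by fun_prop)).mul (h2.comp (by fun_prop))

/-- one scale of arcs -/
theorem family_blk {p a : ℝ} (hp : p = 2 ∨ p = 3) (hAR : ARp p a) (hAM : StAM) {c C : ℝ} (hc : 0 < c) {h : ℝ → ℝ}
    (hh : HC c C h) (hr : Round h) {g : ℝ → ℂ} (hg : ContDiff ℝ ∞ g) (hgs : ∀ x, g x ≠ 0 → |x| ≤ 10/9)
    (C1 ε : ℝ) (hε : 0 < ε) :
    ∃ K : ℝ, 0 ≤ K ∧ ∀ (l κ H T Λ : ℝ) (A : Set E2), 0 < l → l ≤ 1 → 0 < κ → 0 < H → 256 ≤ l ^ 2 * T → H ≤ κ * T →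
      Λ ≤ T → (∀ j : ℤ, |j| ≤ 18 → JJ g j → ∃ (n : Fin 3 → ℝ) (c' : ℝ), NormalAt C1 h n (j * l / 16) (l / 16) κ ∧
        ∀ t ∈ Icc (-Λ) Λ, ∀ x ∈ A, tr t x ∈ slabAt n c' H t) → ∀ f : E2 → ℂ, Adm volume f →
      blk (fun ξ => chc (ξ 0) * g (ξ 1 / ξ 0 / l)) Λ p A f ≤
        ENNReal.ofReal (K * T ^ ε * (T ^ (1 - a) * (H / κ) ^ a)) * ∫⁻ x, ‖f x‖ₑ ^ p := by
  classical
  have hK := fun j : ℤ => arc_blk hp hAR hAM hc hh hr (prof_wj hg j) C1 ε hε
  choose K hK0 hK1 using hK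
  refine ⟨37 ^ (p - 1) * ∑ j ∈ Finset.Icc (-18:ℤ) 18, K j, mul_nonneg (by positivity) (Finset.sum_nonneg fun j _ => hK0 j), ?_⟩
  intro l κ H T Λ A hl hl1 hκ hH hT hHT hΛ hn f hf
  have hs : 0 < l / 16 := by positivity
  have hp1 : 1 ≤ p := by rcases hp with rfl | rfl <;> norm_num
  have e : (fun ξ : E2 => chc (ξ 0) * g (ξ 1 / ξ 0 / l)) = fun ξ : E2 =>
      ∑ j ∈ (Finset.Icc (-18:ℤ) 18).filter (JJ g), marc chc (wj g j) (j * l / 16) (l / 16) ξ := by
    ext ξ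
    rw [sum_arcs' hgs hl]
  rw [e]
  refine (blk_sum_le _ _ (fun j _ => integrable_marc (prof_wj hg j) _ _ hs) (fun j _ => measurable_marc (prof_wj hg j) _ _)
    hf.int Λ hp1 A).trans ?_
  have hT0 : 0 < T := by
    by_contra hcc
    push Not at hcc
    nlinarith [sq_nonneg l]
  set G : ℝ := T ^ ε * (T ^ (1 - a) * (H / κ) ^ a) with hG
  have hG0 : 0 ≤ G := by positivity
  have h1 : ∀ j ∈ (Finset.Icc (-18:ℤ) 18).filter (JJ g), blk (marc chc (wj g j) (j * l / 16) (l / 16)) Λ p A f ≤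
      ENNReal.ofReal (K j * G) * ∫⁻ x, ‖f x‖ₑ ^ p := by
    intro j hj
    rw [Finset.mem_filter, Finset.mem_Icc] at hj
    obtain ⟨hj1, hj2⟩ := hj
    have hj3 : |j| ≤ 18 := abs_le.2 hj1
    obtain ⟨n, c', hn1, hn2⟩ := hn j hj3 hj2
    have hj4 : |(j:ℝ)| ≤ 18 := by exact_mod_cast hj3
    have hb : |(j:ℝ) * l / 16| + l / 16 ≤ 3 := by
      rw [abs_div, abs_mul, abs_of_pos hl, abs_of_pos (by norm_num : (0:ℝ) < 16)]
      nlinarith [abs_nonneg (j:ℝ)]
    have := hK1 j n (j * l / 16) (l / 16) κ hs (by linarith) hκ hn1 hb c' H T Λ hH (by nlinarith) hHT hΛ A hn2 f hf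
    rw [mul_assoc] at this
    exact this
  have hcard : (((Finset.Icc (-18:ℤ) 18).filter (JJ g)).card : ℝ≥0∞) ^ (p - 1) ≤ ENNReal.ofReal (37 ^ (p - 1)) := by
    rw [← ENNReal.ofReal_rpow_of_pos (by norm_num)]
    apply ENNReal.rpow_le_rpow _ (by linarith)
    have : ((Finset.Icc (-18:ℤ) 18).filter (JJ g)).card ≤ 37 := by
      refine (Finset.card_filter_le _ _).trans ?_
      simp
    calc (((Finset.Icc (-18:ℤ) 18).filter (JJ g)).card : ℝ≥0∞) ≤ (37 : ℕ) := by exact_mod_cast this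
      _ = ENNReal.ofReal 37 := by simp
  calc _ ≤ ENNReal.ofReal (37 ^ (p - 1)) * ∑ j ∈ (Finset.Icc (-18:ℤ) 18).filter (JJ g),
        ENNReal.ofReal (K j * G) * ∫⁻ x, ‖f x‖ₑ ^ p := by
        gcongr with j hj
        exact h1 j hj
    _ ≤ ENNReal.ofReal (37 ^ (p - 1)) * ∑ j ∈ Finset.Icc (-18:ℤ) 18,
        ENNReal.ofReal (K j * G) * ∫⁻ x, ‖f x‖ₑ ^ p := by
        gcongr
        exact Finset.filter_subset _ _
    _ = _ := by
        rw [← Finset.sum_mul, ← ENNReal.ofReal_sum_of_nonneg (fun j _ => mul_nonneg (hK0 j) hG0), ← mul_assoc,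
          ← ENNReal.ofReal_mul (by positivity), ← Finset.sum_mul]
        congr 2
        rw [hG]
        ring

/-! normals -/

theorem round_deriv {h : ℝ → ℝ} (hr : Round h) {u : ℝ} (hu : |u| < 3) : deriv h u = u / Real.sqrt (1 + u ^ 2) := by
  have h1 : h =ᶠ[nhds u] fun u => Real.sqrt (1 + u ^ 2) - 1 := by
    have : IsOpen {v : ℝ | |v| < 3} := isOpen_lt continuous_abs continuous_const
    filter_upwards [this.mem_nhds hu] with v hv
    exact hr v (le_of_lt hv)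
  rw [h1.deriv_eq]
  have h2 : HasDerivAt (fun u : ℝ => Real.sqrt (1 + u ^ 2) - 1) ((2 * u) / (2 * Real.sqrt (1 + u ^ 2))) u := by
    have h3 : HasDerivAt (fun u : ℝ => 1 + u ^ 2) (2 * u) u := by
      have := (hasDerivAt_pow 2 u).const_add 1
      simpa using this
    exact (h3.sqrt (by positivity)).sub_const 1
  rw [h2.deriv]
  have : Real.sqrt (1 + u ^ 2) ≠ 0 := (Real.sqrt_pos.2 (by positivity)).ne'
  field_simp

theorem round_leg {h : ℝ → ℝ} (hr : Round h) {u : ℝ} (hu : |u| < 3) :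
    h u - u * deriv h u = (Real.sqrt (1 + u ^ 2))⁻¹ - 1 := by
  rw [round_deriv hr hu, hr u hu.le]
  have h1 : Real.sqrt (1 + u ^ 2) ≠ 0 := (Real.sqrt_pos.2 (by positivity)).ne'
  have h2 : Real.sqrt (1 + u ^ 2) ^ 2 = 1 + u ^ 2 := Real.sq_sqrt (by positivity)
  field_simp
  nlinarith

theorem sqrt_bounds {u : ℝ} (hu : |u| ≤ 3/2) : 1 ≤ Real.sqrt (1 + u ^ 2) ∧ Real.sqrt (1 + u ^ 2) ≤ 2 := by
  have h1 : u ^ 2 ≤ 9/4 := by rw [← sq_abs]; nlinarith [abs_nonneg u]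
  constructor
  · exact Real.one_le_sqrt.2 (by nlinarith [sq_nonneg u])
  · rw [Real.sqrt_le_left (by norm_num)]
    linarith

/-- full space -/
theorem normal_full {h : ℝ → ℝ} (b s : ℝ) : NormalAt 10 h ![0, 0, 1] b s 1 where
  b0 := by simp
  b1 := by simp
  lower := fun v _ => by simp [kapn]
  upper := fun v _ => by simp [kapn]

/-- radial strips -/
theorem normal_rad {h : ℝ → ℝ} (hr : Round h) {j : ℤ} (hj : JJ ab j) : NormalAt 10 h ![-1, 0, 1] (j * 1 / 16) (1 / 16) (1/2) := by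
  obtain ⟨v0, hv0, hg⟩ := JJ_spec hj
  have h1 := ab_supp hg
  have key : ∀ v : ℝ, |v| ≤ 2 → |(j:ℝ) * 1 / 16 + 1 / 16 * v| ≤ 3/2 := by
    intro v hv
    have e : (j:ℝ) * 1 / 16 + 1 / 16 * v = (j + v0) / 16 + (v - v0) / 16 := by ring
    rw [e]
    have h2 : |(v - v0) / 16| ≤ 3/16 := by
      rw [abs_div, abs_of_pos (by norm_num : (0:ℝ) < 16)]
      have := abs_sub v v0
      linarith
    refine (abs_add_le _ _).trans ?_
    linarith
  have hk : ∀ u : ℝ, |u| ≤ 3/2 → kapn h ![-1, 0, 1] u = (Real.sqrt (1 + u ^ 2))⁻¹ := by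
    intro u hu
    unfold kapn
    rw [round_leg hr (by linarith)]
    simp
  constructor
  · simp; norm_num
  · simp
    have h2 : |(j:ℝ)| ≤ 24 := by
      have := key 0 (by simp)
      rw [mul_zero, add_zero, mul_one, abs_div, abs_of_pos (by norm_num : (0:ℝ) < 16)] at this
      linarith
    rw [abs_div, abs_of_pos (by norm_num : (0:ℝ) < 16)]
    linarith
  · intro v hv
    rw [hk _ (key v hv)]
    obtain ⟨h2, h3⟩ := sqrt_bounds (key v hv)
    rw [one_div]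
    exact inv_anti₀ (by linarith) h3
  · intro v hv
    rw [hk _ (key v hv)]
    obtain ⟨h2, h3⟩ := sqrt_bounds (key v hv)
    have := inv_le_one_of_one_le₀ h2
    linarith

theorem abs_sign_le (x : ℝ) : |(SignType.sign x : ℝ)| ≤ 1 := by
  rcases lt_trichotomy x 0 with hneg | hz | hpos
  · rw [sign_neg hneg]; simp
  · rw [hz]; simp
  · rw [sign_pos hpos]; simp

/-- strips in the second variable: the sign of `j` decides the sign of the normal -/
theorem normal_ax {h : ℝ → ℝ} (hr : Round h) {j : ℤ} (hj : JJ be j) {l : ℝ} (hl : 0 < l) (hl1 : l ≤ 1) :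
    NormalAt 10 h ![0, -SignType.sign (j:ℝ), 0] (j * l / 16) (l / 16) (l / 8) := by
  obtain ⟨v0, hv0, hg⟩ := JJ_spec hj
  obtain ⟨h1, h1'⟩ := be_supp hg
  rw [abs_div, abs_of_pos (by norm_num : (0:ℝ) < 16)] at h1 h1'
  have hj5 : 6 ≤ |(j:ℝ)| := by
    have := abs_add_le (j:ℝ) v0
    linarith
  have hj17 : |(j:ℝ)| ≤ 17 := by
    have : |(j:ℝ)| ≤ |(j:ℝ) + v0| + |v0| := by
      calc |(j:ℝ)| = |((j:ℝ) + v0) - v0| := by ring_nf
        _ ≤ _ := abs_sub _ _
    linarith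
  have hk : ∀ u : ℝ, |u| ≤ 3/2 → kapn h ![0, -SignType.sign (j:ℝ), 0] u = SignType.sign (j:ℝ) * (u / Real.sqrt (1 + u ^ 2)) := by
    intro u hu
    unfold kapn
    rw [round_deriv hr (by linarith)]
    simp
  have key : ∀ v : ℝ, |v| ≤ 2 → |(j:ℝ) * l / 16 + l / 16 * v| ≤ 3/2 ∧
      l / 4 ≤ SignType.sign (j:ℝ) * ((j:ℝ) * l / 16 + l / 16 * v) ∧
      SignType.sign (j:ℝ) * ((j:ℝ) * l / 16 + l / 16 * v) ≤ 19/16 * l := by
    intro v hv
    have e : (j:ℝ) * l / 16 + l / 16 * v = l / 16 * (j + v) := by ring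
    rw [abs_le] at hv
    rcases lt_trichotomy (j:ℝ) 0 with hneg | hz | hpos
    · rw [abs_of_neg hneg] at hj5 hj17
      rw [sign_neg hneg]
      refine ⟨?_, ?_, ?_⟩
      · rw [e, abs_le]
        constructor <;> nlinarith
      · simp only [SignType.coe_neg, SignType.coe_one]
        nlinarith
      · simp only [SignType.coe_neg, SignType.coe_one]
        nlinarith
    · rw [hz] at hj5; simp at hj5; linarith
    · rw [abs_of_pos hpos] at hj5 hj17
      rw [sign_pos hpos]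
      refine ⟨?_, ?_, ?_⟩
      · rw [e, abs_le]
        constructor <;> nlinarith
      · simp only [SignType.coe_one]
        nlinarith
      · simp only [SignType.coe_one]
        nlinarith
  constructor
  · simp
    positivity
  · have : |(![0, -(SignType.sign (j:ℝ) : ℝ), 0] : Fin 3 → ℝ) 1 - (![0, -(SignType.sign (j:ℝ) : ℝ), 0] : Fin 3 → ℝ) 0 * (j * l / 16)| ≤ 1 := by
      show |-(SignType.sign (j:ℝ) : ℝ) - 0 * (j * l / 16)| ≤ 1
      rw [zero_mul, sub_zero, abs_neg]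
      exact abs_sign_le _
    nlinarith
  · intro v hv
    obtain ⟨k1, k2, k3⟩ := key v hv
    rw [hk _ k1]
    obtain ⟨h2, h3⟩ := sqrt_bounds k1
    rw [← mul_div_assoc, le_div_iff₀ (by linarith)]
    nlinarith
  · intro v hv
    obtain ⟨k1, k2, k3⟩ := key v hv
    rw [hk _ k1]
    obtain ⟨h2, h3⟩ := sqrt_bounds k1
    rw [← mul_div_assoc, div_le_iff₀ (by linarith)]
    nlinarith

end Vale.Agent.P106.C
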