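import Vale.Agent.P106.C.EWc

/-! # Estimates in the two charts -/

open MeasureTheory Complex Set
open scoped ENNReal NNReal ContDiff FourierTransform

set_option linter.all false

namespace Vale.Agent.P106.C

open Vale.Agent.P106
open Vale.Agent.P117 (E2 E3 Adm cv eta0 contDiff_eta0 eta0_supp eta0_sum)

theorem blk_add_le {X Y : E2 → ℂ} (hX : Integrable X) (hY : Integrable Y) (mX : Measurable X) (mY : Measurable Y)
    {f : E2 → ℂ} (hf : Integrable f) (Λ : ℝ) {p : ℝ} (hp : 1 ≤ p) (hp3 : p ≤ 3) (A : Set E2) :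
    blk (fun ξ => X ξ + Y ξ) Λ p A f ≤ 4 * (blk X Λ p A f + blk Y Λ p A f) := by
  have h := blk_sum_le (Finset.univ : Finset Bool) (fun b => cond b X Y) (by rintro (_|_) _ <;> assumption)
    (by rintro (_|_) _ <;> assumption) hf Λ hp A
  simp only [Fintype.sum_bool, cond_true, cond_false] at h
  refine h.trans ?_
  gcongr
  simp only [Finset.card_univ, Fintype.card_bool]
  calc ((2:ℕ) : ℝ≥0∞) ^ (p - 1) ≤ (2 : ℝ≥0∞) ^ (2 : ℝ) := by
        push_cast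
        exact ENNReal.rpow_le_rpow_of_exponent_le (by norm_num) (by linarith)
    _ = 4 := by
        rw [show (2:ℝ) = ((2:ℕ):ℝ) by norm_num, ENNReal.rpow_natCast]
        norm_num

/-- cut-offs in a chart -/
noncomputable def Yg (g : ℝ → ℂ) (l : ℝ) (ξ : E2) : ℂ := chc (ξ 0) * g (ξ 1 / ξ 0 / l)

theorem Yg_eq_marc (g : ℝ → ℂ) (l : ℝ) : Yg g l = marc chc g 0 l := by
  ext ξ
  unfold Yg marc
  rw [sub_zero]

theorem measurable_Yg {g : ℝ → ℂ} (hg : ContDiff ℝ ∞ g) (l : ℝ) : Measurable (Yg g l) := by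
  unfold Yg
  have h1 := contDiff_chc.continuous.measurable
  have h2 := hg.continuous.measurable
  exact (h1.comp (by fun_prop)).mul (h2.comp (by fun_prop))

theorem integrable_Yg {g : ℝ → ℂ} (hg : ContDiff ℝ ∞ g) (hgs : ∀ x, g x ≠ 0 → |x| ≤ 10/9) {l : ℝ} (hl : 0 < l) :
    Integrable (Yg g l) := by
  have e : Yg g l = fun ξ : E2 => ∑ j ∈ Finset.Icc (-18:ℤ) 18, marc chc (wj g j) (j * l / 16) (l / 16) ξ := by
    ext ξ
    rw [sum_arcs hgs hl]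
    rfl
  rw [e]
  exact integrable_finsetSum _ fun j _ => integrable_marc (prof_wj hg j) _ _ (by positivity)

theorem be_supp' (x : ℝ) (h : be x ≠ 0) : |x| ≤ 10/9 := by linarith [(be_supp h).2]
theorem aa_supp' (x : ℝ) (h : aa x ≠ 0) : |x| ≤ 10/9 := by linarith [aa_supp h]
theorem ab_supp' (x : ℝ) (h : ab x ≠ 0) : |x| ≤ 10/9 := ab_supp h

theorem prof_aa : Prof chc aa where
  cχ := contDiff_chc
  sχ := fun t ht => chc_supp ht
  cw := contDiff_aa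
  sw := fun t ht => aa_supp ht

variable {p a : ℝ} {c C : ℝ} {h : ℝ → ℝ}

theorem pow_comb {T a : ℝ} (hT : 0 < T) : T ^ (1 - a) * T ^ a = T := by
  rw [← Real.rpow_add hT]
  norm_num

/-- crude estimate over the whole space -/
theorem full_blk (hp : p = 2 ∨ p = 3) (hAR : ARp p a) (hAM : StAM) (hc : 0 < c)
    (hh : HC c C h) (hr : Round h) {g : ℝ → ℂ} (hg : ContDiff ℝ ∞ g) (hgs : ∀ x, g x ≠ 0 → |x| ≤ 10/9)
    {ε : ℝ} (hε : 0 < ε) : ∃ K : ℝ, 0 ≤ K ∧ ∀ (Λ : ℝ) (A : Set E2), 1 ≤ Λ → ∀ f : E2 → ℂ, Adm volume f →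
      blk (Yg g 1) Λ p A f ≤ ENNReal.ofReal (K * Λ ^ (1 + ε)) * ∫⁻ x, ‖f x‖ₑ ^ p := by
  obtain ⟨K, hK, hb⟩ := family_blk hp hAR hAM hc hh hr hg hgs 10 ε hε
  refine ⟨K * 256 ^ (1 + ε), by positivity, ?_⟩
  intro Λ A hΛ f hf
  have hT : 0 < 256 * Λ := by linarith
  have := hb 1 1 (256 * Λ) (256 * Λ) Λ A one_pos le_rfl one_pos hT (by nlinarith) (by linarith) (by linarith) (by
    intro j hj1 hj2
    refine ⟨![0, 0, 1], 0, normal_full _ _, ?_⟩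
    intro t ht x hx
    show |0 * (tr t x) 0 + 0 * (tr t x) 1 + 1 * t - 0| ≤ 256 * Λ
    rw [zero_mul, zero_mul, zero_add, zero_add, one_mul, sub_zero, abs_le]
    constructor <;> linarith [ht.1, ht.2]) f hf
  refine this.trans (le_of_eq ?_)
  congr 2
  rw [div_one, pow_comb hT, mul_assoc, mul_comm ((256 * Λ) ^ ε), ← Real.rpow_one_add' hT.le (by positivity),
    Real.mul_rpow (by norm_num) (by linarith), mul_assoc]

/-- numerical facts about the time window -/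
theorem window {Λ δ : ℝ} (hΛ : 1 ≤ Λ) (hδ : 0 < δ) : Λ ≤ Λ ^ (1 + δ) ∧ 1 ≤ Λ ^ (1 + δ) := by
  constructor
  · calc Λ = Λ ^ (1:ℝ) := (Real.rpow_one Λ).symm
      _ ≤ _ := Real.rpow_le_rpow_of_exponent_le hΛ (by linarith)
  · exact Real.one_le_rpow hΛ (by linarith)

theorem window_pow {Λ δ : ℝ} (hΛ : 1 ≤ Λ) : (256 * Λ ^ (1 + δ)) ^ (1 + δ) = 256 ^ (1 + δ) * Λ ^ ((1 + δ) * (1 + δ)) := by
  have : 0 < Λ := by linarith
  rw [Real.mul_rpow (by norm_num) (by positivity), ← Real.rpow_mul this.le]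

/-- radial strips -/
theorem rad_blk (hp : p = 2 ∨ p = 3) (ha : 0 < a) (ha1 : a ≤ 1) (hAR : ARp p a) (hAM : StAM) (hc : 0 < c)
    (hh : HC c C h) (hr : Round h) {δ : ℝ} (hδ : 0 < δ) : ∃ K : ℝ, 0 ≤ K ∧ ∀ (Λ R S c' : ℝ) (A : Set E2),
      1 ≤ Λ → 0 < R → 10 * R ≤ S → S ≤ Λ ^ (1 + δ) → (∀ x ∈ A, |x 0 - c'| ≤ R / 2) → ∀ f : E2 → ℂ, Adm volume f →
      blk (Yg ab 1) Λ p A f ≤ ENNReal.ofReal (K * Λ ^ ((1 + δ) * (1 + δ)) * (R / S) ^ a) * ∫⁻ x, ‖f x‖ₑ ^ p := by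
  obtain ⟨K, hK, hb⟩ := family_blk hp hAR hAM hc hh hr contDiff_ab ab_supp' 10 δ hδ
  refine ⟨K * 256 ^ (1 + δ), by positivity, ?_⟩
  intro Λ R S c' A hΛ hR hRS hS hA f hf
  obtain ⟨w1, w2⟩ := window hΛ hδ
  set T := 256 * Λ ^ (1 + δ) with hT
  have hT0 : 0 < T := by linarith
  have hS0 : 0 < S := by linarith
  have := hb 1 (1/2) (R / 2) T Λ A one_pos le_rfl (by norm_num) (by linarith) (by linarith) (by linarith) (by linarith) (by
    intro j hj1 hj2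
    refine ⟨![-1, 0, 1], -c', normal_rad hr hj2, ?_⟩
    intro t ht x hx
    show |-1 * (tr t x) 0 + 0 * (tr t x) 1 + 1 * t - -c'| ≤ R / 2
    have e : (tr t x) 0 = x 0 + t := rfl
    rw [e, show -1 * (x 0 + t) + 0 * (tr t x) 1 + 1 * t - -c' = -(x 0 - c') by ring, abs_neg]
    exact hA x hx) f hf
  refine this.trans ?_
  gcongr ENNReal.ofReal ?_ * _
  have h1 : R / 2 / (1 / 2) ≤ T * (R / S) := by
    rw [← mul_div_assoc, le_div_iff₀ hS0]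
    have : S ≤ T := by linarith
    have := mul_le_mul_of_nonneg_left this hR.le
    linarith
  calc K * T ^ δ * (T ^ (1 - a) * (R / 2 / (1 / 2)) ^ a) ≤ K * T ^ δ * (T ^ (1 - a) * (T * (R / S)) ^ a) := by gcongr
    _ = K * (T ^ (1 - a) * T ^ a * T ^ δ) * (R / S) ^ a := by
        rw [Real.mul_rpow hT0.le (by positivity)]; ring
    _ = K * T ^ (1 + δ) * (R / S) ^ a := by
        rw [pow_comb hT0, Real.rpow_one_add' hT0.le (by positivity)]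
    _ = _ := by rw [hT, window_pow hΛ]; ring

/-- number of dyadic scales -/
theorem exists_scales {ν Λ : ℝ} (hν : 0 < ν) (hΛ : 1 ≤ Λ) (hνΛ : Λ ^ (-(1/2) : ℝ) ≤ ν) {δ : ℝ} (hδ : 0 < δ) (hδ1 : δ ≤ 1) :
    ∃ N : ℕ, (1/2 : ℝ) ^ N ≤ ν ∧ (∀ k < N, ν < (1/2 : ℝ) ^ k) ∧ (N : ℝ) ≤ (δ * Real.log 2)⁻¹ * Λ ^ δ := by
  classical
  have hex : ∃ N : ℕ, (1/2 : ℝ) ^ N ≤ ν := by
    obtain ⟨n, hn⟩ := exists_pow_lt_of_lt_one hν (by norm_num : (1/2:ℝ) < 1)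
    exact ⟨n, hn.le⟩
  refine ⟨Nat.find hex, Nat.find_spec hex, fun k hk => not_le.1 (Nat.find_min hex hk), ?_⟩
  set N := Nat.find hex with hN
  have hlog : 0 < Real.log 2 := Real.log_pos (by norm_num)
  have hlog1 : Real.log 2 ≤ 1 := by
    have := Real.log_le_sub_one_of_pos (by norm_num : (0:ℝ) < 2)
    linarith
  have hdl : 0 < δ * Real.log 2 := by positivity
  rw [← div_eq_inv_mul, le_div_iff₀ hdl]
  rcases Nat.eq_zero_or_pos N with h0 | h0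
  · rw [h0]; simp; positivity
  · have h1 : ν < (1/2 : ℝ) ^ (N - 1) := not_le.1 (Nat.find_min hex (by omega))
    have h2 : (2:ℝ) ^ (N - 1) ≤ Λ := by
      have h3 : Λ ^ (-(1/2) : ℝ) < (1/2 : ℝ) ^ (N - 1) := lt_of_le_of_lt hνΛ h1
      have h4 : Λ⁻¹ ≤ Λ ^ (-(1/2) : ℝ) := by
        rw [← Real.rpow_neg_one]
        exact Real.rpow_le_rpow_of_exponent_le hΛ (by norm_num)
      have h5 : Λ⁻¹ < ((2:ℝ) ^ (N - 1))⁻¹ := by
        rw [← inv_pow]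
        norm_num at h3 ⊢
        linarith
      exact ((inv_lt_inv₀ (by linarith) (by positivity)).1 h5).le
    have h3 : Real.exp (((N - 1 : ℕ) : ℝ) * (δ * Real.log 2)) ≤ Λ ^ δ := by
      have : Real.exp (((N - 1 : ℕ) : ℝ) * (δ * Real.log 2)) = ((2:ℝ) ^ (N - 1)) ^ δ := by
        rw [← Real.rpow_natCast, ← Real.rpow_mul (by norm_num), Real.rpow_def_of_pos (by norm_num)]
        congr 1
        ring
      rw [this]
      exact Real.rpow_le_rpow (by positivity) h2 hδ.le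
    have h4 := Real.add_one_le_exp (((N - 1 : ℕ) : ℝ) * (δ * Real.log 2))
    have h5 : ((N - 1 : ℕ) : ℝ) = N - 1 := by
      rw [Nat.cast_sub h0]; simp
    rw [h5] at h3 h4
    have h6 : δ * Real.log 2 ≤ 1 := by nlinarith
    nlinarith

/-- telescoping -/
theorem aa_tele (N : ℕ) (u : ℝ) : aa u = ∑ k ∈ Finset.range N, be (u / (1/2 : ℝ) ^ k) + aa (u / (1/2 : ℝ) ^ N) := by
  induction N with
  | zero => simp
  | succ n ih =>
    rw [Finset.sum_range_succ, ih]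
    unfold be
    have : 2 * (u / (1/2 : ℝ) ^ n) = u / (1/2 : ℝ) ^ (n + 1) := by
      rw [pow_succ]
      field_simp
    rw [this]
    ring

theorem half_sq {Λ l : ℝ} (hΛ0 : 0 < Λ) (hl : Λ ^ (-(1/2) : ℝ) ≤ l) : 1 ≤ l ^ 2 * Λ := by
  have h1 : (Λ ^ (-(1/2) : ℝ)) ^ 2 * Λ = 1 := by
    rw [← Real.rpow_natCast, ← Real.rpow_mul hΛ0.le]
    norm_num
    rw [Real.rpow_neg_one, inv_mul_cancel₀ hΛ0.ne']
  rw [← h1]
  have : 0 ≤ Λ ^ (-(1/2) : ℝ) := by positivity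
  gcongr

theorem half_sq' {Λ l : ℝ} (hΛ0 : 0 < Λ) (hl0 : 0 ≤ l) (hl : l ≤ Λ ^ (-(1/2) : ℝ)) : l ^ 2 * Λ ≤ 1 := by
  have h1 : (Λ ^ (-(1/2) : ℝ)) ^ 2 * Λ = 1 := by
    rw [← Real.rpow_natCast, ← Real.rpow_mul hΛ0.le]
    norm_num
    rw [Real.rpow_neg_one, inv_mul_cancel₀ hΛ0.ne']
  rw [← h1]
  gcongr

/-- one dyadic scale -/
theorem dyadic_blk (hp : p = 2 ∨ p = 3) (ha : 0 < a) (ha1 : a ≤ 1) (hAR : ARp p a) (hAM : StAM) (hc : 0 < c)
    (hh : HC c C h) (hr : Round h) {δ : ℝ} (hδ : 0 < δ) : ∃ K : ℝ, 0 ≤ K ∧ ∀ (Λ R S c' l : ℝ) (A : Set E2),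
      1 ≤ Λ → 0 < R → 10 * R ≤ S → 0 < l → l ≤ 1 → S < l * (4 * Λ) → Λ ^ (-(1/2) : ℝ) ≤ l →
      (∀ x ∈ A, |x 1 - c'| ≤ R / 2) → ∀ f : E2 → ℂ, Adm volume f →
      blk (Yg be l) Λ p A f ≤
        ENNReal.ofReal (K * Λ ^ ((1 + δ) * (1 + δ)) * (R / S) ^ a) * ∫⁻ x, ‖f x‖ₑ ^ p := by
  obtain ⟨K, hK, hb⟩ := family_blk hp hAR hAM hc hh hr contDiff_be be_supp' 10 δ hδ
  refine ⟨K * 256 ^ (1 + δ), by positivity, ?_⟩
  intro Λ R S c' l A hΛ hR hRS hl0 hl1 hl2 hl3 hA f hf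
  obtain ⟨w1, w2⟩ := window hΛ hδ
  set T := 256 * Λ ^ (1 + δ) with hT
  have hT0 : 0 < T := by linarith
  have hS0 : 0 < S := by linarith
  have hΛ0 : 0 < Λ := by linarith
  have hl4 : 1 ≤ l ^ 2 * Λ := half_sq hΛ0 hl3
  have := hb l (l / 8) (R / 2) T Λ A hl0 hl1 (by positivity) (by linarith) (by
      rw [hT]
      have : l ^ 2 * Λ ≤ l ^ 2 * Λ ^ (1 + δ) := by gcongr
      nlinarith) (by
      have : l * Λ ≤ l * Λ ^ (1 + δ) := by gcongr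
      rw [hT]
      nlinarith) (by linarith) (by
    intro j hj1 hj2
    refine ⟨![0, -SignType.sign (j:ℝ), 0], -SignType.sign (j:ℝ) * c', normal_ax hr hj2 hl0 hl1, ?_⟩
    intro t ht x hx
    show |0 * (tr t x) 0 + (-(SignType.sign (j:ℝ) : ℝ)) * (tr t x) 1 + 0 * t - -(SignType.sign (j:ℝ) : ℝ) * c'| ≤ R / 2
    have e : (tr t x) 1 = x 1 := rfl
    rw [e, show 0 * (tr t x) 0 + (-(SignType.sign (j:ℝ) : ℝ)) * x 1 + 0 * t - -(SignType.sign (j:ℝ) : ℝ) * c' =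
      -(SignType.sign (j:ℝ) : ℝ) * (x 1 - c') by ring, abs_mul, abs_neg]
    have h1 := abs_sign_le (j:ℝ)
    have h2 := hA x hx
    have h3 := abs_nonneg (x 1 - c')
    nlinarith [abs_nonneg (SignType.sign (j:ℝ) : ℝ)]) f hf
  refine this.trans ?_
  gcongr ENNReal.ofReal ?_ * _
  have h1 : R / 2 / (l / 8) ≤ T * (R / S) := by
    rw [← mul_div_assoc, le_div_iff₀ hS0, div_mul_eq_mul_div, div_le_iff₀ (by positivity)]
    have h5 : S ≤ 4 * l * Λ ^ (1 + δ) := by nlinarith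
    have h6 := mul_le_mul_of_nonneg_left h5 hR.le
    rw [hT]
    nlinarith [mul_pos hR hl0, mul_pos (mul_pos hR hl0) (by linarith : 0 < Λ ^ (1 + δ))]
  calc K * T ^ δ * (T ^ (1 - a) * (R / 2 / (l / 8)) ^ a) ≤ K * T ^ δ * (T ^ (1 - a) * (T * (R / S)) ^ a) := by gcongr
    _ = K * (T ^ (1 - a) * T ^ a * T ^ δ) * (R / S) ^ a := by
        rw [Real.mul_rpow hT0.le (by positivity)]; ring
    _ = K * T ^ (1 + δ) * (R / S) ^ a := by
        rw [pow_comb hT0, Real.rpow_one_add' hT0.le (by positivity)]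
    _ = _ := by rw [hT, window_pow hΛ]; ring

/-- the directions closest to the axis -/
theorem low_blk (hp : p = 2 ∨ p = 3) (hLow : StLow) (hc : 0 < c) (hh : HC c C h) (hr : Round h) :
    ∃ K : ℝ, 0 ≤ K ∧ ∀ (Λ R S σ : ℝ) (A : Set E2), 1 ≤ Λ → 0 < R → 10 * R ≤ S → 0 < σ → σ ≤ 1 →
      σ ≤ max (S / (4 * Λ)) (Λ ^ (-(1/2) : ℝ)) → (∀ x ∈ A, |x 1| ≤ 2 * R) →
      ∀ f : E2 → ℂ, Adm volume f → (∀ y, f y ≠ 0 → S ≤ |y 1| ∧ |y 1| ≤ 2 * S) →
      blk (Yg aa σ) Λ p A f ≤ ENNReal.ofReal (K * (Λ * (R / S))) * ∫⁻ x, ‖f x‖ₑ ^ p := by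
  obtain ⟨K', hK', hL⟩ := hLow c C 4 hc chc aa prof_aa p hp
  refine ⟨K', hK', ?_⟩
  intro Λ R S σ A hΛ hR hRS hσ0 hσ1 hN1 hA2 f hf hfs
  have hS0 : 0 < S := by linarith
  have hΛ0 : 0 < Λ := by linarith
  have hcond : (∀ u, |u| ≤ σ → Λ * |deriv h u| ≤ S / 4) ∨ σ * S ≤ 4 := by
    by_cases h1 : σ ≤ S / (4 * Λ)
    · left
      intro u hu
      rw [le_div_iff₀ (by positivity)] at h1
      have h2 : |deriv h u| ≤ |u| := by
        rw [round_deriv hr (by linarith), abs_div, abs_of_pos (Real.sqrt_pos.2 (by positivity))]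
        apply div_le_self (abs_nonneg _)
        exact Real.one_le_sqrt.2 (by nlinarith [sq_nonneg u])
      have h3 : Λ * |deriv h u| ≤ Λ * σ := by gcongr; linarith
      linarith
    · right
      push Not at h1
      have h2 : σ ≤ Λ ^ (-(1/2) : ℝ) := by
        rcases le_max_iff.1 hN1 with h | h
        · linarith
        · exact h
      rw [div_lt_iff₀ (by positivity)] at h1
      have h3 := half_sq' hΛ0 hσ0.le h2
      nlinarith
  have := hL h hh Λ R S σ hΛ hR hRS hσ0 hcond f hf hfs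
  refine le_trans ?_ this
  unfold blk
  apply lintegral_mono
  intro t
  have e : ∀ x, ‖wv (Yg aa σ) t f x‖ₑ ^ p = (fun y => ‖evarc h chc aa 0 σ t f y‖ₑ ^ p) (tr t x) := by
    intro x
    rw [Yg_eq_marc, wv_marc hr prof_aa hσ0 (by rw [abs_zero]; linarith)]
    rfl
  simp_rw [e]
  apply lintegral_tr t A {x : E2 | |x 1| ≤ 2 * R}
  · intro x hx
    exact hA2 x hx
  · exact (isClosed_le (by fun_prop) continuous_const).measurableSet

/-- summation of the dyadic scales -/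
theorem sum_scales (hp : p = 2 ∨ p = 3) {δ : ℝ} (hδ : 0 < δ) {Cd Λ B : ℝ} (hCd : 1 ≤ Cd) (hΛ : 1 ≤ Λ) (hB : 0 ≤ B) {N : ℕ}
    (hN3 : (N : ℝ) ≤ Cd * Λ ^ δ) {A : Set E2} {f : E2 → ℂ} (hf : Integrable f) (I : ℝ≥0∞)
    (hdy : ∀ k ∈ Finset.range N, blk (Yg be ((1/2 : ℝ) ^ k)) Λ p A f ≤ ENNReal.ofReal B * I) :
    blk (fun ξ => ∑ k ∈ Finset.range N, Yg be ((1/2 : ℝ) ^ k) ξ) Λ p A f ≤
      ENNReal.ofReal (Cd ^ 3 * Λ ^ (3 * δ) * B) * I := by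
  have hp1 : 1 ≤ p := by rcases hp with rfl | rfl <;> norm_num
  have hp3 : p ≤ 3 := by rcases hp with rfl | rfl <;> norm_num
  have hΛ0 : 0 < Λ := by linarith
  refine (blk_sum_le (Finset.range N) (fun k => Yg be ((1/2 : ℝ) ^ k)) (fun k _ =>
    integrable_Yg contDiff_be be_supp' (by positivity))
    (fun k _ => measurable_Yg contDiff_be _) hf Λ hp1 A).trans ?_
  refine (mul_le_mul_right (Finset.sum_le_sum hdy) _).trans ?_
  rw [Finset.sum_const, Finset.card_range, nsmul_eq_mul, ← mul_assoc, ← mul_assoc]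
  gcongr
  rcases Nat.eq_zero_or_pos N with h0 | h0
  · rw [h0]; simp
  have hN0 : (1:ℝ) ≤ N := by exact_mod_cast h0
  have h1 : ((N : ℕ) : ℝ≥0∞) = ENNReal.ofReal N := by simp
  rw [h1, ENNReal.ofReal_rpow_of_pos (by linarith), ← ENNReal.ofReal_mul (by positivity), ← ENNReal.ofReal_mul (by positivity)]
  apply ENNReal.ofReal_le_ofReal
  have h2 : (N:ℝ) ^ (p - 1) * N ≤ Cd ^ 3 * Λ ^ (3 * δ) := by
    calc (N:ℝ) ^ (p - 1) * N = (N:ℝ) ^ p := by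
          nth_rewrite 2 [← Real.rpow_one (N:ℝ)]
          rw [← Real.rpow_add (by linarith)]
          norm_num
      _ ≤ (N:ℝ) ^ (3:ℝ) := Real.rpow_le_rpow_of_exponent_le hN0 hp3
      _ = (N:ℝ) ^ 3 := by rw [← Real.rpow_natCast]; norm_num
      _ ≤ (Cd * Λ ^ δ) ^ 3 := by gcongr
      _ = _ := by
          rw [mul_pow, ← Real.rpow_natCast (Λ ^ δ), ← Real.rpow_mul hΛ0.le]
          congr 2
          push_cast
          ring
  gcongr

/-- axial strips -/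
theorem ax_blk (hp : p = 2 ∨ p = 3) (ha : 0 < a) (ha1 : a ≤ 1) (hAR : ARp p a) (hAM : StAM) (hLow : StLow) (hc : 0 < c)
    (hh : HC c C h) (hr : Round h) {δ : ℝ} (hδ : 0 < δ) (hδ1 : δ ≤ 1) : ∃ K : ℝ, 0 ≤ K ∧ ∀ (Λ R S c' : ℝ) (A : Set E2),
      1 ≤ Λ → 0 < R → 10 * R ≤ S → (∀ x ∈ A, |x 1 - c'| ≤ R / 2) → (∀ x ∈ A, |x 1| ≤ 2 * R) →
      ∀ f : E2 → ℂ, Adm volume f → (∀ y, f y ≠ 0 → S ≤ |y 1| ∧ |y 1| ≤ 2 * S) →
      blk (Yg aa 1) Λ p A f ≤ ENNReal.ofReal (K * Λ ^ (3 * δ + (1 + δ) * (1 + δ)) * (R / S) ^ a) * ∫⁻ x, ‖f x‖ₑ ^ p := by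
  obtain ⟨K, hK, hb⟩ := dyadic_blk hp ha ha1 hAR hAM hc hh hr hδ
  obtain ⟨K', hK', hL⟩ := low_blk hp hLow hc hh hr
  have hp1 : 1 ≤ p := by rcases hp with rfl | rfl <;> norm_num
  have hp3 : p ≤ 3 := by rcases hp with rfl | rfl <;> norm_num
  set Cd := (δ * Real.log 2)⁻¹ with hCd
  have hlog : 0 < Real.log 2 := Real.log_pos (by norm_num)
  have hlog1 : Real.log 2 ≤ 1 := by
    have := Real.log_le_sub_one_of_pos (by norm_num : (0:ℝ) < 2)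
    linarith
  have hCd1 : 1 ≤ Cd := by
    rw [hCd, one_le_inv₀ (by positivity)]
    nlinarith
  refine ⟨4 * (Cd ^ 3 * K + K'), by positivity, ?_⟩
  intro Λ R S c' A hΛ hR hRS hA hA2 f hf hfs
  have hS0 : 0 < S := by linarith
  have hΛ0 : 0 < Λ := by linarith
  set ν := max (S / (4 * Λ)) (Λ ^ (-(1/2) : ℝ)) with hν
  have hν0 : 0 < ν := lt_max_of_lt_left (by positivity)
  obtain ⟨N, hN1, hN2, hN3⟩ := exists_scales hν0 hΛ (le_max_right _ _) hδ hδ1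
  set I := ∫⁻ x, ‖f x‖ₑ ^ p with hI
  have hdy : ∀ k ∈ Finset.range N, blk (Yg be ((1/2 : ℝ) ^ k)) Λ p A f ≤
      ENNReal.ofReal (K * Λ ^ ((1 + δ) * (1 + δ)) * (R / S) ^ a) * I := by
    intro k hk
    have hk1 := hN2 k (Finset.mem_range.1 hk)
    refine hb Λ R S c' _ A hΛ hR hRS (by positivity) (pow_le_one₀ (by norm_num) (by norm_num)) ?_ ?_ hA f hf
    · exact (div_lt_iff₀ (by positivity)).1 (lt_of_le_of_lt (le_max_left _ _) hk1)
    · exact (lt_of_le_of_lt (le_max_right _ _) hk1).le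
  have hσ0 : 0 < (1/2 : ℝ) ^ N := by positivity
  have hlow := hL Λ R S ((1/2 : ℝ) ^ N) A hΛ hR hRS hσ0 (pow_le_one₀ (by norm_num) (by norm_num)) hN1 hA2 f hf hfs
  have hRS1 : R / S ≤ 1 := by rw [div_le_one hS0]; linarith
  have hRS0 : 0 < R / S := by positivity
  have hsum := sum_scales hp hδ hCd1 hΛ (by positivity) hN3 hf.int I hdy
  have e1 : Yg aa 1 = fun ξ => (fun ξ => ∑ k ∈ Finset.range N, Yg be ((1/2 : ℝ) ^ k) ξ) ξ + Yg aa ((1/2 : ℝ) ^ N) ξ := by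
    ext ξ
    unfold Yg
    rw [div_one, aa_tele N, mul_add, Finset.mul_sum]
  rw [e1]
  refine (blk_add_le (integrable_finsetSum _ fun k _ => integrable_Yg contDiff_be be_supp' (by positivity))
    (integrable_Yg contDiff_aa aa_supp' hσ0)
    (Finset.measurable_fun_sum _ fun k _ => measurable_Yg contDiff_be _) (measurable_Yg contDiff_aa _) hf.int Λ hp1 hp3 A).trans ?_
  have hlow2 : K' * (Λ * (R / S)) ≤ K' * Λ ^ (3 * δ + (1 + δ) * (1 + δ)) * (R / S) ^ a := by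
    have h1 : Λ ≤ Λ ^ (3 * δ + (1 + δ) * (1 + δ)) := by
      calc Λ = Λ ^ (1:ℝ) := (Real.rpow_one Λ).symm
        _ ≤ _ := Real.rpow_le_rpow_of_exponent_le hΛ (by nlinarith)
    have h2 : R / S ≤ (R / S) ^ a := by
      calc R / S = (R / S) ^ (1:ℝ) := (Real.rpow_one _).symm
        _ ≤ _ := Real.rpow_le_rpow_of_exponent_ge hRS0 hRS1 ha1
    calc K' * (Λ * (R / S)) ≤ K' * (Λ ^ (3 * δ + (1 + δ) * (1 + δ)) * (R / S) ^ a) := by gcongr
      _ = _ := by ring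
  have hsum2 : Cd ^ 3 * Λ ^ (3 * δ) * (K * Λ ^ ((1 + δ) * (1 + δ)) * (R / S) ^ a) =
      Cd ^ 3 * K * Λ ^ (3 * δ + (1 + δ) * (1 + δ)) * (R / S) ^ a := by
    rw [Real.rpow_add hΛ0]; ring
  rw [hsum2] at hsum
  refine (mul_le_mul_right (add_le_add hsum (hlow.trans (mul_le_mul_left (ENNReal.ofReal_le_ofReal hlow2) _))) _).trans (le_of_eq ?_)
  rw [← add_mul, ← ENNReal.ofReal_add (by positivity) (by positivity), ← mul_assoc,
    show (4 : ℝ≥0∞) = ENNReal.ofReal 4 by simp, ← ENNReal.ofReal_mul (by norm_num)]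
  congr 2
  ring

end Vale.Agent.P106.C
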