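import Vale.Agent.P106.C.EWd

/-! # Assembly of the planar estimates for exact waves -/

open MeasureTheory Complex Set
open scoped ENNReal NNReal ContDiff FourierTransform

set_option linter.all false

namespace Vale.Agent.P106.C

open Vale.Agent.P106
open Vale.Agent.P117 (E2 E3 Adm cv eta0 contDiff_eta0 eta0_supp eta0_sum)

/-- point reflection -/
noncomputable def ρn : E2 ≃ₗᵢ[ℝ] E2 := LinearIsometryEquiv.neg ℝ
/-- exchange of the coordinates -/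
noncomputable def ρs : E2 ≃ₗᵢ[ℝ] E2 := LinearIsometryEquiv.piLpCongrLeft 2 ℝ ℝ (Equiv.swap 0 1)
/-- exchange and reflection -/
noncomputable def ρt : E2 ≃ₗᵢ[ℝ] E2 := ρs.trans ρn

theorem ρn_apply (x : E2) (i : Fin 2) : (ρn x) i = -(x i) := rfl
theorem ρs_zero (x : E2) : (ρs x) 0 = x 1 := by simp [ρs, LinearIsometryEquiv.piLpCongrLeft_apply, Equiv.piCongrLeft']
theorem ρs_one (x : E2) : (ρs x) 1 = x 0 := by simp [ρs, LinearIsometryEquiv.piLpCongrLeft_apply, Equiv.piCongrLeft']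
theorem ρt_zero (x : E2) : (ρt x) 0 = -(x 1) := by
  show (ρn (ρs x)) 0 = _
  rw [ρn_apply, ρs_zero]
theorem ρt_one (x : E2) : (ρt x) 1 = -(x 0) := by
  show (ρn (ρs x)) 1 = _
  rw [ρn_apply, ρs_one]

/-- smoothness of the chart cut-offs -/
theorem contDiff_Yg {g : ℝ → ℂ} (hg : ContDiff ℝ ∞ g) : ContDiff ℝ ∞ (Yg g 1) := by
  rw [contDiff_iff_contDiffAt]
  intro ξ
  by_cases h : 0 < ξ 0
  · have h1 : ContDiffAt ℝ ∞ (fun ξ : E2 => ξ 1 / ξ 0 / 1) ξ := by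
      apply ContDiffAt.div _ contDiffAt_const one_ne_zero
      apply ContDiffAt.div
      · fun_prop
      · fun_prop
      · exact h.ne'
    have h2 : ContDiffAt ℝ ∞ (fun ξ : E2 => g (ξ 1 / ξ 0 / 1)) ξ := hg.contDiffAt.comp ξ h1
    have h3 : ContDiffAt ℝ ∞ (fun ξ : E2 => chc (ξ 0)) ξ :=
      contDiff_chc.contDiffAt.comp ξ (by fun_prop)
    exact h3.mul h2
  · have : Yg g 1 =ᶠ[nhds ξ] fun _ => 0 := by
      have hopen : IsOpen {ζ : E2 | ζ 0 < 1/100} := isOpen_lt (by fun_prop) continuous_const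
      filter_upwards [hopen.mem_nhds (show ξ 0 < 1/100 by linarith)] with ζ hζ
      unfold Yg
      have : chc (ζ 0) = 0 := by
        by_contra hc
        have := (chc_supp hc).1
        have hζ' : ζ 0 < 1/100 := hζ
        linarith
      rw [this, zero_mul]
    exact contDiffAt_const.congr_of_eventuallyEq this

theorem Yg_supp {g : ℝ → ℂ} (hgs : ∀ x, g x ≠ 0 → |x| ≤ 10/9) {ξ : E2} (h : Yg g 1 ξ ≠ 0) :
    1/100 ≤ ξ 0 ∧ ξ 0 ≤ 100 ∧ |ξ 1| ≤ 10/9 * ξ 0 := by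
  obtain ⟨h1, h2⟩ := chc_supp (left_ne_zero_of_mul h)
  have h3 := hgs _ (right_ne_zero_of_mul h)
  have h0 : 0 < ξ 0 := by linarith
  rw [div_one, abs_div, abs_of_pos h0, div_le_iff₀ h0] at h3
  exact ⟨h1, h2, h3⟩

theorem Yg_norm {g : ℝ → ℂ} (hgs : ∀ x, g x ≠ 0 → |x| ≤ 10/9) {ξ : E2} (h : Yg g 1 ξ ≠ 0) :
    1/100 ≤ ‖ξ‖ ∧ ‖ξ‖ ≤ 400 := by
  obtain ⟨h1, h2, h3⟩ := Yg_supp hgs h
  have h4 : ‖ξ‖ ^ 2 = ξ 0 ^ 2 + ξ 1 ^ 2 := Vale.Agent.P117.E2_norm_sq ξ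
  have h5 : ξ 1 ^ 2 ≤ 112 ^ 2 := by
    rw [← sq_abs]; have := abs_nonneg (ξ 1); nlinarith
  constructor
  · exact (pow_le_pow_iff_left₀ (by norm_num) (norm_nonneg _) two_ne_zero).1 (by rw [h4]; nlinarith [sq_nonneg (ξ 1)])
  · exact (pow_le_pow_iff_left₀ (norm_nonneg _) (by norm_num) two_ne_zero).1 (by rw [h4]; nlinarith)

theorem hcs_Yg {g : ℝ → ℂ} (hgs : ∀ x, g x ≠ 0 → |x| ≤ 10/9) : HasCompactSupport (Yg g 1) := by
  apply HasCompactSupport.of_support_subset_isCompact (isCompact_closedBall (0 : E2) 400)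
  intro ξ hξ
  rw [Metric.mem_closedBall, dist_zero_right]
  exact (Yg_norm hgs hξ).2

/-- the cut-off -/
noncomputable def XX (ξ : E2) : ℂ := (Yg aa 1 ξ + Yg aa 1 (ρn ξ)) + (Yg ab 1 (ρs ξ) + Yg ab 1 (ρt ξ))

theorem contDiff_XX : ContDiff ℝ ∞ XX := by
  unfold XX
  exact ((contDiff_Yg contDiff_aa).add ((contDiff_Yg contDiff_aa).comp ρn.contDiff)).add
    (((contDiff_Yg contDiff_ab).comp ρs.contDiff).add ((contDiff_Yg contDiff_ab).comp ρt.contDiff))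

theorem hcs_XX : HasCompactSupport XX := by
  unfold XX
  refine ((hcs_Yg aa_supp').add ((hcs_Yg aa_supp').comp_homeomorph ρn.toHomeomorph)).add
    (((hcs_Yg ab_supp').comp_homeomorph ρs.toHomeomorph).add ((hcs_Yg ab_supp').comp_homeomorph ρt.toHomeomorph))

theorem XX_supp {ξ : E2} (h : XX ξ ≠ 0) : 1/100 ≤ ‖ξ‖ := by
  by_contra hc
  push Not at hc
  apply h
  have key : ∀ (g : ℝ → ℂ), (∀ x, g x ≠ 0 → |x| ≤ 10/9) → ∀ ρ : E2 ≃ₗᵢ[ℝ] E2, Yg g 1 (ρ ξ) = 0 := by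
    intro g hg ρ
    by_contra h1
    have := (Yg_norm hg h1).1
    rw [ρ.norm_map] at this
    linarith
  unfold XX
  rw [key ab ab_supp' ρs, key ab ab_supp' ρt, key aa aa_supp' ρn, show Yg aa 1 ξ = 0 from key aa aa_supp' (LinearIsometryEquiv.refl ℝ E2)]
  simp

/-- the angular function in homogeneous form -/
noncomputable def ph (x y : ℝ) : ℂ := ((Real.smoothTransition (10 * ((x ^ 2 - y ^ 2) / (x ^ 2 + y ^ 2))) : ℝ) : ℂ)

theorem aa_ph {x y : ℝ} (hx : x ≠ 0) : aa (y / x) = ph x y := by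
  unfold aa ph
  have : (1 - (y / x) ^ 2) / (1 + (y / x) ^ 2) = (x ^ 2 - y ^ 2) / (x ^ 2 + y ^ 2) := by
    field_simp
  rw [this]

theorem ab_ph {x y : ℝ} (hy : y ≠ 0) : ab (x / y) = 1 - ph x y := by
  unfold ab ph
  have : ((x / y) ^ 2 - 1) / (1 + (x / y) ^ 2) = (x ^ 2 - y ^ 2) / (x ^ 2 + y ^ 2) := by
    field_simp
    ring
  rw [this]
  push_cast
  ring

theorem ph_supp {x y : ℝ} (h : ph x y ≠ 0) : y ^ 2 ≤ x ^ 2 := by
  by_contra hc
  push Not at hc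
  apply h
  unfold ph
  rw [Real.smoothTransition.zero_of_nonpos]
  · simp
  · have : (x ^ 2 - y ^ 2) / (x ^ 2 + y ^ 2) ≤ 0 := div_nonpos_of_nonpos_of_nonneg (by linarith) (by positivity)
    linarith

theorem ph_supp' {x y : ℝ} (h : 1 - ph x y ≠ 0) : 9 * x ^ 2 ≤ 11 * y ^ 2 := by
  by_contra hc
  push Not at hc
  apply h
  unfold ph
  have hp : 0 < x ^ 2 + y ^ 2 := by nlinarith [sq_nonneg y]
  rw [Real.smoothTransition.one_of_one_le]
  · simp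
  · have : 1/10 ≤ (x ^ 2 - y ^ 2) / (x ^ 2 + y ^ 2) := by
      rw [le_div_iff₀ hp]
      linarith
    linarith

theorem chc_sum {x : ℝ} (h1 : 1/50 ≤ |x|) (h2 : |x| ≤ 20) : chc x + chc (-x) = 1 := by
  have hz : ∀ r : ℝ, r ≤ 0 → chc r = 0 := by
    intro r hr
    by_contra hc
    have := (chc_supp hc).1
    linarith
  rcases le_total 0 x with h | h
  · rw [abs_of_nonneg h] at h1 h2
    rw [chc_one h1 h2, hz _ (by linarith), add_zero]
  · rw [abs_of_nonpos h] at h1 h2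
    rw [chc_one h1 h2, hz _ h, zero_add]

theorem XX_one {ξ : E2} (h1 : 1/20 ≤ ‖ξ‖) (h2 : ‖ξ‖ ≤ 10) : XX ξ = 1 := by
  have h4 : ‖ξ‖ ^ 2 = ξ 0 ^ 2 + ξ 1 ^ 2 := Vale.Agent.P117.E2_norm_sq ξ
  have h5 : 1/400 ≤ ξ 0 ^ 2 + ξ 1 ^ 2 := by rw [← h4]; nlinarith
  have h6 : ξ 0 ^ 2 + ξ 1 ^ 2 ≤ 100 := by rw [← h4]; nlinarith [norm_nonneg ξ]
  have b0 : |ξ 0| ≤ 10 := abs_le_of_sq_le_sq (by nlinarith [sq_nonneg (ξ 1)]) (by norm_num)
  have b1 : |ξ 1| ≤ 10 := abs_le_of_sq_le_sq (by nlinarith [sq_nonneg (ξ 0)]) (by norm_num)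
  have hz : chc 0 = 0 := by
    by_contra hc
    have := (chc_supp hc).1
    norm_num at this
  have e1 : Yg aa 1 ξ + Yg aa 1 (ρn ξ) = (chc (ξ 0) + chc (-(ξ 0))) * ph (ξ 0) (ξ 1) := by
    unfold Yg
    rw [ρn_apply, ρn_apply, div_one, div_one, neg_div_neg_eq]
    by_cases h0 : ξ 0 = 0
    · rw [h0, neg_zero, hz]; simp
    · rw [aa_ph h0]; ring
  have e2 : Yg ab 1 (ρs ξ) + Yg ab 1 (ρt ξ) = (chc (ξ 1) + chc (-(ξ 1))) * (1 - ph (ξ 0) (ξ 1)) := by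
    unfold Yg
    rw [ρs_zero, ρs_one, ρt_zero, ρt_one, div_one, div_one, neg_div_neg_eq]
    by_cases h0 : ξ 1 = 0
    · rw [h0, neg_zero, hz]; simp
    · rw [ab_ph h0]; ring
  have f1 : (chc (ξ 0) + chc (-(ξ 0))) * ph (ξ 0) (ξ 1) = ph (ξ 0) (ξ 1) := by
    by_cases hp : ph (ξ 0) (ξ 1) = 0
    · rw [hp, mul_zero]
    · have := ph_supp hp
      rw [chc_sum _ (by linarith), one_mul]
      exact abs_le_abs_of_sq_le_sq' this h5
  have f2 : (chc (ξ 1) + chc (-(ξ 1))) * (1 - ph (ξ 0) (ξ 1)) = 1 - ph (ξ 0) (ξ 1) := by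
    by_cases hp : 1 - ph (ξ 0) (ξ 1) = 0
    · rw [hp, mul_zero]
    · have := ph_supp' hp
      rw [chc_sum _ (by linarith), one_mul]
      have h7 : (1/50)^2 ≤ ξ 1 ^ 2 := by nlinarith
      calc (1/50 : ℝ) = |1/50| := by rw [abs_of_pos]; norm_num
        _ ≤ |ξ 1| := sq_le_sq.1 h7
  unfold XX
  rw [e1, e2, f1, f2]
  ring
where
  abs_le_abs_of_sq_le_sq' {x y : ℝ} (h : y ^ 2 ≤ x ^ 2) (h5 : 1/400 ≤ x ^ 2 + y ^ 2) : 1/50 ≤ |x| := by
    have h7 : (1/50)^2 ≤ x ^ 2 := by nlinarith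
    calc (1/50 : ℝ) = |1/50| := by rw [abs_of_pos]; norm_num
      _ ≤ |x| := sq_le_sq.1 h7

/-- chart by chart -/
theorem blk_XX_le {p Λ : ℝ} (hp1 : 1 ≤ p) (hp3 : p ≤ 3) {f : E2 → ℂ} (hf : Adm volume f) (A : Set E2) :
    blk XX Λ p A f ≤ 16 * ((blk (Yg aa 1) Λ p A f + blk (Yg aa 1) Λ p (ρn.symm ⁻¹' A) (fun y => f (ρn.symm y))) +
      (blk (Yg ab 1) Λ p (ρs.symm ⁻¹' A) (fun y => f (ρs.symm y)) +
        blk (Yg ab 1) Λ p (ρt.symm ⁻¹' A) (fun y => f (ρt.symm y)))) := by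
  have key : ∀ (g : ℝ → ℂ) (ρ : E2 ≃ₗᵢ[ℝ] E2), blk (Yg g 1) Λ p (ρ.symm ⁻¹' A) (fun y => f (ρ.symm y)) =
      blk (fun ξ => Yg g 1 (ρ ξ)) Λ p A f := by
    intro g ρ
    rw [← blk_comp]
    congr 1
    rw [← preimage_comp]
    ext x
    simp
  rw [key, key, key]
  have ia := (contDiff_Yg contDiff_aa).continuous
  have ib := (contDiff_Yg contDiff_ab).continuous
  have hia : Integrable (Yg aa 1) := ia.integrable_of_hasCompactSupport (hcs_Yg aa_supp')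
  have hint : ∀ (g : ℝ → ℂ) (hg : ContDiff ℝ ∞ g) (hgs : ∀ x, g x ≠ 0 → |x| ≤ 10/9) (ρ : E2 ≃ₗᵢ[ℝ] E2),
      Integrable (fun ξ => Yg g 1 (ρ ξ)) ∧ Measurable (fun ξ => Yg g 1 (ρ ξ)) := by
    intro g hg hgs ρ
    have hc : Continuous (fun ξ => Yg g 1 (ρ ξ)) := (contDiff_Yg hg).continuous.comp ρ.continuous
    exact ⟨hc.integrable_of_hasCompactSupport ((hcs_Yg hgs).comp_homeomorph ρ.toHomeomorph), hc.measurable⟩
  obtain ⟨i1, m1⟩ := hint aa contDiff_aa aa_supp' ρn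
  obtain ⟨i2, m2⟩ := hint ab contDiff_ab ab_supp' ρs
  obtain ⟨i3, m3⟩ := hint ab contDiff_ab ab_supp' ρt
  have h1 := blk_add_le (X := fun ξ => Yg aa 1 ξ + Yg aa 1 (ρn ξ)) (Y := fun ξ => Yg ab 1 (ρs ξ) + Yg ab 1 (ρt ξ))
    (hia.add i1) (i2.add i3) (ia.measurable.add m1) (m2.add m3) hf.int Λ hp1 hp3 A
  have h2 := blk_add_le hia i1 ia.measurable m1 hf.int Λ hp1 hp3 A
  have h3 := blk_add_le i2 i3 m2 m3 hf.int Λ hp1 hp3 A
  calc blk XX Λ p A f ≤ _ := h1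
    _ ≤ 4 * (4 * (blk (Yg aa 1) Λ p A f + blk (fun ξ => Yg aa 1 (ρn ξ)) Λ p A f) +
        4 * (blk (fun ξ => Yg ab 1 (ρs ξ)) Λ p A f + blk (fun ξ => Yg ab 1 (ρt ξ)) Λ p A f)) := by gcongr
    _ = _ := by ring

theorem lintegral_comp' (ρ : E2 ≃ₗᵢ[ℝ] E2) (f : E2 → ℂ) (p : ℝ) :
    ∫⁻ y, ‖f (ρ.symm y)‖ₑ ^ p = ∫⁻ x, ‖f x‖ₑ ^ p := lintegral_comp ρ (fun x => ‖f x‖ₑ ^ p)

theorem two_terms {a b B : ℝ} {I x y : ℝ≥0∞} (ha : 0 ≤ a) (hB : 0 ≤ B) (hb : 0 ≤ b)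
    (h1 : x ≤ ENNReal.ofReal (a * B) * I) (h2 : y ≤ ENNReal.ofReal (b * B) * I) :
    x + y ≤ ENNReal.ofReal ((a + b) * B) * I := by
  refine (add_le_add h1 h2).trans (le_of_eq ?_)
  rw [← add_mul, ← ENNReal.ofReal_add (by positivity) (by positivity), add_mul]

theorem four_terms {a b B B' : ℝ} {I x y z w v : ℝ≥0∞} (ha : 0 ≤ a) (hB : 0 ≤ B) (hb : 0 ≤ b)
    (hv : v ≤ 16 * ((x + y) + (z + w)))
    (h1 : x ≤ ENNReal.ofReal (a * B) * I) (h2 : y ≤ ENNReal.ofReal (a * B) * I)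
    (h3 : z ≤ ENNReal.ofReal (b * B) * I) (h4 : w ≤ ENNReal.ofReal (b * B) * I) (hBB : 32 * (a + b) * B ≤ B') :
    v ≤ ENNReal.ofReal B' * I := by
  refine hv.trans ?_
  have h5 := two_terms (by positivity) hB (by positivity) (two_terms ha hB ha h1 h2) (two_terms hb hB hb h3 h4)
  calc 16 * ((x + y) + (z + w)) ≤ 16 * (ENNReal.ofReal ((a + a + (b + b)) * B) * I) := by gcongr
    _ = ENNReal.ofReal (16 * ((a + a + (b + b)) * B)) * I := by
        rw [ENNReal.ofReal_mul (by norm_num : (0:ℝ) ≤ 16), ← mul_assoc]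
        simp
    _ ≤ _ := by
        gcongr
        linarith

theorem ew_main {p a c C : ℝ} {h : ℝ → ℝ} (hp : p = 2 ∨ p = 3) (ha : 0 < a) (ha1 : a ≤ 1) (hAR : ARp p a)
    (hAM : StAM) (hLow : StLow) (hCK : StCK) (hc : 0 < c) (hh : HC c C h) (hr : Round h) : EWp XX p a := by
  intro ε hε
  have hp1 : 1 ≤ p := by rcases hp with rfl | rfl <;> norm_num
  have hp3 : p ≤ 3 := by rcases hp with rfl | rfl <;> norm_num
  set δ := min 1 ε / 6 with hδdef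
  have hδ : 0 < δ := by positivity
  have hδ1 : δ ≤ 1 := by have := min_le_left 1 ε; linarith
  have hδ6 : δ ≤ 1/6 := by have := min_le_left 1 ε; linarith
  have hδε : 6 * δ ≤ ε := by have := min_le_right 1 ε; linarith
  obtain ⟨K1, hK1, H1⟩ := full_blk hp hAR hAM hc hh hr contDiff_aa aa_supp' hε
  obtain ⟨K2, hK2, H2⟩ := full_blk hp hAR hAM hc hh hr contDiff_ab ab_supp' hε
  obtain ⟨K3, hK3, H3⟩ := rad_blk hp ha ha1 hAR hAM hc hh hr hδ
  obtain ⟨K4, hK4, H4⟩ := ax_blk hp ha ha1 hAR hAM hLow hc hh hr hδ hδ1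
  obtain ⟨K5, hK5, H5⟩ := hCK XX contDiff_XX hcs_XX (fun ξ h => XX_supp h) p δ hp hδ
  refine ⟨320 * (K1 + K2) + 32 * (K4 + K3) + K5, by positivity, ?_⟩
  intro Λ R S σ hΛ hR hS hσ f hf hfs
  have hΛ0 : 0 < Λ := by linarith
  set A : Set E2 := {x : E2 | x 1 ∈ Icc R (2 * R)} with hA
  show blk XX Λ p A f ≤ _
  set I := ∫⁻ x, ‖f x‖ₑ ^ p with hI
  have hfs' : ∀ y, f y ≠ 0 → S ≤ |y 1| ∧ |y 1| ≤ 2 * S := by
    intro y hy
    have := hfs y hy
    have e : |y 1| = |σ * y 1| := by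
      rcases hσ with rfl | rfl <;> simp
    rw [e, abs_of_nonneg (by linarith [this.1])]
    exact this
  have hblk := blk_XX_le (Λ := Λ) hp1 hp3 hf A
  have hm0 : 0 < min 1 (R / S) := lt_min one_pos (by positivity)
  have hm1 : min 1 (R / S) ≤ 1 := min_le_left _ _
  rcases lt_or_ge S (10 * R) with hcase | hcase
  · -- everything is comparable
    have e1 : (1:ℝ)/10 ≤ min 1 (R / S) ^ a := by
      have h1 : (1:ℝ)/10 ≤ min 1 (R / S) := by
        apply le_min (by norm_num)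
        rw [le_div_iff₀ hS]; linarith
      calc (1:ℝ)/10 ≤ min 1 (R / S) := h1
        _ = min 1 (R / S) ^ (1:ℝ) := (Real.rpow_one _).symm
        _ ≤ _ := Real.rpow_le_rpow_of_exponent_ge hm0 hm1 ha1
    have hB : 0 ≤ Λ ^ (1 + ε) := by positivity
    refine four_terms hK1 hB hK2 hblk (H1 Λ A hΛ f hf) ?_ ?_ ?_ ?_
    · rw [hI, ← lintegral_comp' ρn]
      exact H1 Λ _ hΛ _ (adm_comp ρn hf)
    · rw [hI, ← lintegral_comp' ρs]
      exact H2 Λ _ hΛ _ (adm_comp ρs hf)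
    · rw [hI, ← lintegral_comp' ρt]
      exact H2 Λ _ hΛ _ (adm_comp ρt hf)
    · have h3 : 32 * (K1 + K2) * Λ ^ (1 + ε) = 320 * (K1 + K2) * Λ ^ (1 + ε) * (1/10) := by ring
      rw [h3]
      have h4 : 320 * (K1 + K2) ≤ 320 * (K1 + K2) + 32 * (K4 + K3) + K5 := by linarith [mul_nonneg (by norm_num : (0:ℝ) ≤ 32) (add_nonneg hK4 hK3)]
      gcongr
  have hmin : min 1 (R / S) = R / S := by
    apply min_eq_right
    rw [div_le_one hS]; linarith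
  rw [hmin]
  have hRS0 : 0 < R / S := by positivity
  have hRS1 : R / S ≤ 1 := by rw [div_le_one hS]; linarith
  have hA2 : ∀ x ∈ A, |x 1| ≤ 2 * R := by
    intro x hx
    rw [abs_of_nonneg (by linarith [hx.1])]
    exact hx.2
  rcases le_or_gt (Λ ^ (1 + δ)) S with hfar | hnear
  · -- the strips are very far
    have := H5 Λ R S hΛ hR hcase hfar f hf hfs'
    have h0 : blk XX Λ p A f ≤ blk XX Λ p {x : E2 | |x 1| ≤ 2 * R} f := blk_mono le_rfl hA2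
    refine h0.trans (this.trans ?_)
    gcongr ENNReal.ofReal ?_ * _
    have h1 : Λ ≤ Λ ^ (1 + ε) := by
      calc Λ = Λ ^ (1:ℝ) := (Real.rpow_one Λ).symm
        _ ≤ _ := Real.rpow_le_rpow_of_exponent_le hΛ (by linarith)
    have h2 : R / S ≤ (R / S) ^ a := by
      calc R / S = (R / S) ^ (1:ℝ) := (Real.rpow_one _).symm
        _ ≤ _ := Real.rpow_le_rpow_of_exponent_ge hRS0 hRS1 ha1
    have h3 : K5 ≤ 320 * (K1 + K2) + 32 * (K4 + K3) + K5 := by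
      linarith [add_nonneg hK1 hK2, add_nonneg hK4 hK3]
    calc K5 * (Λ * (R / S)) ≤ K5 * (Λ ^ (1 + ε) * (R / S) ^ a) := by gcongr
      _ ≤ (320 * (K1 + K2) + 32 * (K4 + K3) + K5) * (Λ ^ (1 + ε) * (R / S) ^ a) := by gcongr
      _ = _ := by ring
  · -- main case
    have hexp : Λ ^ (3 * δ + (1 + δ) * (1 + δ)) ≤ Λ ^ (1 + ε) :=
      Real.rpow_le_rpow_of_exponent_le hΛ (by nlinarith)
    have hexp' : Λ ^ ((1 + δ) * (1 + δ)) ≤ Λ ^ (1 + ε) :=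
      Real.rpow_le_rpow_of_exponent_le hΛ (by nlinarith)
    set B := Λ ^ (1 + ε) * (R / S) ^ a with hB
    have hB0 : 0 ≤ B := by positivity
    have up4 : ∀ J : ℝ≥0∞, ENNReal.ofReal (K4 * Λ ^ (3 * δ + (1 + δ) * (1 + δ)) * (R / S) ^ a) * J ≤ ENNReal.ofReal (K4 * B) * J := by
      intro J
      gcongr ENNReal.ofReal ?_ * _
      rw [hB, ← mul_assoc]
      gcongr
    have up3 : ∀ J : ℝ≥0∞, ENNReal.ofReal (K3 * Λ ^ ((1 + δ) * (1 + δ)) * (R / S) ^ a) * J ≤ ENNReal.ofReal (K3 * B) * J := by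
      intro J
      gcongr ENNReal.ofReal ?_ * _
      rw [hB, ← mul_assoc]
      gcongr
    refine four_terms hK4 hB0 hK3 hblk ?_ ?_ ?_ ?_ ?_
    · refine (H4 Λ R S (3 * R / 2) A hΛ hR hcase ?_ hA2 f hf hfs').trans (up4 _)
      intro x hx
      rw [abs_le]
      constructor <;> linarith [hx.1, hx.2]
    · rw [hI, ← lintegral_comp' ρn]
      refine (H4 Λ R S (-(3 * R / 2)) _ hΛ hR hcase ?_ ?_ _ (adm_comp ρn hf) ?_).trans (up4 _)
      · intro x hx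
        have hx' : (ρn.symm x) 1 ∈ Icc R (2 * R) := hx
        have e : x 1 = -((ρn.symm x) 1) := by
          conv_lhs => rw [← ρn.apply_symm_apply x]
          rfl
        rw [e, abs_le]
        constructor <;> linarith [hx'.1, hx'.2]
      · intro x hx
        have hx' : (ρn.symm x) 1 ∈ Icc R (2 * R) := hx
        have e : x 1 = -((ρn.symm x) 1) := by
          conv_lhs => rw [← ρn.apply_symm_apply x]
          rfl
        rw [e, abs_neg]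
        exact hA2 _ hx'
      · intro y hy
        have h1 := hfs' _ hy
        have e : y 1 = -((ρn.symm y) 1) := by
          conv_lhs => rw [← ρn.apply_symm_apply y]
          rfl
        rw [e, abs_neg]
        exact h1
    · rw [hI, ← lintegral_comp' ρs]
      refine (H3 Λ R S (3 * R / 2) _ hΛ hR hcase hnear.le ?_ _ (adm_comp ρs hf)).trans (up3 _)
      intro x hx
      have hx' : (ρs.symm x) 1 ∈ Icc R (2 * R) := hx
      have e : x 0 = (ρs.symm x) 1 := by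
        conv_lhs => rw [← ρs.apply_symm_apply x]
        exact ρs_zero _
      rw [e, abs_le]
      constructor <;> linarith [hx'.1, hx'.2]
    · rw [hI, ← lintegral_comp' ρt]
      refine (H3 Λ R S (-(3 * R / 2)) _ hΛ hR hcase hnear.le ?_ _ (adm_comp ρt hf)).trans (up3 _)
      intro x hx
      have hx' : (ρt.symm x) 1 ∈ Icc R (2 * R) := hx
      have e : x 0 = -((ρt.symm x) 1) := by
        conv_lhs => rw [← ρt.apply_symm_apply x]
        exact ρt_zero _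
      rw [e, abs_le]
      constructor <;> linarith [hx'.1, hx'.2]
    · rw [hB, ← mul_assoc]
      have h4 : 32 * (K4 + K3) ≤ 320 * (K1 + K2) + 32 * (K4 + K3) + K5 := by linarith [add_nonneg hK1 hK2]
      gcongr

/-- [EW] -/
theorem stEW (H2 : StAR2) (H3 : StAR3) (hAM : StAM) (hLow : StLow) (hCK : StCK) (hRP : StRP) : StEW := by
  obtain ⟨c, C, h, hc, hh, hr⟩ := hRP
  exact ⟨XX, contDiff_XX, hcs_XX, fun ξ h1 h2 => XX_one h1 h2,
    ew_main (Or.inl rfl) one_pos le_rfl (arp2 H2) hAM hLow hCK hc hh hr,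
    ew_main (Or.inr rfl) (by norm_num) (by norm_num) (arp3 H3) hAM hLow hCK hc hh hr⟩

end Vale.Agent.P106.C
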