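import Vale.Agent.P106.C.Base

open MeasureTheory Complex Set Filter
open scoped ENNReal NNReal ContDiff FourierTransform ComplexConjugate Topology

namespace Vale.Agent.P106.C

/-- second order jet of a function of one variable -/
def J2 {F : Type*} [NormedAddCommGroup F] [NormedSpace ℝ F] (f : ℝ → F) (s : ℝ) (f1 f2 : F) : Prop :=
  ∃ f' : ℝ → F, (∀ᶠ r in 𝓝 s, HasDerivAt f (f' r) r) ∧ f' s = f1 ∧ HasDerivAt f' f2 s

theorem J2.mul {f g : ℝ → ℂ} {s : ℝ} {f1 f2 g1 g2 : ℂ} (hf : J2 f s f1 f2) (hg : J2 g s g1 g2) :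
    J2 (fun r => f r * g r) s (f1 * g s + f s * g1) (f2 * g s + 2 * f1 * g1 + f s * g2) := by
  obtain ⟨f', hf1, hf2, hf3⟩ := hf
  obtain ⟨g', hg1, hg2, hg3⟩ := hg
  refine ⟨fun r => f' r * g r + f r * g' r, ?_, ?_, ?_⟩
  · filter_upwards [hf1, hg1] with r h1 h2
    exact h1.mul h2
  · simp only [hf2, hg2]
  · have h1 := (hf3.mul hg1.self_of_nhds).add (hf1.self_of_nhds.mul hg3)
    refine h1.congr_deriv ?_
    rw [hf2, hg2]
    ring

theorem J2.comp {η : ℝ → ℂ} (hη : ContDiff ℝ ∞ η) {w : ℝ → ℝ} {s w1 w2 : ℝ} (hw : J2 w s w1 w2) :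
    J2 (fun r => η (w r)) s ((w1 : ℂ) * deriv η (w s))
      ((w1 : ℂ) ^ 2 * deriv (deriv η) (w s) + (w2 : ℂ) * deriv η (w s)) := by
  obtain ⟨w', h1, h2, h3⟩ := hw
  have hη1 : ContDiff ℝ ∞ (deriv η) := ((contDiff_succ_iff_deriv (n := ∞)).1 hη).2.2
  refine ⟨fun r => (w' r : ℂ) * deriv η (w r), ?_, ?_, ?_⟩
  · filter_upwards [h1] with r hr
    have h4 : HasDerivAt η (deriv η (w r)) (w r) := (hη.differentiable (by simp) _).hasDerivAt
    have := h4.scomp r hr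
    simpa [Function.comp_def, real_smul] using this
  · simp only [h2]
  · have h4 : HasDerivAt (deriv η) (deriv (deriv η) (w s)) (w s) :=
      (hη1.differentiable (by simp) _).hasDerivAt
    have h5 := h4.scomp s h1.self_of_nhds
    have h6 := h3.ofReal_comp
    have h7 := h6.mul h5
    simp only [Function.comp_def, real_smul] at h7
    refine h7.congr_deriv ?_
    rw [h2]
    ring

/-- jets with bounds adapted to a frequency scale `lam` -/
def BJ (f : ℝ → ℂ) (s A lam : ℝ) : Prop :=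
  ∃ f1 f2 : ℂ, J2 f s f1 f2 ∧ ‖f s‖ ≤ A ∧ ‖f1‖ ≤ A * lam ∧ ‖f2‖ ≤ A * lam ^ 2

theorem BJ.nonneg {f : ℝ → ℂ} {s A lam : ℝ} (hf : BJ f s A lam) : 0 ≤ A := by
  obtain ⟨f1, f2, _, h1, _⟩ := hf
  exact (norm_nonneg _).trans h1

theorem BJ.mono {f : ℝ → ℂ} {s A A' lam lam' : ℝ} (hf : BJ f s A lam) (hA : A ≤ A') (hl0 : 0 ≤ lam)
    (hl : lam ≤ lam') : BJ f s A' lam' := by
  have hA0 := hf.nonneg
  obtain ⟨f1, f2, h0, h1, h2, h3⟩ := hf
  refine ⟨f1, f2, h0, h1.trans hA, h2.trans ?_, h3.trans ?_⟩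
  · gcongr
    linarith
  · gcongr
    linarith

theorem BJ.mul {f g : ℝ → ℂ} {s A B lam : ℝ} (hl : 0 ≤ lam) (hf : BJ f s A lam) (hg : BJ g s B lam) :
    BJ (fun r => f r * g r) s (4 * A * B) lam := by
  have hA0 := hf.nonneg
  have hB0 := hg.nonneg
  obtain ⟨f1, f2, hf0, hf1, hf2, hf3⟩ := hf
  obtain ⟨g1, g2, hg0, hg1, hg2, hg3⟩ := hg
  refine ⟨_, _, hf0.mul hg0, ?_, ?_, ?_⟩
  · rw [norm_mul]
    calc ‖f s‖ * ‖g s‖ ≤ A * B := by gcongr
      _ ≤ 4 * A * B := by nlinarith [mul_nonneg hA0 hB0]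
  · refine (norm_add_le _ _).trans ?_
    rw [norm_mul, norm_mul]
    calc ‖f1‖ * ‖g s‖ + ‖f s‖ * ‖g1‖ ≤ (A * lam) * B + A * (B * lam) := by gcongr
      _ ≤ 4 * A * B * lam := by nlinarith [mul_nonneg (mul_nonneg hA0 hB0) hl]
  · refine (norm_add_le _ _).trans ?_
    refine (add_le_add_left (norm_add_le _ _) _).trans ?_
    simp only [norm_mul, Complex.norm_ofNat]
    calc ‖f2‖ * ‖g s‖ + 2 * ‖f1‖ * ‖g1‖ + ‖f s‖ * ‖g2‖
        ≤ (A * lam ^ 2) * B + 2 * (A * lam) * (B * lam) + A * (B * lam ^ 2) := by gcongr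
      _ = 4 * A * B * lam ^ 2 := by ring

theorem BJ.comp {η : ℝ → ℂ} (hη : ContDiff ℝ ∞ η) {E : ℝ} (h0 : ∀ x, ‖η x‖ ≤ E)
    (h1 : ∀ x, ‖deriv η x‖ ≤ E) (h2 : ∀ x, ‖deriv (deriv η) x‖ ≤ E)
    {w : ℝ → ℝ} {s w1 w2 c lam : ℝ} (hw : J2 w s w1 w2) (hc : 1 ≤ c) (hl : 0 ≤ lam)
    (hw1 : |w1| ≤ c * lam) (hw2 : |w2| ≤ c * lam ^ 2) : BJ (fun r => η (w r)) s (2 * E * c ^ 2) lam := by
  have hE : 0 ≤ E := (norm_nonneg _).trans (h0 0)
  refine ⟨_, _, hw.comp hη, ?_, ?_, ?_⟩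
  · refine (h0 _).trans ?_
    nlinarith [mul_nonneg hE (by nlinarith : (0:ℝ) ≤ c ^ 2 - 1)]
  · rw [norm_mul, Complex.norm_real, Real.norm_eq_abs]
    calc |w1| * ‖deriv η (w s)‖ ≤ (c * lam) * E := by gcongr; exact h1 _
      _ = (E * c) * lam := by ring
      _ ≤ (2 * E * c ^ 2) * lam := by
          apply mul_le_mul_of_nonneg_right _ hl
          nlinarith [mul_nonneg hE (by nlinarith : (0:ℝ) ≤ 2 * c ^ 2 - c)]
  · refine (norm_add_le _ _).trans ?_
    rw [norm_mul, norm_mul, norm_pow, Complex.norm_real, Complex.norm_real, Real.norm_eq_abs,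
      Real.norm_eq_abs]
    calc |w1| ^ 2 * ‖deriv (deriv η) (w s)‖ + |w2| * ‖deriv η (w s)‖
        ≤ (c * lam) ^ 2 * E + (c * lam ^ 2) * E := by
          gcongr
          · exact h2 _
          · exact h1 _
      _ = (E * c ^ 2 + E * c) * lam ^ 2 := by ring
      _ ≤ (2 * E * c ^ 2) * lam ^ 2 := by
          apply mul_le_mul_of_nonneg_right _ (by positivity)
          nlinarith [mul_nonneg hE (by nlinarith : (0:ℝ) ≤ c ^ 2 - c)]

theorem deriv_cexpI : deriv (fun x : ℝ => cexp (I * x)) = fun x : ℝ => I * cexp (I * x) := by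
  ext x
  have h1 : HasDerivAt (fun x : ℝ => I * (x : ℂ)) (I * 1) x := (ofRealCLM.hasDerivAt).const_mul I
  have h2 := h1.cexp
  rw [h2.deriv]
  ring

theorem contDiff_cexpI : ContDiff ℝ ∞ (fun x : ℝ => cexp (I * x)) :=
  (contDiff_const.mul ofRealCLM.contDiff).cexp

theorem norm_cexpI (x : ℝ) : ‖cexp (I * x)‖ = 1 := by
  rw [mul_comm]; exact norm_exp_ofReal_mul_I x

/-- unimodular factors -/
theorem BJ.cexp {w : ℝ → ℝ} {s w1 w2 c lam : ℝ} (hw : J2 w s w1 w2) (hc : 1 ≤ c) (hl : 0 ≤ lam)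
    (hw1 : |w1| ≤ c * lam) (hw2 : |w2| ≤ c * lam ^ 2) :
    BJ (fun r => cexp (I * (w r : ℝ))) s (2 * c ^ 2) lam := by
  have h := BJ.comp (η := fun x : ℝ => Complex.exp (I * x)) contDiff_cexpI (E := 1)
    (fun x => (norm_cexpI x).le) ?_ ?_ hw hc hl hw1 hw2
  · simpa using h
  · intro x
    rw [deriv_cexpI, norm_mul, norm_cexpI, norm_I, one_mul]
  · intro x
    have : deriv (fun x : ℝ => I * Complex.exp (I * x)) x = I * (I * Complex.exp (I * x)) := by
      rw [deriv_const_mul _ (contDiff_cexpI.differentiable (by simp) x), deriv_cexpI]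
    rw [deriv_cexpI, this, norm_mul, norm_mul, norm_cexpI, norm_I, one_mul, one_mul]

/-- jets of affine functions -/
theorem J2.affine (a b s : ℝ) : J2 (fun r => a + r * b) s b 0 :=
  ⟨fun _ => b, Eventually.of_forall fun r => by simpa using ((hasDerivAt_id r).mul_const b).const_add a,
    rfl, hasDerivAt_const s b⟩

theorem J2.const_add' {w : ℝ → ℝ} {s w1 w2 : ℝ} (hw : J2 w s w1 w2) (a b : ℝ) :
    J2 (fun r => a * w r + b) s (a * w1) (a * w2) := by
  obtain ⟨w', h1, h2, h3⟩ := hw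
  refine ⟨fun r => a * w' r, ?_, by simp only [h2], h3.const_mul a⟩
  filter_upwards [h1] with r hr
  exact (hr.const_mul a).add_const b

theorem J2.sub {w z : ℝ → ℝ} {s w1 w2 z1 z2 : ℝ} (hw : J2 w s w1 w2) (hz : J2 z s z1 z2) :
    J2 (fun r => w r - z r) s (w1 - z1) (w2 - z2) := by
  obtain ⟨w', h1, h2, h3⟩ := hw
  obtain ⟨z', k1, k2, k3⟩ := hz
  refine ⟨fun r => w' r - z' r, ?_, by simp only [h2, k2], h3.sub k3⟩
  filter_upwards [h1, k1] with r hr kr
  exact hr.sub kr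

/-- the slope `ξ₁/ξ₀` along a line -/
theorem J2.slope (x y v0 v1 s : ℝ) (hx : x + s * v0 ≠ 0) :
    J2 (fun r => (y + r * v1) / (x + r * v0)) s
      ((v1 - v0 * ((y + s * v1) / (x + s * v0))) / (x + s * v0))
      (-2 * v0 * (v1 - v0 * ((y + s * v1) / (x + s * v0))) / (x + s * v0) ^ 2) := by
  have hX : ∀ r, HasDerivAt (fun r => x + r * v0) v0 r := fun r => by
    simpa using ((hasDerivAt_id r).mul_const v0).const_add x
  have hY : ∀ r, HasDerivAt (fun r => y + r * v1) v1 r := fun r => by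
    simpa using ((hasDerivAt_id r).mul_const v1).const_add y
  have hne : ∀ᶠ r in 𝓝 s, x + r * v0 ≠ 0 := (hX s).continuousAt.eventually_ne hx
  have hu : ∀ r, x + r * v0 ≠ 0 → HasDerivAt (fun r => (y + r * v1) / (x + r * v0))
      ((v1 - v0 * ((y + r * v1) / (x + r * v0))) / (x + r * v0)) r := by
    intro r hr
    refine ((hY r).div (hX r) hr).congr_deriv ?_
    field_simp
  refine ⟨fun r => (v1 - v0 * ((y + r * v1) / (x + r * v0))) / (x + r * v0), ?_, rfl, ?_⟩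
  · filter_upwards [hne] with r hr
    exact hu r hr
  · have h1 := ((hasDerivAt_const s v1).sub ((hu s hx).const_mul v0)).div (hX s) hx
    refine h1.congr_deriv ?_
    simp only [Pi.sub_apply]
    generalize (y + s * v1) / (x + s * v0) = u
    obtain ⟨X, hX'⟩ : ∃ X, X = x + s * v0 := ⟨_, rfl⟩
    rw [← hX'] at hx ⊢
    field_simp
    ring

variable {c C : ℝ} {h : ℝ → ℝ}

/-- the phase along a line -/
theorem J2.phase (hh : HC c C h) (x y v0 v1 s : ℝ) (hx : x + s * v0 ≠ 0) :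
    J2 (fun r => (x + r * v0) * h ((y + r * v1) / (x + r * v0))) s
      (v0 * h ((y + s * v1) / (x + s * v0)) +
        (v1 - v0 * ((y + s * v1) / (x + s * v0))) * deriv h ((y + s * v1) / (x + s * v0)))
      ((v1 - v0 * ((y + s * v1) / (x + s * v0))) ^ 2 *
        deriv (deriv h) ((y + s * v1) / (x + s * v0)) / (x + s * v0)) := by
  have hX : ∀ r, HasDerivAt (fun r => x + r * v0) v0 r := fun r => by
    simpa using ((hasDerivAt_id r).mul_const v0).const_add x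
  have hY : ∀ r, HasDerivAt (fun r => y + r * v1) v1 r := fun r => by
    simpa using ((hasDerivAt_id r).mul_const v1).const_add y
  have hne : ∀ᶠ r in 𝓝 s, x + r * v0 ≠ 0 := (hX s).continuousAt.eventually_ne hx
  have hu : ∀ r, x + r * v0 ≠ 0 → HasDerivAt (fun r => (y + r * v1) / (x + r * v0))
      ((v1 - v0 * ((y + r * v1) / (x + r * v0))) / (x + r * v0)) r := by
    intro r hr
    refine ((hY r).div (hX r) hr).congr_deriv ?_
    field_simp
  refine ⟨fun r => v0 * h ((y + r * v1) / (x + r * v0)) +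
        (v1 - v0 * ((y + r * v1) / (x + r * v0))) * deriv h ((y + r * v1) / (x + r * v0)), ?_, rfl, ?_⟩
  · filter_upwards [hne] with r hr
    have h1 := (hX r).mul ((hc_deriv hh _).comp r (hu r hr))
    refine h1.congr_deriv ?_
    simp only [Function.comp_apply]
    generalize (y + r * v1) / (x + r * v0) = u
    obtain ⟨X, hX'⟩ : ∃ X, X = x + r * v0 := ⟨_, rfl⟩
    rw [← hX'] at hr ⊢
    field_simp
  · have h1 := (((hc_deriv hh _).comp s (hu s hx)).const_mul v0).add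
      (((hasDerivAt_const s v1).sub ((hu s hx).const_mul v0)).mul ((hc_deriv1 hh _).comp s (hu s hx)))
    refine h1.congr_deriv ?_
    simp only [Function.comp_apply, Pi.sub_apply]
    generalize (y + s * v1) / (x + s * v0) = u
    obtain ⟨X, hX'⟩ : ∃ X, X = x + s * v0 := ⟨_, rfl⟩
    rw [← hX'] at hx ⊢
    field_simp
    ring

end Vale.Agent.P106.C
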