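import Vale.Agent.P106.C.ArcSum
import Vale.Agent.P106.C.Dual

open MeasureTheory Complex Set Filter
open scoped ENNReal NNReal ContDiff FourierTransform ComplexConjugate Topology SchwartzMap LineDeriv

namespace Vale.Agent.P106.C

open Vale.Agent.P117 (E2 Adm nrm norm_fourier_le norm_fourierInv_le continuous_fourier continuous_fourierInv
  lintegral_sq_fourier_le integral_fourier_mul integral_fourierInv_mul lintegral_E2 eta0 contDiff_eta0 eta0_supp eta0_sum)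

variable {c C : ℝ} {h : ℝ → ℝ}

/-- compactly supported admissible functions -/
structure AdmC (n : ℕ) (g : E2 → ℂ) : Prop where
  adm : Adm volume g
  supp : ∀ x, x ∉ Metric.closedBall (0 : E2) n → g x = 0

theorem AdmC.mul_poly {n : ℕ} {g : E2 → ℂ} (hg : AdmC n g) {p : E2 → ℂ} (hp : Continuous p) :
    AdmC n (fun x => p x * g x) := by
  obtain ⟨B, hB⟩ := hg.adm.bdd
  obtain ⟨D, hD⟩ := (isCompact_closedBall (0 : E2) n).exists_bound_of_continuousOn hp.continuousOn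
  have hB0 : 0 ≤ B := (norm_nonneg _).trans (hB 0)
  have hD0 : 0 ≤ D := (norm_nonneg _).trans (hD 0 (by simp))
  have hb : ∀ x, ‖p x * g x‖ ≤ D * B := by
    intro x
    by_cases hx : x ∈ Metric.closedBall (0 : E2) n
    · rw [norm_mul]; gcongr
      · exact hD x hx
      · exact hB x
    · rw [hg.supp x hx]; simp; positivity
  have hm : Measurable (fun x => p x * g x) := hp.measurable.mul hg.adm.meas
  have hs : ∀ x, x ∉ Metric.closedBall (0 : E2) n → p x * g x = 0 := fun x hx => by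
    rw [hg.supp x hx, mul_zero]
  refine ⟨⟨hm, ?_, D * B, hb⟩, hs⟩
  have h1 : IntegrableOn (fun x => p x * g x) (Metric.closedBall (0 : E2) n) :=
    Measure.integrableOn_of_bounded (M := D * B) (isCompact_closedBall _ _).measure_lt_top.ne
      hm.aestronglyMeasurable (by filter_upwards with x; exact hb x)
  rw [← integrable_indicator_iff Metric.isClosed_closedBall.measurableSet] at h1
  refine h1.congr ?_
  filter_upwards with x
  by_cases hx : x ∈ Metric.closedBall (0 : E2) n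
  · rw [indicator_of_mem hx]
  · rw [indicator_of_notMem hx, hs x hx]

theorem AdmC.contDiff {n : ℕ} {g : E2 → ℂ} (hg : AdmC n g) : ContDiff ℝ ∞ (𝓕⁻ g) := by
  have h1 : ContDiff ℝ ∞ (𝓕 g) := by
    apply Real.contDiff_fourier
    intro N _
    have := (hg.mul_poly (p := fun x => ((‖x‖ ^ N : ℝ) : ℂ)) (by fun_prop)).adm.int.norm
    refine this.congr ?_
    filter_upwards with x
    rw [norm_mul, Complex.norm_real, Real.norm_of_nonneg (by positivity)]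
  have h2 : 𝓕⁻ g = fun ξ => 𝓕 g (-ξ) := by
    ext ξ
    rw [Real.fourierInv_eq_fourier_neg]
  rw [h2]
  exact h1.comp contDiff_neg

theorem hasDerivAt_fourierInv_line {n : ℕ} {g : E2 → ℂ} (hg : AdmC n g) (ξ v : E2) (r : ℝ) :
    HasDerivAt (fun r : ℝ => 𝓕⁻ g (ξ + r • v))
      (𝓕⁻ (fun x : E2 => (2 * Real.pi * I * (inner ℝ x v : ℝ)) * g x) (ξ + r • v)) r := by
  simp_rw [Real.fourierInv_eq']
  have hg1 := (hg.mul_poly (p := fun x => ((2 * Real.pi * ‖x‖ * ‖v‖ : ℝ) : ℂ)) (by fun_prop)).adm.int.norm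
  have key := hasDerivAt_integral_of_dominated_loc_of_deriv_le (μ := volume)
    (F := fun (r : ℝ) (x : E2) => cexp (((2 * Real.pi * inner ℝ x (ξ + r • v) : ℝ) : ℂ) * I) • g x)
    (F' := fun (r : ℝ) (x : E2) => cexp (((2 * Real.pi * inner ℝ x (ξ + r • v) : ℝ) : ℂ) * I) •
      ((2 * Real.pi * I * (inner ℝ x v : ℝ)) * g x)) (x₀ := r) (s := univ)
    (bound := fun x => ‖((2 * Real.pi * ‖x‖ * ‖v‖ : ℝ) : ℂ) * g x‖) univ_mem ?_ ?_ ?_ ?_ hg1 ?_
  · exact key.2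
  · filter_upwards with s
    apply Measurable.aestronglyMeasurable
    have := hg.adm.meas
    fun_prop
  · have := hg.adm.int
    refine this.norm.mono' ?_ ?_
    · apply Measurable.aestronglyMeasurable
      have := hg.adm.meas
      fun_prop
    · filter_upwards with x
      rw [norm_smul, Complex.norm_exp_ofReal_mul_I, one_mul]
  · apply Measurable.aestronglyMeasurable
    have := hg.adm.meas
    fun_prop
  · filter_upwards with x s _
    rw [norm_smul, Complex.norm_exp_ofReal_mul_I, one_mul, norm_mul _ (g x), norm_mul _ (g x)]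
    gcongr
    have h1 : ‖(2 * Real.pi * I * (inner ℝ x v : ℝ) : ℂ)‖ = 2 * Real.pi * |inner ℝ x v| := by
      simp [abs_of_pos Real.pi_pos]
    rw [h1, Complex.norm_real, Real.norm_of_nonneg (by positivity), mul_assoc (2 * Real.pi)]
    gcongr
    · exact abs_real_inner_le_norm x v
  · filter_upwards with x s _
    have h1 : HasDerivAt (fun r : ℝ => (2 * Real.pi * inner ℝ x (ξ + r • v) : ℝ)) (2 * Real.pi * inner ℝ x v) s := by
      have e : (fun r : ℝ => (2 * Real.pi * inner ℝ x (ξ + r • v) : ℝ)) =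
          fun r : ℝ => 2 * Real.pi * inner ℝ x ξ + r * (2 * Real.pi * inner ℝ x v) := by
        ext r
        rw [inner_add_right, inner_smul_right]
        ring
      rw [e]
      simpa using ((hasDerivAt_id s).mul_const (2 * Real.pi * inner ℝ x v)).const_add (2 * Real.pi * inner ℝ x ξ)
    have h2 := ((h1.ofReal_comp.mul_const I).cexp).smul_const (g x)
    refine h2.congr_deriv ?_
    simp only [smul_eq_mul]
    push_cast
    ring

/-- first moments -/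
noncomputable def mom1 (g : E2 → ℂ) (i : Fin 2) (x : E2) : ℂ := (x i : ℂ) * g x
noncomputable def mom2 (g : E2 → ℂ) (i j : Fin 2) (x : E2) : ℂ := ((x i * x j : ℝ) : ℂ) * g x

theorem AdmC.mom1 {n : ℕ} {g : E2 → ℂ} (hg : AdmC n g) (i : Fin 2) : AdmC n (mom1 g i) :=
  hg.mul_poly (by fun_prop)

theorem AdmC.mom2 {n : ℕ} {g : E2 → ℂ} (hg : AdmC n g) (i j : Fin 2) : AdmC n (mom2 g i j) :=
  hg.mul_poly (by fun_prop)

theorem fourierInv_add' {f g : E2 → ℂ} (hf : Integrable f) (hg : Integrable g) (ξ : E2) :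
    𝓕⁻ (fun x => f x + g x) ξ = 𝓕⁻ f ξ + 𝓕⁻ g ξ := by
  rw [Real.fourierInv_eq', Real.fourierInv_eq', Real.fourierInv_eq', ← integral_add]
  · congr 1
    ext x
    rw [smul_add]
  · have hm : AEStronglyMeasurable (fun x : E2 => cexp (((2 * Real.pi * inner ℝ x ξ : ℝ) : ℂ) * I)) volume := by
      apply Measurable.aestronglyMeasurable; fun_prop
    refine (hf.norm.mono' ?_ ?_)
    · exact AEStronglyMeasurable.smul hm hf.1
    · filter_upwards with x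
      rw [norm_smul, Complex.norm_exp_ofReal_mul_I, one_mul]
  · have hm : AEStronglyMeasurable (fun x : E2 => cexp (((2 * Real.pi * inner ℝ x ξ : ℝ) : ℂ) * I)) volume := by
      apply Measurable.aestronglyMeasurable; fun_prop
    refine (hg.norm.mono' ?_ ?_)
    · exact AEStronglyMeasurable.smul hm hg.1
    · filter_upwards with x
      rw [norm_smul, Complex.norm_exp_ofReal_mul_I, one_mul]

theorem fourierInv_const_mul' (a : ℂ) (f : E2 → ℂ) (ξ : E2) :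
    𝓕⁻ (fun x => a * f x) ξ = a * 𝓕⁻ f ξ := by
  rw [Real.fourierInv_eq', Real.fourierInv_eq', ← integral_const_mul]
  congr 1
  ext x
  simp only [smul_eq_mul]
  ring

theorem line1_eq {n : ℕ} {g : E2 → ℂ} (hg : AdmC n g) (v ξ : E2) :
    𝓕⁻ (fun x : E2 => (2 * Real.pi * I * (inner ℝ x v : ℝ)) * g x) ξ =
      2 * Real.pi * I * v 0 * 𝓕⁻ (mom1 g 0) ξ + 2 * Real.pi * I * v 1 * 𝓕⁻ (mom1 g 1) ξ := by
  have e : (fun x : E2 => (2 * Real.pi * I * (inner ℝ x v : ℝ)) * g x) = fun x =>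
      (2 * Real.pi * I * v 0) * mom1 g 0 x + (2 * Real.pi * I * v 1) * mom1 g 1 x := by
    ext x
    simp only [mom1, PiLp.inner_apply, Fin.sum_univ_two]
    simp
    ring
  rw [e, fourierInv_add', fourierInv_const_mul', fourierInv_const_mul']
  · exact (hg.mom1 0).adm.int.const_mul _
  · exact (hg.mom1 1).adm.int.const_mul _

theorem line2_eq {n : ℕ} {g : E2 → ℂ} (hg : AdmC n g) (v ξ : E2) :
    𝓕⁻ (fun x : E2 => (2 * Real.pi * I * (inner ℝ x v : ℝ)) * ((2 * Real.pi * I * (inner ℝ x v : ℝ)) * g x)) ξ =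
      -(4 * Real.pi ^ 2 * v 0 ^ 2) * 𝓕⁻ (mom2 g 0 0) ξ + (-(8 * Real.pi ^ 2 * v 0 * v 1) * 𝓕⁻ (mom2 g 0 1) ξ +
        -(4 * Real.pi ^ 2 * v 1 ^ 2) * 𝓕⁻ (mom2 g 1 1) ξ) := by
  have e : (fun x : E2 => (2 * Real.pi * I * (inner ℝ x v : ℝ)) * ((2 * Real.pi * I * (inner ℝ x v : ℝ)) * g x)) =
      fun x => (-(4 * Real.pi ^ 2 * v 0 ^ 2) : ℂ) * mom2 g 0 0 x + ((-(8 * Real.pi ^ 2 * v 0 * v 1) : ℂ) * mom2 g 0 1 x +
        (-(4 * Real.pi ^ 2 * v 1 ^ 2) : ℂ) * mom2 g 1 1 x) := by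
    ext x
    simp only [mom2, PiLp.inner_apply, Fin.sum_univ_two]
    simp
    linear_combination (4 * (Real.pi:ℂ) ^ 2 * ((v 0 : ℂ) * (x 0 : ℂ) + (v 1 : ℂ) * (x 1 : ℂ)) ^ 2 * g x) * I_sq
  have i1 := (hg.mom2 0 0).adm.int.const_mul (-(4 * Real.pi ^ 2 * v 0 ^ 2) : ℂ)
  have i2 := (hg.mom2 0 1).adm.int.const_mul (-(8 * Real.pi ^ 2 * v 0 * v 1) : ℂ)
  have i3 := (hg.mom2 1 1).adm.int.const_mul (-(4 * Real.pi ^ 2 * v 1 ^ 2) : ℂ)
  have i23 : Integrable (fun x => (-(8 * Real.pi ^ 2 * v 0 * v 1) : ℂ) * mom2 g 0 1 x +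
        (-(4 * Real.pi ^ 2 * v 1 ^ 2) : ℂ) * mom2 g 1 1 x) := i2.add i3
  rw [e, fourierInv_add' i1 i23, fourierInv_add' i2 i3, fourierInv_const_mul', fourierInv_const_mul',
    fourierInv_const_mul']

/-- the majorant of the jets of `𝓕⁻ g` -/
noncomputable def Mg (H : ℝ) (g : E2 → ℂ) (ξ : E2) : ℝ :=
  ‖𝓕⁻ g ξ‖ + 100 * (H⁻¹ * (‖𝓕⁻ (mom1 g 0) ξ‖ + ‖𝓕⁻ (mom1 g 1) ξ‖)) +
    1000 * (H⁻¹ ^ 2 * (‖𝓕⁻ (mom2 g 0 0) ξ‖ + ‖𝓕⁻ (mom2 g 0 1) ξ‖ + ‖𝓕⁻ (mom2 g 1 1) ξ‖))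

theorem KB_fourierInv {n : ℕ} {g : E2 → ℂ} (hg : AdmC n g) {H : ℝ} (hH : 0 < H) : KB (𝓕⁻ g) (Mg H g) H := by
  refine ⟨hg.contDiff, ?_⟩
  intro ξ v hv0 hv1
  have hpi := Real.pi_pos
  have hpi4 : Real.pi ≤ 3.15 := Real.pi_lt_d2.le
  have hg1 : AdmC n (fun x : E2 => (2 * Real.pi * I * (inner ℝ x v : ℝ)) * g x) := hg.mul_poly (by fun_prop)
  refine ⟨𝓕⁻ (fun x : E2 => (2 * Real.pi * I * (inner ℝ x v : ℝ)) * g x) ξ,
    𝓕⁻ (fun x : E2 => (2 * Real.pi * I * (inner ℝ x v : ℝ)) * ((2 * Real.pi * I * (inner ℝ x v : ℝ)) * g x)) ξ,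
    ⟨fun r => 𝓕⁻ (fun x : E2 => (2 * Real.pi * I * (inner ℝ x v : ℝ)) * g x) (ξ + r • v), ?_, ?_, ?_⟩, ?_, ?_, ?_⟩
  · filter_upwards with r
    exact hasDerivAt_fourierInv_line hg ξ v r
  · simp
  · have := hasDerivAt_fourierInv_line hg1 ξ v 0
    simpa using this
  · simp only [zero_smul, add_zero]
    unfold Mg
    have : 0 ≤ 100 * (H⁻¹ * (‖𝓕⁻ (mom1 g 0) ξ‖ + ‖𝓕⁻ (mom1 g 1) ξ‖)) := by positivity
    have : 0 ≤ 1000 * (H⁻¹ ^ 2 * (‖𝓕⁻ (mom2 g 0 0) ξ‖ + ‖𝓕⁻ (mom2 g 0 1) ξ‖ + ‖𝓕⁻ (mom2 g 1 1) ξ‖)) := by positivity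
    linarith
  · rw [line1_eq hg]
    have n0 : ‖(2 * Real.pi * I * v 0 : ℂ)‖ ≤ 100 := by
      simp only [norm_mul, Complex.norm_ofNat, Complex.norm_real, Real.norm_eq_abs, norm_I, abs_of_pos hpi]
      nlinarith
    have n1 : ‖(2 * Real.pi * I * v 1 : ℂ)‖ ≤ 100 := by
      simp only [norm_mul, Complex.norm_ofNat, Complex.norm_real, Real.norm_eq_abs, norm_I, abs_of_pos hpi]
      nlinarith
    calc _ ≤ 100 * ‖𝓕⁻ (mom1 g 0) ξ‖ + 100 * ‖𝓕⁻ (mom1 g 1) ξ‖ := by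
          refine (norm_add_le _ _).trans ?_
          rw [norm_mul _ (𝓕⁻ (mom1 g 0) ξ), norm_mul _ (𝓕⁻ (mom1 g 1) ξ)]
          gcongr
      _ = 100 * (H⁻¹ * (‖𝓕⁻ (mom1 g 0) ξ‖ + ‖𝓕⁻ (mom1 g 1) ξ‖)) * H := by field_simp
      _ ≤ Mg H g ξ * H := by
          gcongr
          unfold Mg
          have : 0 ≤ ‖𝓕⁻ g ξ‖ := norm_nonneg _
          have : 0 ≤ 1000 * (H⁻¹ ^ 2 * (‖𝓕⁻ (mom2 g 0 0) ξ‖ + ‖𝓕⁻ (mom2 g 0 1) ξ‖ + ‖𝓕⁻ (mom2 g 1 1) ξ‖)) := by positivity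
          linarith
  · rw [line2_eq hg]
    have hpi2 : Real.pi ^ 2 ≤ 10 := by nlinarith
    have hv0' : |v 0| ^ 2 ≤ 1 := by nlinarith [abs_nonneg (v 0)]
    have hv1' : |v 1| ^ 2 ≤ 25 := by nlinarith [abs_nonneg (v 1)]
    have hv01 : |v 0| * |v 1| ≤ 5 := by nlinarith [abs_nonneg (v 0), abs_nonneg (v 1)]
    have n0 : ‖(-(4 * Real.pi ^ 2 * v 0 ^ 2) : ℂ)‖ ≤ 1000 := by
      simp only [norm_neg, norm_mul, norm_pow, Complex.norm_ofNat, Complex.norm_real, Real.norm_eq_abs, abs_of_pos hpi]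
      nlinarith [mul_le_mul hpi2 hv0' (by positivity) (by norm_num)]
    have n1 : ‖(-(8 * Real.pi ^ 2 * v 0 * v 1) : ℂ)‖ ≤ 1000 := by
      simp only [norm_neg, norm_mul, norm_pow, Complex.norm_ofNat, Complex.norm_real, Real.norm_eq_abs, abs_of_pos hpi]
      nlinarith [mul_le_mul hpi2 hv01 (by positivity) (by norm_num)]
    have n2 : ‖(-(4 * Real.pi ^ 2 * v 1 ^ 2) : ℂ)‖ ≤ 1000 := by
      simp only [norm_neg, norm_mul, norm_pow, Complex.norm_ofNat, Complex.norm_real, Real.norm_eq_abs, abs_of_pos hpi]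
      nlinarith [mul_le_mul hpi2 hv1' (by positivity) (by norm_num)]
    calc _ ≤ 1000 * ‖𝓕⁻ (mom2 g 0 0) ξ‖ + (1000 * ‖𝓕⁻ (mom2 g 0 1) ξ‖ + 1000 * ‖𝓕⁻ (mom2 g 1 1) ξ‖) := by
          refine (norm_add_le _ _).trans ?_
          refine add_le_add ?_ ((norm_add_le _ _).trans ?_)
          · rw [norm_mul _ (𝓕⁻ (mom2 g 0 0) ξ)]; gcongr
          · rw [norm_mul _ (𝓕⁻ (mom2 g 0 1) ξ), norm_mul _ (𝓕⁻ (mom2 g 1 1) ξ)]; gcongr
      _ = 1000 * (H⁻¹ ^ 2 * (‖𝓕⁻ (mom2 g 0 0) ξ‖ + ‖𝓕⁻ (mom2 g 0 1) ξ‖ + ‖𝓕⁻ (mom2 g 1 1) ξ‖)) * H ^ 2 := by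
          field_simp
          ring
      _ ≤ Mg H g ξ * H ^ 2 := by
          gcongr
          unfold Mg
          have : 0 ≤ ‖𝓕⁻ g ξ‖ := norm_nonneg _
          have : 0 ≤ 100 * (H⁻¹ * (‖𝓕⁻ (mom1 g 0) ξ‖ + ‖𝓕⁻ (mom1 g 1) ξ‖)) := by positivity
          linarith

end Vale.Agent.P106.C
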