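import Vale.Agent.P106.C.Jet

open MeasureTheory Complex Set Filter
open scoped ENNReal NNReal ContDiff FourierTransform ComplexConjugate Topology SchwartzMap LineDeriv

namespace Vale.Agent.P106.C

open Vale.Agent.P117 (E2 Adm nrm norm_fourier_le norm_fourierInv_le continuous_fourier continuous_fourierInv
  lintegral_sq_fourier_le integral_fourier_mul integral_fourierInv_mul lintegral_E2)

/-- second derivative in direction `v` -/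
noncomputable def dd (v : E2) (G : 𝓢(E2, ℂ)) : 𝓢(E2, ℂ) := ∂_{v} (∂_{v} G)

theorem fourier_d2 (G : 𝓢(E2, ℂ)) (v : E2) (x : E2) :
    𝓕 (fun ξ : E2 => dd v G ξ) x = -((4 * Real.pi ^ 2 * (inner ℝ x v) ^ 2 : ℝ) : ℂ) * 𝓕 (fun ξ : E2 => G ξ) x := by
  have htg : (fun y : E2 => (inner ℝ y v : ℝ)).HasTemperateGrowth := ((innerSL ℝ).flip v).hasTemperateGrowth
  have h1 : 𝓕 (fun ξ : E2 => dd v G ξ) x = (𝓕 (dd v G) : 𝓢(E2, ℂ)) x := by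
    rw [SchwartzMap.fourier_coe]
  have h2 : 𝓕 (fun ξ : E2 => G ξ) x = (𝓕 G : 𝓢(E2, ℂ)) x := by
    rw [SchwartzMap.fourier_coe]
  rw [h1, h2, dd, SchwartzMap.fourier_lineDerivOp_eq, smul_apply,
    SchwartzMap.smulLeftCLM_apply_apply htg, SchwartzMap.fourier_lineDerivOp_eq, smul_apply,
    SchwartzMap.smulLeftCLM_apply_apply htg]
  simp only [smul_eq_mul, real_smul]
  push_cast
  linear_combination (4 * (Real.pi : ℂ) ^ 2 * ((inner ℝ x v : ℝ) : ℂ) ^ 2 * (𝓕 G) x) * I_sq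

theorem omega_L2 (G : 𝓢(E2, ℂ)) (v w : E2) (α β : ℝ) :
    ∫⁻ x : E2, ‖((1 + α * (inner ℝ x v) ^ 2 + β * (inner ℝ x w) ^ 2 : ℝ) : ℂ) * 𝓕 (fun ξ : E2 => G ξ) x‖ₑ ^ 2 ≤
      ∫⁻ ξ : E2, ‖G ξ - ((α / (4 * Real.pi ^ 2) : ℝ) : ℂ) * dd v G ξ -
        ((β / (4 * Real.pi ^ 2) : ℝ) : ℂ) * dd w G ξ‖ₑ ^ 2 := by
  set D : 𝓢(E2, ℂ) := G - ((α / (4 * Real.pi ^ 2) : ℝ) : ℂ) • (dd v G) -
    ((β / (4 * Real.pi ^ 2) : ℝ) : ℂ) • (dd w G) with hD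
  have hpi : (Real.pi : ℝ) ≠ 0 := Real.pi_ne_zero
  have h1 : ∀ x, 𝓕 (fun ξ : E2 => D ξ) x =
      ((1 + α * (inner ℝ x v) ^ 2 + β * (inner ℝ x w) ^ 2 : ℝ) : ℂ) * 𝓕 (fun ξ : E2 => G ξ) x := by
    intro x
    have e1 : 𝓕 (fun ξ : E2 => D ξ) x = (𝓕 D : 𝓢(E2, ℂ)) x := by rw [SchwartzMap.fourier_coe]
    have e2 : (𝓕 D : 𝓢(E2, ℂ)) = 𝓕 G - ((α / (4 * Real.pi ^ 2) : ℝ) : ℂ) • 𝓕 (dd v G) -
        ((β / (4 * Real.pi ^ 2) : ℝ) : ℂ) • 𝓕 (dd w G) := by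
      rw [hD]
      simp only [sub_eq_add_neg, FourierTransform.fourier_add, FourierTransform.fourier_neg,
        FourierTransform.fourier_smul]
    have e3 : (𝓕 (dd v G) : 𝓢(E2, ℂ)) x = 𝓕 (fun ξ : E2 => dd v G ξ) x := by
      rw [SchwartzMap.fourier_coe]
    have e4 : (𝓕 (dd w G) : 𝓢(E2, ℂ)) x = 𝓕 (fun ξ : E2 => dd w G ξ) x := by
      rw [SchwartzMap.fourier_coe]
    have e5 : (𝓕 G : 𝓢(E2, ℂ)) x = 𝓕 (fun ξ : E2 => G ξ) x := by rw [SchwartzMap.fourier_coe]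
    rw [e1, e2, sub_apply, sub_apply, smul_apply, smul_apply,
      e3, e4, e5, fourier_d2, fourier_d2]
    have hpc : (Real.pi : ℂ) ≠ 0 := by exact_mod_cast hpi
    simp only [smul_eq_mul]
    push_cast
    field_simp
    ring
  calc _ = ∫⁻ x : E2, ‖𝓕 (fun ξ : E2 => D ξ) x‖ₑ ^ 2 := by
        apply lintegral_congr
        intro x
        rw [h1]
    _ ≤ ∫⁻ ξ : E2, ‖D ξ‖ₑ ^ 2 := lintegral_sq_fourier_le D.integrable D.continuous.measurable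
    _ = _ := by
        apply lintegral_congr
        intro ξ
        rw [hD]
        simp only [sub_apply, smul_apply, smul_eq_mul]

theorem lintegral_cauchy {a : ℝ} (ha : 0 < a) (y : ℝ) :
    ∫⁻ x : ℝ, ENNReal.ofReal ((1 + a⁻¹ ^ 2 * (x + y) ^ 2)⁻¹) = ENNReal.ofReal (Real.pi * a) := by
  have h1 : ∫⁻ x : ℝ, ENNReal.ofReal ((1 + a⁻¹ ^ 2 * (x + y) ^ 2)⁻¹) =
      ∫⁻ x : ℝ, ENNReal.ofReal ((1 + a⁻¹ ^ 2 * x ^ 2)⁻¹) :=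
    lintegral_add_right_eq_self (fun x => ENNReal.ofReal ((1 + a⁻¹ ^ 2 * x ^ 2)⁻¹)) y
  have h2 : Integrable (fun x : ℝ => (1 + a⁻¹ ^ 2 * x ^ 2)⁻¹) := by
    have := integrable_inv_one_add_sq.comp_mul_left' (R := a⁻¹) (by positivity)
    refine this.congr (Eventually.of_forall fun x => ?_)
    simp only
    rw [mul_pow]
  have h3 : ∫ x : ℝ, (1 + a⁻¹ ^ 2 * x ^ 2)⁻¹ = Real.pi * a := by
    have := Measure.integral_comp_mul_left (fun x : ℝ => (1 + x ^ 2)⁻¹) a⁻¹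
    simp only [mul_pow, inv_inv, integral_univ_inv_one_add_sq, smul_eq_mul, abs_of_pos ha] at this
    rw [this]; ring
  rw [h1, ← h3, ofReal_integral_eq_lintegral_ofReal h2 (Eventually.of_forall fun x => by positivity)]

theorem lintegral_box (b : ℝ) {H L : ℝ} (hH : 0 < H) (hL : 0 < L) :
    ∫⁻ x : E2, ENNReal.ofReal ((1 + H⁻¹ ^ 2 * (x 0 + b * x 1) ^ 2 + L⁻¹ ^ 2 * (x 1) ^ 2)⁻¹ ^ 2) ≤
      ENNReal.ofReal (Real.pi ^ 2 * (H * L)) := by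
  have h1 := lintegral_E2 (fun z : ℝ × ℝ => ENNReal.ofReal
    ((1 + H⁻¹ ^ 2 * (z.1 + b * z.2) ^ 2 + L⁻¹ ^ 2 * z.2 ^ 2)⁻¹ ^ 2))
  simp only at h1
  rw [h1]
  calc ∫⁻ z : ℝ × ℝ, ENNReal.ofReal ((1 + H⁻¹ ^ 2 * (z.1 + b * z.2) ^ 2 + L⁻¹ ^ 2 * z.2 ^ 2)⁻¹ ^ 2)
      ≤ ∫⁻ z : ℝ × ℝ, ENNReal.ofReal ((1 + H⁻¹ ^ 2 * (z.1 + b * z.2) ^ 2)⁻¹) *
          ENNReal.ofReal ((1 + L⁻¹ ^ 2 * (z.2 + 0) ^ 2)⁻¹) := by
        apply lintegral_mono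
        intro z
        simp only
        rw [← ENNReal.ofReal_mul (by positivity)]
        apply ENNReal.ofReal_le_ofReal
        rw [← mul_inv, inv_pow (1 + H⁻¹ ^ 2 * (z.1 + b * z.2) ^ 2 + L⁻¹ ^ 2 * z.2 ^ 2) 2]
        apply inv_anti₀ (by positivity)
        have ha : 0 ≤ H⁻¹ ^ 2 * (z.1 + b * z.2) ^ 2 := by positivity
        have hb : 0 ≤ L⁻¹ ^ 2 * z.2 ^ 2 := by positivity
        rw [add_zero]
        nlinarith [mul_nonneg ha hb]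
    _ = ∫⁻ y : ℝ, ∫⁻ x : ℝ, ENNReal.ofReal ((1 + H⁻¹ ^ 2 * (x + b * y) ^ 2)⁻¹) *
          ENNReal.ofReal ((1 + L⁻¹ ^ 2 * (y + 0) ^ 2)⁻¹) := by
        rw [Measure.volume_eq_prod, lintegral_prod_symm']
        fun_prop
    _ = ∫⁻ y : ℝ, ENNReal.ofReal (Real.pi * H) * ENNReal.ofReal ((1 + L⁻¹ ^ 2 * (y + 0) ^ 2)⁻¹) := by
        apply lintegral_congr
        intro y
        rw [lintegral_mul_const' _ _ ENNReal.ofReal_ne_top, lintegral_cauchy hH]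
    _ = ENNReal.ofReal (Real.pi * H) * ENNReal.ofReal (Real.pi * L) := by
        rw [lintegral_const_mul' _ _ ENNReal.ofReal_ne_top, lintegral_cauchy hL]
    _ = ENNReal.ofReal (Real.pi ^ 2 * (H * L)) := by
        rw [← ENNReal.ofReal_mul (by positivity)]
        congr 1
        ring

/-- Cauchy-Schwarz for lower integrals -/
theorem lintegral_mul_cs {α : Type*} [MeasurableSpace α] {μ : Measure α} {f g : α → ℝ≥0∞}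
    (hf : AEMeasurable f μ) (hg : AEMeasurable g μ) :
    ∫⁻ x, f x * g x ∂μ ≤ (∫⁻ x, f x ^ 2 ∂μ) ^ (1/2:ℝ) * (∫⁻ x, g x ^ 2 ∂μ) ^ (1/2:ℝ) := by
  have h := ENNReal.lintegral_mul_le_Lp_mul_Lq μ (p := 2) (q := 2) ⟨by norm_num, by norm_num, by norm_num⟩ hf hg
  simpa only [Pi.mul_apply, ENNReal.rpow_ofNat] using h

theorem L1_le (b : ℝ) {H L : ℝ} (hH : 0 < H) (hL : 0 < L) {F : E2 → ℂ} (hF : Measurable F) :
    ∫⁻ x, ‖F x‖ₑ ≤ (ENNReal.ofReal (Real.pi ^ 2 * (H * L))) ^ (1/2:ℝ) * (∫⁻ x : E2,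
      ‖((1 + H⁻¹ ^ 2 * (x 0 + b * x 1) ^ 2 + L⁻¹ ^ 2 * (x 1) ^ 2 : ℝ) : ℂ) * F x‖ₑ ^ 2) ^ (1/2:ℝ) := by
  calc ∫⁻ x, ‖F x‖ₑ = ∫⁻ x : E2, ENNReal.ofReal ((1 + H⁻¹ ^ 2 * (x 0 + b * x 1) ^ 2 + L⁻¹ ^ 2 * (x 1) ^ 2)⁻¹) *
        ‖((1 + H⁻¹ ^ 2 * (x 0 + b * x 1) ^ 2 + L⁻¹ ^ 2 * (x 1) ^ 2 : ℝ) : ℂ) * F x‖ₑ := by
        apply lintegral_congr
        intro x
        have hp : 0 < 1 + H⁻¹ ^ 2 * (x 0 + b * x 1) ^ 2 + L⁻¹ ^ 2 * (x 1) ^ 2 := by positivity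
        rw [enorm_mul, ← mul_assoc, ← ofReal_norm (((1 + H⁻¹ ^ 2 * (x 0 + b * x 1) ^ 2 + L⁻¹ ^ 2 * (x 1) ^ 2 : ℝ) : ℂ)),
          Complex.norm_real, Real.norm_of_nonneg hp.le, ← ENNReal.ofReal_mul (by positivity), inv_mul_cancel₀ hp.ne',
          ENNReal.ofReal_one, one_mul]
    _ ≤ (∫⁻ x : E2, ENNReal.ofReal ((1 + H⁻¹ ^ 2 * (x 0 + b * x 1) ^ 2 + L⁻¹ ^ 2 * (x 1) ^ 2)⁻¹) ^ 2) ^ (1/2:ℝ) *
        (∫⁻ x : E2, ‖((1 + H⁻¹ ^ 2 * (x 0 + b * x 1) ^ 2 + L⁻¹ ^ 2 * (x 1) ^ 2 : ℝ) : ℂ) * F x‖ₑ ^ 2) ^ (1/2:ℝ) := by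
        apply lintegral_mul_cs
        · apply Measurable.aemeasurable; fun_prop
        · apply Measurable.aemeasurable; fun_prop
    _ ≤ _ := by
        gcongr
        refine le_trans (le_of_eq ?_) (lintegral_box b hH hL)
        apply lintegral_congr
        intro x
        rw [ENNReal.ofReal_pow (by positivity)]

end Vale.Agent.P106.C
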